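import Vale.Agent.P218.H67.Star

open MeasureTheory Set Filter Topology
open scoped Convolution

namespace Vale.Agent.P218.H67

variable {E : Type} [NormedAddCommGroup E] [InnerProductSpace ℝ E] [FiniteDimensional ℝ E]
    [MeasurableSpace E] [BorelSpace E]

/-- uniform approximation by `C^2` functions with compact support -/
lemma exists_approx {φ : E → ℝ} (hφ : Continuous φ) (hc : HasCompactSupport φ) {ε : ℝ}
    (hε : 0 < ε) : ∃ ψ : E → ℝ, ContDiff ℝ 2 ψ ∧ HasCompactSupport ψ ∧ ∀ y, |ψ y - φ y| ≤ ε := by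
  have hu : UniformContinuous φ := hc.uniformContinuous_of_continuous hφ
  obtain ⟨δ, hδ, h⟩ := Metric.uniformContinuous_iff.1 hu ε hε
  let b : ContDiffBump (0 : E) := ⟨δ / 2, δ, by positivity, by linarith⟩
  refine ⟨(b.normed volume ⋆[ContinuousLinearMap.lsmul ℝ ℝ, volume] φ), ?_, ?_, ?_⟩
  · exact b.hasCompactSupport_normed.contDiff_convolution_left _
      (b.contDiff_normed) (hφ.locallyIntegrable)
  · exact b.hasCompactSupport_normed.convolution _ hc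
  · intro y
    have := b.dist_normed_convolution_le (μ := (volume : Measure (E))) (g := φ) (x₀ := y)
      (ε := ε) hφ.aestronglyMeasurable (fun x hx => (h (by simpa using hx)).le)
    rwa [Real.dist_eq] at this

section

variable {m : ℕ} {t₀ : ℝ} {μ : ℝ → Measure (E)}
    {P : ℝ → E → (E →L[ℝ] E)} {H : ℝ → E → E}

lemma gg_sub_le {x₀ : E} {t : ℝ} (ht : t < t₀) [IsFiniteMeasure (μ t)] {ψ ψ' : E → ℝ}
    (h1 : Continuous ψ) (h2 : Continuous ψ') {c c' : ℝ} (b1 : ∀ y, |ψ y| ≤ c)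
    (b2 : ∀ y, |ψ' y| ≤ c') {ε : ℝ} (h : ∀ y, |ψ y - ψ' y| ≤ ε) :
    |gg m μ x₀ t₀ ψ t - gg m μ x₀ t₀ ψ' t| ≤ ε * gauss m μ x₀ t₀ t := by
  have e : gg m μ x₀ t₀ ψ t - gg m μ x₀ t₀ ψ' t =
      ∫ x, kap m t₀ t * (gw (sim x₀ t₀ t x) * (ψ (sim x₀ t₀ t x) - ψ' (sim x₀ t₀ t x))) ∂(μ t) := by
    unfold gg
    rw [← integral_sub (integrable_gg h1 b1) (integrable_gg h2 b2)]
    congr 1
    funext x
    ring
  rw [e, gauss_eq m μ x₀ ht, ← integral_const_mul, ← Real.norm_eq_abs]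
  refine norm_integral_le_of_norm_le (integrable_gauss.const_mul _) ?_
  refine Eventually.of_forall fun x => ?_
  rw [norm_mul, norm_mul, Real.norm_of_nonneg (kap_pos m ht).le, Real.norm_of_nonneg (gw_pos _).le]
  have := h (sim x₀ t₀ t x)
  have hk := kap_pos m ht
  have hg := gw_pos (sim x₀ t₀ t x)
  calc kap m t₀ t * (gw (sim x₀ t₀ t x) * ‖ψ (sim x₀ t₀ t x) - ψ' (sim x₀ t₀ t x)‖)
      ≤ kap m t₀ t * (gw (sim x₀ t₀ t x) * ε) := by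
        gcongr
        exact this
    _ = _ := by ring

lemma gg_le {x₀ : E} {t : ℝ} (ht : t < t₀) [IsFiniteMeasure (μ t)] {ψ : E → ℝ}
    (h1 : Continuous ψ) {c : ℝ} (b1 : ∀ y, |ψ y| ≤ c) :
    |gg m μ x₀ t₀ ψ t| ≤ c * gauss m μ x₀ t₀ t := by
  have h := gg_sub_le (m := m) (μ := μ) (x₀ := x₀) ht h1 (continuous_const (y := (0 : ℝ))) b1
    (c' := 0) (by simp) (ε := c) (by simpa using b1)
  have h2 : gg m μ x₀ t₀ (fun _ => (0 : ℝ)) t = 0 := by simp [gg]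
  rwa [h2, sub_zero] at h

/-- signed version of the key estimate -/
lemma keyest' (hμ : IsBrakkeFlow m t₀ μ P H) (hfin : ∀ t ∈ Ico 0 t₀, μ t univ < ⊤) (x₀ : E)
    {ψ : E → ℝ} {c₀ L : ℝ} (hs : ContDiff ℝ 2 ψ) (hb : ∀ y, |ψ y| ≤ c₀)
    (hL : ∀ y, ‖fderiv ℝ ψ y‖ ≤ L) {K : ℝ} (hK : 0 < K) {a b : ℝ} (ha : 0 ≤ a)
    (hab : a ≤ b) (hbt : b < t₀) :
    |gg m μ x₀ t₀ ψ b - gg m μ x₀ t₀ ψ a| ≤
      (K + 3 * c₀) * (gauss m μ x₀ t₀ a - gauss m μ x₀ t₀ b) +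
      L ^ 2 / (2 * K) * gauss m μ x₀ t₀ a * (Real.log (t₀ - a) - Real.log (t₀ - b)) := by
  have hc0 : 0 ≤ c₀ := (abs_nonneg _).trans (hb 0)
  have h2' : Bd (2 * c₀) L (fun y => ψ y + c₀) := by
    refine ⟨hs.add contDiff_const, fun y => ?_, fun y => ?_, fun y => ?_⟩
    · have := (abs_le.1 (hb y)).1
      linarith
    · have := (abs_le.1 (hb y)).2
      linarith
    · rw [fderiv_add_const]
      exact hL y
  have h2 := keyest hμ hfin x₀ h2' hK ha hab hbt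
  have hsplit : ∀ t ∈ Ico 0 t₀, gg m μ x₀ t₀ (fun y => ψ y + c₀) t =
      gg m μ x₀ t₀ ψ t + c₀ * gauss m μ x₀ t₀ t := by
    intro t ht
    have : IsFiniteMeasure (μ t) := ⟨hfin t ht⟩
    rw [gauss_eq m μ x₀ ht.2, ← integral_const_mul]
    unfold gg
    rw [← integral_add (integrable_gg hs.continuous hb) (integrable_gauss.const_mul _)]
    congr 1
    funext x
    ring
  rw [hsplit a ⟨ha, lt_of_le_of_lt hab hbt⟩, hsplit b ⟨ha.trans hab, hbt⟩] at h2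
  have h3 : 0 ≤ c₀ * (gauss m μ x₀ t₀ a - gauss m μ x₀ t₀ b) :=
    mul_nonneg hc0 (by linarith [gauss_anti hμ hfin x₀ ha hab hbt])
  rw [abs_le] at h2 ⊢
  constructor
  · nlinarith [h2.1]
  · nlinarith [h2.2]

/-- The Gaussian density: limit of the Gaussian density ratios. -/
lemma gauss_tendsto (hμ : IsBrakkeFlow m t₀ μ P H) (hfin : ∀ t ∈ Ico 0 t₀, μ t univ < ⊤)
    (x₀ : E) (ht₀ : 0 < t₀) : ∀ ε > 0, ∃ τ₁ > 0, τ₁ ≤ t₀ ∧ ∀ τ τ' : ℝ, 0 < τ' → τ' ≤ τ →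
      τ ≤ τ₁ → gauss m μ x₀ t₀ (t₀ - τ) - gauss m μ x₀ t₀ (t₀ - τ') ≤ ε := by
  intro ε hε
  set S : Set ℝ := (fun t => gauss m μ x₀ t₀ t) '' Ico 0 t₀ with hS
  have hne : S.Nonempty := ⟨_, 0, ⟨le_rfl, ht₀⟩, rfl⟩
  have hbdd : BddBelow S := ⟨0, by
    rintro _ ⟨t, ht, rfl⟩
    exact gauss_nonneg ht.2⟩
  obtain ⟨v, ⟨t, ht, rfl⟩, hv⟩ := exists_lt_of_csInf_lt hne (show sInf S < sInf S + ε by linarith)
  refine ⟨t₀ - t, by linarith [ht.2], by linarith [ht.1], ?_⟩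
  intro τ τ' h1 h2 h3
  have h4 : gauss m μ x₀ t₀ (t₀ - τ) ≤ gauss m μ x₀ t₀ t :=
    gauss_anti hμ hfin x₀ ht.1 (by linarith) (by linarith)
  have h5 : sInf S ≤ gauss m μ x₀ t₀ (t₀ - τ') :=
    csInf_le hbdd ⟨t₀ - τ', ⟨by linarith [ht.1], by linarith⟩, rfl⟩
  simp only at hv
  linarith

/-- Asymptotic continuity in logarithmic time. -/
lemma ac (hμ : IsBrakkeFlow m t₀ μ P H) (hfin : ∀ t ∈ Ico 0 t₀, μ t univ < ⊤) (x₀ : E)
    (ht₀ : 0 < t₀) {ψ : E → ℝ} (hψ : Continuous ψ) (hc : HasCompactSupport ψ) {q : ℝ}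
    (hq : 1 ≤ q) : ∀ ε > 0, ∃ τ₁ > 0, τ₁ ≤ t₀ ∧ ∀ τ τ' : ℝ, 0 < τ' → τ' ≤ τ → τ ≤ q * τ' →
      τ ≤ τ₁ → |gg m μ x₀ t₀ ψ (t₀ - τ') - gg m μ x₀ t₀ ψ (t₀ - τ)| ≤ ε := by
  intro ε hε
  set G0 := gauss m μ x₀ t₀ 0 with hG0
  have hG0n : 0 ≤ G0 := gauss_nonneg ht₀
  obtain ⟨ψ₂, hs, hc₂, happ⟩ := exists_approx hψ hc (ε := ε / (4 * (G0 + 1))) (by positivity)
  obtain ⟨c₀, hb⟩ := hs.continuous.bounded_above_of_compact_support hc₂
  obtain ⟨c₁, hb₁⟩ := hψ.bounded_above_of_compact_support hc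
  obtain ⟨L, hL⟩ := (hs.continuous_fderiv (by norm_num)).bounded_above_of_compact_support
    (hc₂.fderiv (𝕜 := ℝ))
  have hc0 : 0 ≤ c₀ := (norm_nonneg _).trans (hb 0)
  have hlq : 0 ≤ Real.log q := Real.log_nonneg hq
  set K := 2 * L ^ 2 * G0 * Real.log q / ε + 1 with hKdef
  have hK : 0 < K := by positivity
  obtain ⟨τ₁, hτ₁, hτ₁t, hg⟩ := gauss_tendsto hμ hfin x₀ ht₀ (ε / (4 * (K + 3 * c₀)))
    (by positivity)
  refine ⟨τ₁, hτ₁, hτ₁t, ?_⟩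
  intro τ τ' h1 h2 h3 h4
  have ta : t₀ - τ ∈ Ico 0 t₀ := ⟨by linarith, by linarith⟩
  have tb : t₀ - τ' ∈ Ico 0 t₀ := ⟨by linarith, by linarith⟩
  have fa : IsFiniteMeasure (μ (t₀ - τ)) := ⟨hfin _ ta⟩
  have fb : IsFiniteMeasure (μ (t₀ - τ')) := ⟨hfin _ tb⟩
  have d1 := gg_sub_le (m := m) (μ := μ) (x₀ := x₀) tb.2 hψ hs.continuous hb₁ hb
    (ε := ε / (4 * (G0 + 1))) (fun y => by rw [abs_sub_comm]; exact happ y)
  have d2 := gg_sub_le (m := m) (μ := μ) (x₀ := x₀) ta.2 hψ hs.continuous hb₁ hb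
    (ε := ε / (4 * (G0 + 1))) (fun y => by rw [abs_sub_comm]; exact happ y)
  have d3 := keyest' hμ hfin x₀ hs hb hL hK ta.1 (show t₀ - τ ≤ t₀ - τ' by linarith) tb.2
  have gl : ∀ t ∈ Ico 0 t₀, gauss m μ x₀ t₀ t ≤ G0 := fun t ht =>
    gauss_anti hμ hfin x₀ le_rfl ht.1 ht.2
  have e1 : ε / (4 * (G0 + 1)) * gauss m μ x₀ t₀ (t₀ - τ') ≤ ε / 4 := by
    calc _ ≤ ε / (4 * (G0 + 1)) * (G0 + 1) := by
          have := gl _ tb
          gcongr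
          linarith
      _ = ε / 4 := by field_simp
  have e2 : ε / (4 * (G0 + 1)) * gauss m μ x₀ t₀ (t₀ - τ) ≤ ε / 4 := by
    calc _ ≤ ε / (4 * (G0 + 1)) * (G0 + 1) := by
          have := gl _ ta
          gcongr
          linarith
      _ = ε / 4 := by field_simp
  have e3 : (K + 3 * c₀) * (gauss m μ x₀ t₀ (t₀ - τ) - gauss m μ x₀ t₀ (t₀ - τ')) ≤ ε / 4 := by
    calc _ ≤ (K + 3 * c₀) * (ε / (4 * (K + 3 * c₀))) := by
          have := hg τ τ' h1 h2 h4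
          gcongr
      _ = ε / 4 := by field_simp
  have e4 : L ^ 2 / (2 * K) * gauss m μ x₀ t₀ (t₀ - τ) *
      (Real.log (t₀ - (t₀ - τ)) - Real.log (t₀ - (t₀ - τ'))) ≤ ε / 4 := by
    have f1 : Real.log (t₀ - (t₀ - τ)) - Real.log (t₀ - (t₀ - τ')) ≤ Real.log q := by
      have hτ : 0 < τ := lt_of_lt_of_le h1 h2
      rw [sub_sub_cancel, sub_sub_cancel, ← Real.log_div hτ.ne' h1.ne']
      refine Real.log_le_log (by positivity) ?_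
      rwa [div_le_iff₀ h1]
    have f2 : 0 ≤ L ^ 2 / (2 * K) * gauss m μ x₀ t₀ (t₀ - τ) :=
      mul_nonneg (by positivity) (gauss_nonneg ta.2)
    calc _ ≤ L ^ 2 / (2 * K) * gauss m μ x₀ t₀ (t₀ - τ) * Real.log q :=
          mul_le_mul_of_nonneg_left f1 f2
      _ ≤ L ^ 2 / (2 * K) * G0 * Real.log q := by
          have := gl _ ta
          gcongr
      _ ≤ ε / 4 := by
          rw [div_mul_eq_mul_div, div_mul_eq_mul_div, div_le_div_iff₀ (by positivity) (by norm_num)]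
          have : ε * K = 2 * L ^ 2 * G0 * Real.log q + ε := by
            rw [hKdef]
            field_simp
          nlinarith
  have e5 : |gg m μ x₀ t₀ ψ (t₀ - τ') - gg m μ x₀ t₀ ψ (t₀ - τ)| ≤
      |gg m μ x₀ t₀ ψ (t₀ - τ') - gg m μ x₀ t₀ ψ₂ (t₀ - τ')| +
      |gg m μ x₀ t₀ ψ (t₀ - τ) - gg m μ x₀ t₀ ψ₂ (t₀ - τ)| +
      |gg m μ x₀ t₀ ψ₂ (t₀ - τ') - gg m μ x₀ t₀ ψ₂ (t₀ - τ)| := by
    have : gg m μ x₀ t₀ ψ (t₀ - τ') - gg m μ x₀ t₀ ψ (t₀ - τ) =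
        (gg m μ x₀ t₀ ψ (t₀ - τ') - gg m μ x₀ t₀ ψ₂ (t₀ - τ')) -
        (gg m μ x₀ t₀ ψ (t₀ - τ) - gg m μ x₀ t₀ ψ₂ (t₀ - τ)) +
        (gg m μ x₀ t₀ ψ₂ (t₀ - τ') - gg m μ x₀ t₀ ψ₂ (t₀ - τ)) := by ring
    rw [this]
    refine (abs_add_le _ _).trans (add_le_add ?_ le_rfl)
    exact abs_sub _ _
  linarith

end

end Vale.Agent.P218.H67
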