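import Vale.Agent.P218.H67.Def

open MeasureTheory Set Filter Topology

namespace Vale.Agent.P218.H67

variable {E : Type} [NormedAddCommGroup E] [InnerProductSpace ℝ E] [FiniteDimensional ℝ E]
    [MeasurableSpace E] [BorelSpace E]

/-- normalising factor -/
noncomputable def kap (m : ℕ) (t₀ t : ℝ) : ℝ := (4 * Real.pi * (t₀ - t)) ^ (-(m : ℝ) / 2)

/-- similarity variable -/
noncomputable def sim (x₀ : E) (t₀ t : ℝ) (x : E) : E := (√(t₀ - t))⁻¹ • (x - x₀)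

/-- self-similar test function -/
noncomputable def tst (m : ℕ) (x₀ : E) (t₀ : ℝ) (Q : E → ℝ) (t : ℝ) (x : E) : ℝ :=
  kap m t₀ t * Q (sim x₀ t₀ t x)

lemma kap_pos (m : ℕ) {t₀ t : ℝ} (h : t < t₀) : 0 < kap m t₀ t := by
  unfold kap
  have : 0 < t₀ - t := by linarith
  positivity

lemma kap_hasDerivAt (m : ℕ) {t₀ t : ℝ} (h : t < t₀) :
    HasDerivAt (kap m t₀) (kap m t₀ t * (m / (2 * (t₀ - t)))) t := by
  have hτ : 0 < t₀ - t := by linarith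
  have hb : 0 < 4 * Real.pi * (t₀ - t) := by positivity
  have h1 : HasDerivAt (fun s : ℝ => 4 * Real.pi * (t₀ - s)) (4 * Real.pi * (0 - 1)) t :=
    ((hasDerivAt_const t t₀).sub (hasDerivAt_id t)).const_mul _
  have h2 := h1.rpow_const (p := -(m : ℝ) / 2) (Or.inl hb.ne')
  have h3 : (4 * Real.pi * (0 - 1)) * (-(m : ℝ) / 2) * (4 * Real.pi * (t₀ - t)) ^ (-(m : ℝ) / 2 - 1)
      = kap m t₀ t * (m / (2 * (t₀ - t))) := by
    unfold kap
    rw [Real.rpow_sub_one hb.ne']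
    field_simp
    ring
  rw [h3] at h2
  exact h2

lemma inv_sqrt_hasDerivAt {t₀ t : ℝ} (h : t < t₀) :
    HasDerivAt (fun s : ℝ => (√(t₀ - s))⁻¹) (1 / (2 * (t₀ - t)) * (√(t₀ - t))⁻¹) t := by
  have hτ : 0 < t₀ - t := by linarith
  have hs : 0 < √(t₀ - t) := Real.sqrt_pos.2 hτ
  have h1 : HasDerivAt (fun s : ℝ => t₀ - s) (0 - 1) t :=
    (hasDerivAt_const t t₀).sub (hasDerivAt_id t)
  have h2 := (h1.sqrt hτ.ne').inv hs.ne'
  have h3 : -((0 - 1) / (2 * √(t₀ - t))) / √(t₀ - t) ^ 2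
      = 1 / (2 * (t₀ - t)) * (√(t₀ - t))⁻¹ := by
    rw [Real.sq_sqrt hτ.le]
    field_simp
    ring
  rw [h3] at h2
  exact h2

lemma sim_hasDerivAt (x₀ x : E) {t₀ t : ℝ} (h : t < t₀) :
    HasDerivAt (fun s => sim x₀ t₀ s x) ((1 / (2 * (t₀ - t))) • sim x₀ t₀ t x) t := by
  have := (inv_sqrt_hasDerivAt h).smul_const (x - x₀)
  rw [mul_smul] at this
  exact this

lemma sim_hasFDerivAt (x₀ x : E) (t₀ t : ℝ) :
    HasFDerivAt (sim x₀ t₀ t) ((√(t₀ - t))⁻¹ • ContinuousLinearMap.id ℝ (E)) x := by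
  have h : HasFDerivAt (fun y : E => y - x₀) (ContinuousLinearMap.id ℝ (E)) x :=
    (hasFDerivAt_id x).sub_const x₀
  exact h.const_smul ((√(t₀ - t))⁻¹)

lemma tst_fderiv (m : ℕ) (x₀ x : E) (t₀ t : ℝ) {Q : E → ℝ}
    (hQ : Differentiable ℝ Q) (v : E) :
    fderiv ℝ (tst m x₀ t₀ Q t) x v =
      kap m t₀ t * ((√(t₀ - t))⁻¹ * fderiv ℝ Q (sim x₀ t₀ t x) v) := by
  have h1 := ((hQ (sim x₀ t₀ t x)).hasFDerivAt.comp x (sim_hasFDerivAt x₀ x t₀ t)).const_mul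
    (kap m t₀ t)
  have h2 : fderiv ℝ (tst m x₀ t₀ Q t) x = _ := h1.fderiv
  rw [h2]
  simp

lemma tst_deriv (m : ℕ) (x₀ x : E) {t₀ t : ℝ} (h : t < t₀) {Q : E → ℝ}
    (hQ : Differentiable ℝ Q) :
    deriv (fun s => tst m x₀ t₀ Q s x) t =
      kap m t₀ t * ((1 / (2 * (t₀ - t))) *
        (m * Q (sim x₀ t₀ t x) + fderiv ℝ Q (sim x₀ t₀ t x) (sim x₀ t₀ t x))) := by
  have h1 := (hQ (sim x₀ t₀ t x)).hasFDerivAt.comp_hasDerivAt t (sim_hasDerivAt x₀ x h)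
  have h2 := (kap_hasDerivAt m h).mul h1
  have h3 : deriv (fun s => tst m x₀ t₀ Q s x) t = _ := h2.deriv
  rw [h3]
  simp only [map_smul, smul_eq_mul, Function.comp]
  have hτ : 0 < t₀ - t := by linarith
  field_simp

lemma tst_smooth (m : ℕ) (x₀ : E) (t₀ : ℝ) {Q : E → ℝ} (hQ : ContDiff ℝ 2 Q) :
    ContDiffOn ℝ 2 (fun p : ℝ × E => tst m x₀ t₀ Q p.1 p.2) (Iio t₀ ×ˢ univ) := by
  have hτ : ∀ p ∈ (Iio t₀ ×ˢ (univ : Set (E))), 0 < t₀ - p.1 := by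
    rintro ⟨t, x⟩ ⟨ht, -⟩
    simp only [mem_Iio] at ht
    simpa using ht
  have h0 : ContDiffOn ℝ 2 (fun p : ℝ × E => t₀ - p.1) (Iio t₀ ×ˢ univ) :=
    (contDiff_const.sub contDiff_fst).contDiffOn
  have h1 : ContDiffOn ℝ 2 (fun p : ℝ × E => kap m t₀ p.1) (Iio t₀ ×ˢ univ) := by
    unfold kap
    refine ContDiffOn.rpow_const_of_ne ((contDiffOn_const (c := 4 * Real.pi)).mul h0) ?_
    intro p hp
    have := hτ p hp
    positivity
  have h2 : ContDiffOn ℝ 2 (fun p : ℝ × E => (√(t₀ - p.1))⁻¹) (Iio t₀ ×ˢ univ) := by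
    refine ContDiffOn.inv (ContDiffOn.sqrt h0 (fun p hp => (hτ p hp).ne')) ?_
    intro p hp
    exact (Real.sqrt_pos.2 (hτ p hp)).ne'
  have h3 : ContDiffOn ℝ 2 (fun p : ℝ × E => sim x₀ t₀ p.1 p.2) (Iio t₀ ×ˢ univ) := by
    unfold sim
    exact h2.smul (contDiff_snd.sub contDiff_const).contDiffOn
  exact h1.mul (hQ.comp_contDiffOn h3)

lemma tst_isTest (m : ℕ) (x₀ : E) (t₀ : ℝ) {Q : E → ℝ} (hQ : ContDiff ℝ 2 Q)
    (hc : HasCompactSupport Q) (h0 : ∀ y, 0 ≤ Q y) : IsTest t₀ (tst m x₀ t₀ Q) where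
  nonneg := fun t ht x => mul_nonneg (kap_pos m ht).le (h0 _)
  smooth := tst_smooth m x₀ t₀ hQ
  supp := by
    intro a b hb
    obtain ⟨R, hR⟩ := hc.isCompact.isBounded.subset_closedBall (0 : E)
    refine ⟨Metric.closedBall x₀ (√(t₀ - a) * R), isCompact_closedBall _ _, ?_⟩
    intro t ht x hx
    have hτ : 0 < t₀ - t := by linarith [ht.2]
    have hs : 0 < √(t₀ - t) := Real.sqrt_pos.2 hτ
    have : Q (sim x₀ t₀ t x) = 0 := by
      by_contra hne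
      apply hx
      have h1 : sim x₀ t₀ t x ∈ Metric.closedBall (0 : E) R :=
        hR (subset_tsupport _ (by simpa using hne))
      rw [mem_closedBall_zero_iff] at h1
      have h2 : ‖x - x₀‖ = √(t₀ - t) * ‖sim x₀ t₀ t x‖ := by
        unfold sim
        rw [norm_smul, norm_inv, Real.norm_of_nonneg hs.le]
        field_simp
      rw [Metric.mem_closedBall, dist_eq_norm, h2]
      have h3 : √(t₀ - t) ≤ √(t₀ - a) := Real.sqrt_le_sqrt (by linarith [ht.1])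
      have h4 : 0 ≤ R := (norm_nonneg _).trans h1
      gcongr
    simp [tst, this]

end Vale.Agent.P218.H67
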