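import Vale.Agent.P218.H67.Rate

open MeasureTheory Set Filter Topology

namespace Vale.Agent.P218.H67

variable {E : Type} [NormedAddCommGroup E] [InnerProductSpace ℝ E] [FiniteDimensional ℝ E]
    [MeasurableSpace E] [BorelSpace E]

lemma fderiv_gw_mul {A : E → ℝ} (hA : Differentiable ℝ A) (y v : E) :
    fderiv ℝ (fun z => gw z * A z) y v =
      gw y * (fderiv ℝ A y v - 1 / 2 * inner ℝ y v * A y) := by
  have h1 := (gw_hasFDerivAt y).mul (hA y).hasFDerivAt
  have h2 : fderiv ℝ (fun z => gw z * A z) y = _ := h1.fderiv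
  rw [h2]
  simp only [add_apply, smul_apply, innerSL_apply_apply, smul_eq_mul]
  ring

/-- the admissible profiles -/
structure Prof (c : ℝ) (A : E → ℝ) : Prop where
  smooth : ContDiff ℝ 2 A
  compact : HasCompactSupport A
  nonneg : ∀ y, 0 ≤ A y
  grad : ∀ y, ‖fderiv ℝ A y‖ ^ 2 ≤ 4 * c * A y

/-- the integrand after adding the first variation of the position vector field -/
noncomputable def Ex (m : ℕ) (P : E →L[ℝ] E) (h y : E) (A : ℝ) (D : E →L[ℝ] ℝ) : ℝ :=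
  -(‖h‖ ^ 2 * A) + (D h - 1 / 2 * inner ℝ y h * A) +
      1 / 2 * (m * A + (D y - 1 / 2 * inner ℝ y y * A)) -
      1 / 2 * ((D (P y) - 1 / 2 * inner ℝ y (P y) * A) + A * m) - 1 / 2 * A * inner ℝ h y

lemma rate_repr {m : ℕ} {t₀ : ℝ} {μ : ℝ → Measure (E)}
    {P : ℝ → E → (E →L[ℝ] E)} {H : ℝ → E → E}
    (hμ : IsBrakkeFlow m t₀ μ P H) (hfin : ∀ t ∈ Ico 0 t₀, μ t univ < ⊤) (x₀ : E)
    {A : E → ℝ} {c : ℝ} (hA : Prof c A) :
    ∀ᵐ t ∂(volume.restrict (Ioo 0 t₀)), ∃ F : E → ℝ, Integrable F (μ t) ∧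
      rate μ H (tst m x₀ t₀ (fun z => gw z * A z)) t = ∫ x, F x ∂(μ t) ∧
      ∀ᵐ x ∂(μ t), IsPlane m (P t x) ∧ P t x (H t x) = 0 ∧
        F x = kap m t₀ t / (t₀ - t) * gw (sim x₀ t₀ t x) * Ex m (P t x) (√(t₀ - t) • H t x)
          (sim x₀ t₀ t x) (A (sim x₀ t₀ t x)) (fderiv ℝ A (sim x₀ t₀ t x)) := by
  filter_upwards [hμ.meas, hμ.plane, hμ.sq, hμ.first, ae_restrict_mem measurableSet_Ioo]
    with t hmeas hplane hsq hfirst ht
  have hlt : t < t₀ := ht.2
  have hτ : 0 < t₀ - t := by linarith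
  have hs : 0 < √(t₀ - t) := Real.sqrt_pos.2 hτ
  have hss : √(t₀ - t) * √(t₀ - t) = t₀ - t := Real.mul_self_sqrt hτ.le
  have hκ : 0 < kap m t₀ t := kap_pos m hlt
  have hrad := hμ.radon t ⟨ht.1.le, ht.2⟩
  have hfinm : IsFiniteMeasure (μ t) := ⟨hfin t ⟨ht.1.le, ht.2⟩⟩
  set Q : E → ℝ := fun z => gw z * A z with hQdef
  have hQ : ContDiff ℝ 2 Q := gw_contDiff.mul hA.smooth
  have hQd : Differentiable ℝ Q := hQ.differentiable (by norm_num)
  have hQc : HasCompactSupport Q := hA.compact.mul_left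
  have hDc : Continuous (fderiv ℝ Q) := hQ.continuous_fderiv (by norm_num)
  obtain ⟨R, hR⟩ := hQc.isCompact.isBounded.subset_closedBall (0 : E)
  obtain ⟨CQ, hCQ⟩ := hQ.continuous.bounded_above_of_compact_support hQc
  obtain ⟨CD, hCD⟩ := hDc.bounded_above_of_compact_support (hQc.fderiv (𝕜 := ℝ))
  set K : Set (E) := Metric.closedBall x₀ (√(t₀ - t) * R) with hK
  have hKc : IsCompact K := isCompact_closedBall _ _
  have hQ0 : ∀ x ∉ K, Q (sim x₀ t₀ t x) = 0 := by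
    intro x hx
    by_contra hne
    exact sim_notMem x₀ hlt hx (hR (subset_tsupport _ (by simpa using hne)))
  have hD0 : ∀ x ∉ K, fderiv ℝ Q (sim x₀ t₀ t x) = 0 := by
    intro x hx
    by_contra hne
    exact sim_notMem x₀ hlt hx (hR (support_fderiv_subset ℝ (by simpa using hne)))
  have hyK : ∀ x ∈ K, ‖sim x₀ t₀ t x‖ ≤ R := fun x hx => sim_mem x₀ hlt hx
  have hCQ0 : 0 ≤ CQ := (norm_nonneg _).trans (hCQ 0)
  have hCD0 : 0 ≤ CD := (norm_nonneg _).trans (hCD 0)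
  have cs : Continuous (sim x₀ t₀ t) := sim_continuous x₀ t₀ t
  have mQ : AEStronglyMeasurable (fun x => Q (sim x₀ t₀ t x)) (μ t) :=
    (hQ.continuous.comp cs).aestronglyMeasurable
  have mD : AEStronglyMeasurable (fun x => fderiv ℝ Q (sim x₀ t₀ t x)) (μ t) :=
    (hDc.comp cs).aestronglyMeasurable
  have mapp : ∀ {v : E → E}, AEStronglyMeasurable v (μ t) →
      AEStronglyMeasurable (fun x => fderiv ℝ Q (sim x₀ t₀ t x) (v x)) (μ t) := by
    intro v hv
    exact isBoundedBilinearMap_apply.continuous.comp_aestronglyMeasurable (mD.prodMk hv)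
  have mPy : AEStronglyMeasurable (fun x => P t x (sim x₀ t₀ t x)) (μ t) :=
    isBoundedBilinearMap_apply.continuous.comp_aestronglyMeasurable
      (hmeas.1.prodMk cs.aestronglyMeasurable)
  have bR : ∀ x ∈ K, 0 ≤ R := fun x hx => (norm_nonneg _).trans (hyK x hx)
  -- first integrand
  set I1 : E → ℝ := fun x => (-(‖H t x‖ ^ 2 * (kap m t₀ t * Q (sim x₀ t₀ t x))) +
      kap m t₀ t * ((√(t₀ - t))⁻¹ * fderiv ℝ Q (sim x₀ t₀ t x) (H t x)) +
      kap m t₀ t * ((1 / (2 * (t₀ - t))) * (m * Q (sim x₀ t₀ t x) +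
        fderiv ℝ Q (sim x₀ t₀ t x) (sim x₀ t₀ t x)))) with hI1
  set J1 : E → ℝ := fun x => divP (P t x) (vf m x₀ t₀ Q t) x with hJ1
  set J2 : E → ℝ := fun x => inner ℝ (H t x) (vf m x₀ t₀ Q t x) with hJ2
  have nH : ∀ x, ‖H t x‖ ≤ 1 + ‖H t x‖ ^ 2 := fun x => by nlinarith [sq_nonneg (‖H t x‖ - 1)]
  have n1 : ∀ x, (1 : ℝ) ≤ 1 + ‖H t x‖ ^ 2 := fun x => by nlinarith [sq_nonneg (‖H t x‖)]
  have n2 : ∀ x, ‖H t x‖ ^ 2 ≤ 1 + ‖H t x‖ ^ 2 := fun x => by linarith
  have iI1 : Integrable I1 (μ t) := by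
    refine integrable_of_bound hKc (hsq K hKc) ?_
      (kap m t₀ t * CQ + kap m t₀ t * ((√(t₀ - t))⁻¹ * CD) +
        kap m t₀ t * ((1 / (2 * (t₀ - t))) * (m * CQ + CD * R))) ?_ ?_
    · have mH2 : AEStronglyMeasurable (fun x => ‖H t x‖ ^ 2) (μ t) := hmeas.2.norm.pow 2
      exact ((mH2.mul (mQ.const_mul _)).neg.add (((mapp hmeas.2).const_mul _).const_mul _)).add
        ((((mQ.const_mul _).add (mapp cs.aestronglyMeasurable)).const_mul _).const_mul _)
    · refine Eventually.of_forall fun x hx => ?_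
      have q1 : |Q (sim x₀ t₀ t x)| ≤ CQ := hCQ _
      have q2 : |fderiv ℝ Q (sim x₀ t₀ t x) (H t x)| ≤ CD * ‖H t x‖ :=
        ((fderiv ℝ Q (sim x₀ t₀ t x)).le_opNorm _).trans (by gcongr; exact hCD _)
      have q3 : |fderiv ℝ Q (sim x₀ t₀ t x) (sim x₀ t₀ t x)| ≤ CD * R :=
        ((fderiv ℝ Q (sim x₀ t₀ t x)).le_opNorm _).trans
          (mul_le_mul (hCD _) (hyK x hx) (norm_nonneg _) hCD0)
      have r0 : 0 ≤ R := bR x hx
      calc |I1 x| ≤ |‖H t x‖ ^ 2 * (kap m t₀ t * Q (sim x₀ t₀ t x))| +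
            |kap m t₀ t * ((√(t₀ - t))⁻¹ * fderiv ℝ Q (sim x₀ t₀ t x) (H t x))| +
            |kap m t₀ t * ((1 / (2 * (t₀ - t))) * (m * Q (sim x₀ t₀ t x) +
              fderiv ℝ Q (sim x₀ t₀ t x) (sim x₀ t₀ t x)))| := by
              refine (abs_add_le _ _).trans (add_le_add ((abs_add_le _ _).trans ?_) le_rfl)
              rw [abs_neg]
        _ ≤ ‖H t x‖ ^ 2 * (kap m t₀ t * CQ) +
            kap m t₀ t * ((√(t₀ - t))⁻¹ * (CD * ‖H t x‖)) +
            kap m t₀ t * ((1 / (2 * (t₀ - t))) * (m * CQ + CD * R)) := by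
              refine add_le_add (add_le_add ?_ ?_) ?_
              · rw [abs_mul, abs_mul, abs_of_nonneg (sq_nonneg ‖H t x‖), abs_of_pos hκ]
                gcongr
              · rw [abs_mul, abs_mul, abs_of_pos hκ, abs_of_pos (inv_pos.2 hs)]
                gcongr
              · rw [abs_mul, abs_mul, abs_of_pos hκ, abs_of_pos (by positivity)]
                gcongr
                refine (abs_add_le _ _).trans (add_le_add ?_ q3)
                rw [abs_mul, Nat.abs_cast]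
                gcongr
        _ ≤ (1 + ‖H t x‖ ^ 2) * (kap m t₀ t * CQ) +
            kap m t₀ t * ((√(t₀ - t))⁻¹ * (CD * (1 + ‖H t x‖ ^ 2))) +
            kap m t₀ t * ((1 / (2 * (t₀ - t))) * (m * CQ + CD * R)) * (1 + ‖H t x‖ ^ 2) := by
              refine add_le_add (add_le_add ?_ ?_) ?_
              · gcongr
                exact n2 x
              · gcongr
                exact nH x
              · refine le_mul_of_one_le_right ?_ (n1 x)
                positivity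
        _ = _ := by ring
    · refine Eventually.of_forall fun x hx => ?_
      simp only [hI1, hQ0 x hx, hD0 x hx]
      simp
  have eJ1 : ∀ᵐ x ∂(μ t), J1 x = -(kap m t₀ t / (2 * (t₀ - t))) *
      (fderiv ℝ Q (sim x₀ t₀ t x) (P t x (sim x₀ t₀ t x)) + Q (sim x₀ t₀ t x) * m) := by
    filter_upwards [hplane] with x hx
    exact divP_vf x₀ x hlt hQd hx.1
  have iJ1 : Integrable J1 (μ t) := by
    refine integrable_of_bound hKc (hsq K hKc) ?_
      ((kap m t₀ t / (2 * (t₀ - t))) * (CD * R + CQ * m)) ?_ ?_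
    · exact AEStronglyMeasurable.congr
        (((mapp mPy).add (mQ.mul_const _)).const_mul (-(kap m t₀ t / (2 * (t₀ - t)))))
        (by filter_upwards [eJ1] with x hx; rw [hx]; rfl)
    · filter_upwards [eJ1, hplane] with x hx hpl hxK
      have r0 : 0 ≤ R := bR x hxK
      rw [hx, abs_mul, abs_neg, abs_of_pos (by positivity)]
      have q1 : |Q (sim x₀ t₀ t x)| ≤ CQ := hCQ _
      have q3 : |fderiv ℝ Q (sim x₀ t₀ t x) (P t x (sim x₀ t₀ t x))| ≤ CD * R :=
        ((fderiv ℝ Q (sim x₀ t₀ t x)).le_opNorm _).trans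
          (mul_le_mul (hCD _) ((hpl.1.norm_le _).trans (hyK x hxK)) (norm_nonneg _) hCD0)
      calc kap m t₀ t / (2 * (t₀ - t)) *
          |fderiv ℝ Q (sim x₀ t₀ t x) (P t x (sim x₀ t₀ t x)) + Q (sim x₀ t₀ t x) * m|
          ≤ kap m t₀ t / (2 * (t₀ - t)) * (CD * R + CQ * m) := by
            gcongr
            refine (abs_add_le _ _).trans (add_le_add q3 ?_)
            rw [abs_mul, Nat.abs_cast]
            gcongr
        _ ≤ _ := by
            refine le_mul_of_one_le_right ?_ (n1 x)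
            positivity
    · filter_upwards [eJ1] with x hx hxK
      rw [hx, hQ0 x hxK, hD0 x hxK]
      simp
  have iJ2 : Integrable J2 (μ t) := by
    refine integrable_of_bound hKc (hsq K hKc) ?_
      (kap m t₀ t / (2 * √(t₀ - t)) * (CQ * R)) ?_ ?_
    · exact hmeas.2.inner (vf_contDiff m x₀ t₀ hQ t).continuous.aestronglyMeasurable
    · refine Eventually.of_forall fun x hx => ?_
      have r0 : 0 ≤ R := bR x hx
      have q0 : ‖vf m x₀ t₀ Q t x‖ ≤ kap m t₀ t / (2 * √(t₀ - t)) * (CQ * R) := by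
        unfold vf
        rw [norm_smul, norm_smul, norm_neg, Real.norm_of_nonneg (by positivity)]
        gcongr
        · exact hCQ _
        · exact hyK x hx
      calc |J2 x| ≤ ‖H t x‖ * ‖vf m x₀ t₀ Q t x‖ := abs_real_inner_le_norm _ _
        _ ≤ (1 + ‖H t x‖ ^ 2) * (kap m t₀ t / (2 * √(t₀ - t)) * (CQ * R)) := by
            gcongr
            exact nH x
        _ = _ := by ring
    · refine Eventually.of_forall fun x hx => ?_
      simp only [hJ2, vf, hQ0 x hx]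
      simp
  have key : rate μ H (tst m x₀ t₀ Q) t = ∫ x, (I1 x + (J1 x + J2 x)) ∂(μ t) := by
    have h1 : ∫ x, (J1 x + J2 x) ∂(μ t) = 0 := by
      rw [integral_add iJ1 iJ2]
      have h2 := hfirst (vf m x₀ t₀ Q t) (vf_contDiff m x₀ t₀ hQ t) (vf_compact m x₀ hlt hQc)
      simp only [hJ1, hJ2]
      rw [h2]
      ring
    have h3 : ∫ x, (I1 x + (J1 x + J2 x)) ∂(μ t) =
        ∫ x, I1 x ∂(μ t) + ∫ x, (J1 x + J2 x) ∂(μ t) := integral_add iI1 (iJ1.add iJ2)
    rw [rate_tst m μ H x₀ hlt hQd, h3, h1, add_zero]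
  refine ⟨_, iI1.add (iJ1.add iJ2), key, ?_⟩
  filter_upwards [hplane, eJ1] with x hx hx1
  have e1 := hx1
  simp only [hJ1] at e1
  set y := sim x₀ t₀ t x with hy
  set h := √(t₀ - t) • H t x with hh
  have hPh : P t x h = 0 := by rw [hh, map_smul, hx.2, smul_zero]
  have hAd : Differentiable ℝ A := hA.smooth.differentiable (by norm_num)
  have f1 : fderiv ℝ Q y (H t x) = gw y * (fderiv ℝ A y (H t x) - 1 / 2 * inner ℝ y (H t x) * A y) :=
    fderiv_gw_mul hAd y _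
  have f2 : fderiv ℝ Q y y = gw y * (fderiv ℝ A y y - 1 / 2 * inner ℝ y y * A y) :=
    fderiv_gw_mul hAd y _
  have f3 : fderiv ℝ Q y (P t x y) =
      gw y * (fderiv ℝ A y (P t x y) - 1 / 2 * inner ℝ y (P t x y) * A y) :=
    fderiv_gw_mul hAd y _
  have g1 : ‖h‖ ^ 2 = (t₀ - t) * ‖H t x‖ ^ 2 := by
    rw [hh, norm_smul, Real.norm_of_nonneg hs.le, mul_pow, Real.sq_sqrt hτ.le]
  have g2 : inner ℝ h y = √(t₀ - t) * inner ℝ (H t x) y := by
    rw [hh, inner_smul_left]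
    simp
  have g3 : fderiv ℝ A y h = √(t₀ - t) * fderiv ℝ A y (H t x) := by
    rw [hh, map_smul, smul_eq_mul]
  have g4 : inner ℝ y h = √(t₀ - t) * inner ℝ y (H t x) := by
    rw [hh, inner_smul_right]
  have hv : inner ℝ (H t x) (vf m x₀ t₀ Q t x) =
      -(kap m t₀ t / (2 * √(t₀ - t))) * (Q y * inner ℝ (H t x) y) := by
    unfold vf
    rw [inner_smul_right, inner_smul_right]
  have hQy : Q y = gw y * A y := rfl
  have hg := gw_pos y
  refine ⟨hx.1, hx.2, ?_⟩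
  change I1 x + (J1 x + J2 x) = _
  unfold Ex
  rw [g1, g2, g3, g4]
  simp only [hI1, hJ1, hJ2]
  rw [e1, hv, f1, f2, f3, hQy]
  have is1 : (√(t₀ - t))⁻¹ = √(t₀ - t) / (t₀ - t) := by
    field_simp
    rw [Real.sq_sqrt hτ.le]
  have is2 : kap m t₀ t / (2 * √(t₀ - t)) = kap m t₀ t * √(t₀ - t) / (2 * (t₀ - t)) := by
    field_simp
    rw [Real.sq_sqrt hτ.le]
  rw [is1, is2]
  have fin : -(‖H t x‖ ^ 2 * (kap m t₀ t * (gw y * A y))) +
      kap m t₀ t * (√(t₀ - t) / (t₀ - t) *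
        (gw y * (fderiv ℝ A y (H t x) - 1 / 2 * inner ℝ y (H t x) * A y))) +
      kap m t₀ t * (1 / (2 * (t₀ - t)) *
        (m * (gw y * A y) + gw y * (fderiv ℝ A y y - 1 / 2 * inner ℝ y y * A y))) +
      (-(kap m t₀ t / (2 * (t₀ - t))) *
        (gw y * (fderiv ℝ A y (P t x y) - 1 / 2 * inner ℝ y (P t x y) * A y) + gw y * A y * m) +
        -(kap m t₀ t * √(t₀ - t) / (2 * (t₀ - t))) * (gw y * A y * inner ℝ (H t x) y)) =
      kap m t₀ t / (t₀ - t) * gw y * (-((t₀ - t) * ‖H t x‖ ^ 2 * A y) +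
        (√(t₀ - t) * fderiv ℝ A y (H t x) - 1 / 2 * (√(t₀ - t) * inner ℝ y (H t x)) * A y) +
        1 / 2 * (m * A y + (fderiv ℝ A y y - 1 / 2 * inner ℝ y y * A y)) -
        1 / 2 * ((fderiv ℝ A y (P t x y) - 1 / 2 * inner ℝ y (P t x y) * A y) + A y * m) -
        1 / 2 * A y * (√(t₀ - t) * inner ℝ (H t x) y)) := by
    field_simp
    ring
  exact fin

lemma rate_le {m : ℕ} {t₀ : ℝ} {μ : ℝ → Measure (E)}
    {P : ℝ → E → (E →L[ℝ] E)} {H : ℝ → E → E}
    (hμ : IsBrakkeFlow m t₀ μ P H) (hfin : ∀ t ∈ Ico 0 t₀, μ t univ < ⊤) (x₀ : E)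
    {A : E → ℝ} {c : ℝ} (hc : 0 ≤ c) (hA : Prof c A) :
    ∀ᵐ t ∂(volume.restrict (Ioo 0 t₀)),
      rate μ H (tst m x₀ t₀ (fun z => gw z * A z)) t ≤ c / (t₀ - t) * gauss m μ x₀ t₀ t := by
  filter_upwards [rate_repr hμ hfin x₀ hA, ae_restrict_mem measurableSet_Ioo] with t ht htt
  obtain ⟨F, hF, hrate, hae⟩ := ht
  have hlt : t < t₀ := htt.2
  have hτ : 0 < t₀ - t := by linarith
  have hκ : 0 < kap m t₀ t := kap_pos m hlt
  have hfinm : IsFiniteMeasure (μ t) := ⟨hfin t ⟨htt.1.le, htt.2⟩⟩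
  have iG : Integrable (fun x => c / (t₀ - t) * (kap m t₀ t * gw (sim x₀ t₀ t x))) (μ t) := by
    refine Integrable.const_mul ?_ _
    refine Integrable.const_mul ?_ _
    refine Integrable.mono' (integrable_const (1 : ℝ))
      (gw_contDiff.continuous.comp (sim_continuous x₀ t₀ t)).aestronglyMeasurable ?_
    refine Eventually.of_forall fun x => ?_
    rw [Real.norm_of_nonneg (gw_pos _).le]
    exact gw_le _
  rw [hrate, gauss_eq m μ x₀ hlt, ← integral_const_mul]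
  refine integral_mono_ae hF iG ?_
  filter_upwards [hae] with x hx
  obtain ⟨hP, hPH, hFx⟩ := hx
  have hPh : P t x (√(t₀ - t) • H t x) = 0 := by rw [map_smul, hPH, smul_zero]
  have hpw := pointwise (y := sim x₀ t₀ t x) hP hPh (hA.nonneg (sim x₀ t₀ t x)) hc
    (hA.grad (sim x₀ t₀ t x))
  have hg := gw_pos (sim x₀ t₀ t x)
  rw [hFx]
  have hfac : 0 ≤ kap m t₀ t / (t₀ - t) * gw (sim x₀ t₀ t x) := by positivity
  refine (mul_le_mul_of_nonneg_left hpw hfac).trans (le_of_eq ?_)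
  ring

end Vale.Agent.P218.H67
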