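import Vale.Agent.P218.H67.Group

open MeasureTheory Set Filter Topology

namespace Vale.Agent.P218.H67

variable {E : Type} [NormedAddCommGroup E] [InnerProductSpace ℝ E] [FiniteDimensional ℝ E]
    [MeasurableSpace E] [BorelSpace E]
    {m : ℕ} {t₀ : ℝ} {μ : ℝ → Measure (E)}
    {P : ℝ → E → (E →L[ℝ] E)} {H : ℝ → E → E}

/-- the dyadic sequence of test integrals -/
noncomputable def xs (m : ℕ) (μ : ℝ → Measure (E)) (x₀ : E) (t₀ : ℝ)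
    (D : ℕ → E → ℝ) (n k : ℕ) : ℝ :=
  ∫ y, D k y ∂(rescale m μ x₀ t₀ ((2 : ℝ) ^ n) (-1))

lemma two_pow_tendsto : Tendsto (fun n : ℕ => (2 : ℝ) ^ n) atTop atTop :=
  tendsto_pow_atTop_atTop_of_one_lt (by norm_num)

lemma xs_compact (hμ : IsBrakkeFlow m t₀ μ P H) (hfin : ∀ t ∈ Ico 0 t₀, μ t univ < ⊤)
    (x₀ : E) (ht₀ : 0 < t₀) {D : ℕ → E → ℝ}
    (hD : ∀ k, Continuous (D k) ∧ HasCompactSupport (D k)) :
    ∃ K : Set (ℕ → ℝ), IsCompact K ∧ ∀ᶠ n in atTop, xs m μ x₀ t₀ D n ∈ K := by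
  have h : ∀ k, ∃ c, ∀ y, |D k y| ≤ c * gw y := by
    intro k
    obtain ⟨c, hc⟩ := ww_bdd (hD k).1 (hD k).2
    refine ⟨c, fun y => ?_⟩
    have := hc y
    unfold ww at this
    rwa [neg_neg, Real.sqrt_one, one_smul, abs_div, abs_of_pos (gw_pos y),
      div_le_iff₀ (gw_pos y)] at this
  choose c hc using h
  refine ⟨Set.pi univ fun k => Icc (-(cm m * (c k * gauss m μ x₀ t₀ 0)))
    (cm m * (c k * gauss m μ x₀ t₀ 0)), isCompact_univ_pi fun k => isCompact_Icc, ?_⟩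
  filter_upwards [ev_scale ht₀ two_pow_tendsto] with n hn k _
  have h0 : HasCompactSupport (fun _ : E => (0 : ℝ)) := HasCompactSupport.zero
  have h1 := phi_sub_le hμ hfin x₀ hn.1 hn.2 (hD k).1 (hD k).2
    (continuous_const (y := (0 : ℝ))) h0 (ε := c k) (by simpa using hc k)
  rw [integral_zero, sub_zero] at h1
  rw [mem_Icc]
  exact abs_le.1 h1

lemma xs_step (hμ : IsBrakkeFlow m t₀ μ P H) (hfin : ∀ t ∈ Ico 0 t₀, μ t univ < ⊤)
    (x₀ : E) (ht₀ : 0 < t₀) {D : ℕ → E → ℝ}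
    (hD : ∀ k, Continuous (D k) ∧ HasCompactSupport (D k)) (k : ℕ) :
    Tendsto (fun n => xs m μ x₀ t₀ D (n + 1) k - xs m μ x₀ t₀ D n k) atTop (𝓝 0) := by
  refine phi_slow hμ hfin x₀ ht₀ (hD k).1 (hD k).2 (F := atTop) (l := fun n : ℕ => (2 : ℝ) ^ n)
    (l' := fun n => (2 : ℝ) ^ (n + 1)) two_pow_tendsto (Eventually.of_forall fun n => ?_)
  have : (0 : ℝ) < 2 ^ n := by positivity
  rw [pow_succ]
  constructor <;> linarith

/-- the measure `ν` is the slice at time `-1` of a tangent flow, with test integrals `p` -/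
structure Good (m : ℕ) (μ : ℝ → Measure (E)) (x₀ : E) (t₀ : ℝ) (D : ℕ → E → ℝ)
    (ν : Measure (E)) (p : ℕ → ℝ) : Prop where
  fin : IsFiniteMeasureOnCompacts ν
  int : ∀ k, ∫ y, D k y ∂ν = p k
  tan : IsTangentFlow m μ x₀ t₀ (selfSim m ν)
  bd : ∀ φ φ' : E → ℝ, Continuous φ → HasCompactSupport φ → Continuous φ' →
    HasCompactSupport φ' → ∀ ε, (∀ y, |φ y - φ' y| ≤ ε * gw y) →
    |∫ y, φ y ∂ν - ∫ y, φ' y ∂ν| ≤ cm m * (ε * gauss m μ x₀ t₀ 0)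

lemma bd_of_limit (hμ : IsBrakkeFlow m t₀ μ P H) (hfin : ∀ t ∈ Ico 0 t₀, μ t univ < ⊤)
    (x₀ : E) (ht₀ : 0 < t₀) {ν : Measure (E)} {l : ℕ → ℝ} (hl : Tendsto l atTop atTop)
    (hv : VagueTendsto (fun i => rescale m μ x₀ t₀ (l i) (-1)) atTop ν)
    {φ φ' : E → ℝ} (h1 : Continuous φ) (c1 : HasCompactSupport φ) (h2 : Continuous φ')
    (c2 : HasCompactSupport φ') {ε : ℝ} (hε : ∀ y, |φ y - φ' y| ≤ ε * gw y) :
    |∫ y, φ y ∂ν - ∫ y, φ' y ∂ν| ≤ cm m * (ε * gauss m μ x₀ t₀ 0) := by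
  refine le_of_tendsto ((hv φ h1 c1).sub (hv φ' h2 c2)).abs ?_
  filter_upwards [ev_scale ht₀ hl] with i hi
  exact phi_sub_le hμ hfin x₀ hi.1 hi.2 h1 c1 h2 c2 hε

lemma cluster_good (hμ : IsBrakkeFlow m t₀ μ P H) (hfin : ∀ t ∈ Ico 0 t₀, μ t univ < ⊤)
    (x₀ : E) (ht₀ : 0 < t₀) {D : ℕ → E → ℝ}
    (hD : ∀ k, Continuous (D k) ∧ HasCompactSupport (D k))
    (hdense : ∀ φ : E → ℝ, Continuous φ → HasCompactSupport φ → ∀ ε > 0,
      ∃ k, ∀ y, |φ y - D k y| ≤ ε * gw y) {p : ℕ → ℝ}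
    (hp : MapClusterPt p atTop (xs m μ x₀ t₀ D)) : ∃ ν, Good m μ x₀ t₀ D ν p := by
  obtain ⟨s, hs, hlim⟩ := hp.tendsto_subseq
  have hl : Tendsto (fun i => (2 : ℝ) ^ s i) atTop atTop :=
    two_pow_tendsto.comp hs.tendsto_atTop
  have hcoord : ∀ k, Tendsto (fun i => ∫ y, D k y ∂(rescale m μ x₀ t₀ ((2 : ℝ) ^ s i) (-1)))
      atTop (𝓝 (p k)) := fun k => (tendsto_pi_nhds.1 hlim) k
  obtain ⟨ν, hν, hv, hall⟩ := exists_tangent hμ hfin x₀ ht₀ (F := atTop) hl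
    (fun φ hφ hc => conv_of_dense hμ hfin x₀ ht₀ hD hdense hl (fun k => ⟨p k, hcoord k⟩) hφ hc)
  refine ⟨ν, hν, fun k => ?_, ⟨fun s hs => (hall s hs).1, _, hl, fun s hs => (hall s hs).2⟩, ?_⟩
  · exact tendsto_nhds_unique (hv (D k) (hD k).1 (hD k).2) (hcoord k)
  · intro φ φ' h1 c1 h2 c2 ε hε
    exact bd_of_limit hμ hfin x₀ ht₀ hl hv h1 c1 h2 c2 hε

lemma tangent_cluster (hμ : IsBrakkeFlow m t₀ μ P H) (hfin : ∀ t ∈ Ico 0 t₀, μ t univ < ⊤)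
    (x₀ : E) (ht₀ : 0 < t₀) {D : ℕ → E → ℝ}
    (hD : ∀ k, Continuous (D k) ∧ HasCompactSupport (D k)) {ν : ℝ → Measure (E)}
    (hν : IsTangentFlow m μ x₀ t₀ ν) :
    MapClusterPt (fun k => ∫ y, D k y ∂(ν (-1))) atTop (xs m μ x₀ t₀ D) := by
  obtain ⟨-, l, hl, hv⟩ := hν
  have hv1 := hv (-1) (by norm_num)
  have hdl : Tendsto (fun i => dy (l i)) atTop atTop := dy_tendsto.comp hl
  have hpow : Tendsto (fun i => (2 : ℝ) ^ dy (l i)) atTop atTop := two_pow_tendsto.comp hdl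
  refine MapClusterPt.of_comp hdl (Tendsto.mapClusterPt ?_)
  rw [tendsto_pi_nhds]
  intro k
  have h1 := phi_slow hμ hfin x₀ ht₀ (hD k).1 (hD k).2 (F := atTop)
    (l := fun i => (2 : ℝ) ^ dy (l i)) (l' := l) hpow (by
      filter_upwards [hl.eventually_ge_atTop 1] with i hi
      exact dy_le hi)
  have h2 := (hv1 (D k) (hD k).1 (hD k).2).sub h1
  rw [sub_zero] at h2
  refine h2.congr fun i => ?_
  simp only [Function.comp_apply, xs]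
  ring

lemma tangent_bd (hμ : IsBrakkeFlow m t₀ μ P H) (hfin : ∀ t ∈ Ico 0 t₀, μ t univ < ⊤)
    (x₀ : E) (ht₀ : 0 < t₀) {ν : ℝ → Measure (E)} (hν : IsTangentFlow m μ x₀ t₀ ν)
    {φ φ' : E → ℝ} (h1 : Continuous φ) (c1 : HasCompactSupport φ) (h2 : Continuous φ')
    (c2 : HasCompactSupport φ') {ε : ℝ} (hε : ∀ y, |φ y - φ' y| ≤ ε * gw y) :
    |∫ y, φ y ∂(ν (-1)) - ∫ y, φ' y ∂(ν (-1))| ≤ cm m * (ε * gauss m μ x₀ t₀ 0) := by
  obtain ⟨-, l, hl, hv⟩ := hν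
  exact bd_of_limit hμ hfin x₀ ht₀ hl (hv (-1) (by norm_num)) h1 c1 h2 c2 hε

/-- an isolated cluster point gives uniqueness -/
lemma unique_of_isolated (hμ : IsBrakkeFlow m t₀ μ P H) (hfin : ∀ t ∈ Ico 0 t₀, μ t univ < ⊤)
    (x₀ : E) (ht₀ : 0 < t₀) {D : ℕ → E → ℝ}
    (hD : ∀ k, Continuous (D k) ∧ HasCompactSupport (D k))
    (hdense : ∀ φ : E → ℝ, Continuous φ → HasCompactSupport φ → ∀ ε > 0,
      ∃ k, ∀ y, |φ y - D k y| ≤ ε * gw y) {p : ℕ → ℝ}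
    (hp : MapClusterPt p atTop (xs m μ x₀ t₀ D)) (S : Finset ℕ) {ε : ℝ} (hε : 0 < ε)
    (hiso : ∀ q, MapClusterPt q atTop (xs m μ x₀ t₀ D) → (∀ k ∈ S, |q k - p k| ≤ 2 * ε) → q = p) :
    UniqueTangentFlow m μ x₀ t₀ := by
  obtain ⟨K, hK, hKev⟩ := xs_compact hμ hfin x₀ ht₀ hD
  have h1 := isolated_tendsto hK hKev (xs_step hμ hfin x₀ ht₀ hD) hp S hε hiso
  refine unique_of_conv hμ hfin x₀ ht₀ fun φ hφ hc => ?_
  obtain ⟨v, hv⟩ := conv_of_dense hμ hfin x₀ ht₀ hD hdense two_pow_tendsto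
    (fun k => ⟨p k, (tendsto_pi_nhds.1 h1) k⟩) hφ hc
  exact ⟨v, conv_of_dyadic hμ hfin x₀ ht₀ hφ hc hv⟩

/-- convergence of test integrals of good measures -/
lemma good_conv (ht₀ : 0 < t₀) {x₀ : E} {D : ℕ → E → ℝ}
    (hD : ∀ k, Continuous (D k) ∧ HasCompactSupport (D k))
    (hdense : ∀ φ : E → ℝ, Continuous φ → HasCompactSupport φ → ∀ ε > 0,
      ∃ k, ∀ y, |φ y - D k y| ≤ ε * gw y) {p : ℕ → ℝ} {q : ℕ → ℕ → ℝ}
    {ν : Measure (E)} {σ : ℕ → Measure (E)} (hν : Good m μ x₀ t₀ D ν p)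
    (hσ : ∀ j, Good m μ x₀ t₀ D (σ j) (q j)) (hq : Tendsto q atTop (𝓝 p))
    {φ : E → ℝ} (hφ : Continuous φ) (hc : HasCompactSupport φ) :
    Tendsto (fun j => ∫ y, φ y ∂(σ j)) atTop (𝓝 (∫ y, φ y ∂ν)) := by
  rw [Metric.tendsto_nhds]
  intro ε hε
  set G0 := gauss m μ x₀ t₀ 0 with hG0
  have hG0n : 0 ≤ G0 := gauss_nonneg ht₀
  have hcm := cm_pos m
  obtain ⟨k, hk⟩ := hdense φ hφ hc (ε / (4 * cm m * (G0 + 1))) (by positivity)
  have h4 : cm m * (ε / (4 * cm m * (G0 + 1)) * G0) ≤ ε / 4 := by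
    calc cm m * (ε / (4 * cm m * (G0 + 1)) * G0) ≤
        cm m * (ε / (4 * cm m * (G0 + 1)) * (G0 + 1)) := by gcongr; linarith
      _ = ε / 4 := by field_simp
  have h5 := (hν.bd φ (D k) hφ hc (hD k).1 (hD k).2 _ hk).trans h4
  have h6 : ∀ᶠ j in atTop, |q j k - p k| < ε / 4 := by
    have := ((tendsto_pi_nhds.1 hq k).sub_const (p k)).abs
    rw [sub_self, abs_zero] at this
    exact this.eventually_lt_const (by positivity)
  filter_upwards [h6] with j hj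
  have h7 := ((hσ j).bd φ (D k) hφ hc (hD k).1 (hD k).2 _ hk).trans h4
  rw [(hσ j).int k] at h7
  rw [hν.int k] at h5
  rw [Real.dist_eq]
  have e : ∫ y, φ y ∂(σ j) - ∫ y, φ y ∂ν = (∫ y, φ y ∂(σ j) - q j k) + (q j k - p k) -
      (∫ y, φ y ∂ν - p k) := by ring
  rw [e]
  have t1 := abs_add_le (∫ y, φ y ∂(σ j) - q j k) (q j k - p k)
  have t2 := abs_sub ((∫ y, φ y ∂(σ j) - q j k) + (q j k - p k)) (∫ y, φ y ∂ν - p k)
  linarith

/-- neighbourhoods in the product space, in coordinates -/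
lemma nhds_coord {p : ℕ → ℝ} {U : Set (ℕ → ℝ)} (hU : U ∈ 𝓝 p) :
    ∃ (S : Finset ℕ) (ε : ℝ), 0 < ε ∧ ∀ q : ℕ → ℝ, (∀ k ∈ S, |q k - p k| ≤ 2 * ε) → q ∈ U := by
  rw [nhds_pi, Filter.mem_pi] at hU
  obtain ⟨I, hI, t, ht, hsub⟩ := hU
  have h1 : ∀ k, ∃ r > 0, Metric.ball (p k) r ⊆ t k := fun k => Metric.mem_nhds_iff.1 (ht k)
  choose r hr hrt using h1
  have h2 : ∃ ε : ℝ, 0 < ε ∧ ∀ k ∈ hI.toFinset, 2 * ε < r k := by
    rcases hI.toFinset.eq_empty_or_nonempty with he | hne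
    · exact ⟨1, one_pos, by simp [he]⟩
    · refine ⟨(hI.toFinset.inf' hne r) / 4, ?_, fun k hk => ?_⟩
      · have : 0 < hI.toFinset.inf' hne r := by
          rw [Finset.lt_inf'_iff]
          exact fun k _ => hr k
        linarith
      · have h3 : hI.toFinset.inf' hne r ≤ r k := Finset.inf'_le _ hk
        have := hr k
        linarith
  obtain ⟨ε, hε, h3⟩ := h2
  refine ⟨hI.toFinset, ε, hε, fun q hq => hsub fun k hk => ?_⟩
  apply hrt k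
  rw [Metric.mem_ball, Real.dist_eq]
  have hk' : k ∈ hI.toFinset := by simpa using hk
  exact (hq k hk').trans_lt (h3 k hk')

/-- Baire category: if the cluster set is covered, near one of its points, by countably many closed
sets, then one of them contains a relative neighbourhood of a cluster point. -/
lemma baire_cluster (hμ : IsBrakkeFlow m t₀ μ P H) (hfin : ∀ t ∈ Ico 0 t₀, μ t univ < ⊤)
    (x₀ : E) (ht₀ : 0 < t₀) {D : ℕ → E → ℝ}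
    (hD : ∀ k, Continuous (D k) ∧ HasCompactSupport (D k)) {f : ℕ → Set (ℕ → ℝ)}
    (hf : ∀ k, IsClosed (f k)) {p₀ : ℕ → ℝ} (hp₀ : MapClusterPt p₀ atTop (xs m μ x₀ t₀ D))
    {U₀ : Set (ℕ → ℝ)} (hU₀ : U₀ ∈ 𝓝 p₀)
    (hcov : ∀ p ∈ U₀, MapClusterPt p atTop (xs m μ x₀ t₀ D) → ∃ k, p ∈ f k) :
    ∃ (k : ℕ) (p : ℕ → ℝ), MapClusterPt p atTop (xs m μ x₀ t₀ D) ∧ p ∈ f k ∧
      ∃ U ∈ 𝓝 p, ∀ q ∈ U, MapClusterPt q atTop (xs m μ x₀ t₀ D) → q ∈ f k := by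
  obtain ⟨K, hK, hKev⟩ := xs_compact hμ hfin x₀ ht₀ hD
  set T : Set (ℕ → ℝ) := {p | MapClusterPt p atTop (xs m μ x₀ t₀ D)} with hT
  have hTcl : IsClosed T := by
    have : T = ⋂ s ∈ (map (xs m μ x₀ t₀ D) atTop), closure s := by
      ext p
      simp only [hT, Set.mem_ofPred_eq, mem_iInter]
      exact clusterPt_iff_forall_mem_closure
    rw [this]
    exact isClosed_biInter fun s _ => isClosed_closure
  have hTK : T ⊆ K := by
    intro p hp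
    have h1 : ClusterPt p (𝓟 K) := by
      refine ClusterPt.mono hp ?_
      rw [le_principal_iff]
      exact hKev
    exact hK.isClosed.closure_eq ▸ mem_closure_iff_clusterPt.2 h1
  have hTc : IsCompact T := hK.of_isClosed_subset hTcl hTK
  have : CompactSpace T := isCompact_iff_compactSpace.1 hTc
  obtain ⟨O, hOU, hO, hpO⟩ := mem_nhds_iff.1 hU₀
  have hdense := dense_iUnion_interior_of_closed (X := T)
    (f := fun k : Option ℕ => k.elim ((Subtype.val : T → (ℕ → ℝ)) ⁻¹' Oᶜ)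
      (fun k => (Subtype.val : T → (ℕ → ℝ)) ⁻¹' (f k)))
    (by
      intro k
      cases k with
      | none => exact hO.isClosed_compl.preimage continuous_subtype_val
      | some k => exact (hf k).preimage continuous_subtype_val) (by
      rw [Set.eq_univ_iff_forall]
      rintro ⟨p, hpT⟩
      by_cases hp : p ∈ O
      · obtain ⟨k, hk⟩ := hcov p (hOU hp) hpT
        exact mem_iUnion.2 ⟨some k, hk⟩
      · exact mem_iUnion.2 ⟨none, hp⟩)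
  obtain ⟨⟨p, hpT⟩, hpO', hp⟩ := hdense.inter_open_nonempty ((Subtype.val : T → (ℕ → ℝ)) ⁻¹' O)
    (hO.preimage continuous_subtype_val) ⟨⟨p₀, hp₀⟩, hpO⟩
  obtain ⟨k, hk⟩ := mem_iUnion.1 hp
  cases k with
  | none =>
    exact absurd hpO' (interior_subset hk)
  | some k =>
    simp only [Option.elim] at hk
    rw [mem_interior_iff_mem_nhds, nhds_subtype, mem_comap] at hk
    obtain ⟨U, hU, hUsub⟩ := hk
    exact ⟨k, p, hpT, hUsub (mem_of_mem_nhds hU : (⟨p, hpT⟩ : T).val ∈ U), U, hU, fun q hq hqT =>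
      hUsub (show (⟨q, hqT⟩ : T) ∈ Subtype.val ⁻¹' U from hq)⟩

/-- closeness of tangent flows, expressed in coordinates -/
lemma near_coord (hμ : IsBrakkeFlow m t₀ μ P H) (hfin : ∀ t ∈ Ico 0 t₀, μ t univ < ⊤)
    (x₀ : E) (ht₀ : 0 < t₀) {D : ℕ → E → ℝ}
    (hD : ∀ k, Continuous (D k) ∧ HasCompactSupport (D k))
    (hdense : ∀ φ : E → ℝ, Continuous φ → HasCompactSupport φ → ∀ ε > 0,
      ∃ k, ∀ y, |φ y - D k y| ≤ ε * gw y)
    {ν₀ : ℝ → Measure (E)} (hν₀ : IsTangentFlow m μ x₀ t₀ ν₀)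
    (S : Finset (E → ℝ)) (hS : ∀ φ ∈ S, Continuous φ ∧ HasCompactSupport φ) {δ : ℝ}
    (hδ : 0 < δ) : ∃ U₀ ∈ 𝓝 (fun k => ∫ y, D k y ∂(ν₀ (-1))), ∀ q ∈ U₀, ∀ ν,
      Good m μ x₀ t₀ D ν q → ∀ φ ∈ S, |∫ y, φ y ∂ν - ∫ y, φ y ∂(ν₀ (-1))| < δ := by
  classical
  set G0 := gauss m μ x₀ t₀ 0 with hG0
  have hG0n : 0 ≤ G0 := gauss_nonneg ht₀
  have hcm := cm_pos m
  have hk : ∀ φ : E → ℝ, ∃ k, φ ∈ S → ∀ y, |φ y - D k y| ≤ δ / (8 * cm m * (G0 + 1)) * gw y := by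
    intro φ
    by_cases hφ : φ ∈ S
    · obtain ⟨k, hk⟩ := hdense φ (hS φ hφ).1 (hS φ hφ).2 (δ / (8 * cm m * (G0 + 1))) (by positivity)
      exact ⟨k, fun _ => hk⟩
    · exact ⟨0, fun h => absurd h hφ⟩
  choose k hk using hk
  have h4 : cm m * (δ / (8 * cm m * (G0 + 1)) * G0) ≤ δ / 8 := by
    calc cm m * (δ / (8 * cm m * (G0 + 1)) * G0) ≤
        cm m * (δ / (8 * cm m * (G0 + 1)) * (G0 + 1)) := by gcongr; linarith
      _ = δ / 8 := by field_simp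
  refine ⟨{q | ∀ i ∈ S.image k, |q i - ∫ y, D i y ∂(ν₀ (-1))| < δ / 4}, ?_, ?_⟩
  · refine IsOpen.mem_nhds ?_ ?_
    · simp only [Set.ofPred_forall]
      exact Set.Finite.isOpen_biInter (Finset.finite_toSet _) fun k _ =>
        isOpen_lt (by fun_prop) continuous_const
    · intro i _
      rw [sub_self, abs_zero]
      positivity
  · intro q hq ν hν φ hφ
    have a1 := (hν.bd φ (D (k φ)) (hS φ hφ).1 (hS φ hφ).2 (hD _).1 (hD _).2 _ (hk φ hφ)).trans h4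
    have a2 := (tangent_bd hμ hfin x₀ ht₀ hν₀ (hS φ hφ).1 (hS φ hφ).2 (hD (k φ)).1 (hD _).2
      (hk φ hφ)).trans h4
    have a3 := hq (k φ) (Finset.mem_image_of_mem k hφ)
    rw [hν.int] at a1
    have e : ∫ y, φ y ∂ν - ∫ y, φ y ∂(ν₀ (-1)) = (∫ y, φ y ∂ν - q (k φ)) +
        (q (k φ) - ∫ y, D (k φ) y ∂(ν₀ (-1))) -
        (∫ y, φ y ∂(ν₀ (-1)) - ∫ y, D (k φ) y ∂(ν₀ (-1))) := by ring
    rw [e]
    have t1 := abs_add_le (∫ y, φ y ∂ν - q (k φ)) (q (k φ) - ∫ y, D (k φ) y ∂(ν₀ (-1)))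
    have t2 := abs_sub ((∫ y, φ y ∂ν - q (k φ)) + (q (k φ) - ∫ y, D (k φ) y ∂(ν₀ (-1))))
      (∫ y, φ y ∂(ν₀ (-1)) - ∫ y, D (k φ) y ∂(ν₀ (-1)))
    linarith

end Vale.Agent.P218.H67
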