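import Vale.Agent.P218.H67.Iso

open MeasureTheory Set Filter Topology

namespace Vale.Agent.P218.H67

variable {E : Type} [NormedAddCommGroup E] [InnerProductSpace ℝ E] [FiniteDimensional ℝ E]
    [MeasurableSpace E] [BorelSpace E]
    {m : ℕ} {t₀ : ℝ} {μ : ℝ → Measure (E)}
    {P : ℝ → E → (E →L[ℝ] E)} {H : ℝ → E → E}

/-- The slices at time `-1` of the tangent flows that are close to `ν₀`, tested on the functions in
`S` with tolerance `δ`. -/
def nearSlices (m : ℕ) (μ : ℝ → Measure (E)) (x₀ : E) (t₀ : ℝ) (ν₀ : ℝ → Measure (E))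
    (S : Finset (E → ℝ)) (δ : ℝ) : Set (Measure (E)) :=
  {ρ | ∃ ν, IsTangentFlow m μ x₀ t₀ ν ∧ ν (-1) = ρ ∧
    ∀ φ ∈ S, |∫ y, φ y ∂(ν (-1)) - ∫ y, φ y ∂(ν₀ (-1))| < δ}

/-- countably many tangent flows near one of them -/
lemma crit_countable (hμ : IsBrakkeFlow m t₀ μ P H) (hfin : ∀ t ∈ Ico 0 t₀, μ t univ < ⊤)
    (x₀ : E) (ht₀ : 0 < t₀) {ν₀ : ℝ → Measure (E)} (hν₀ : IsTangentFlow m μ x₀ t₀ ν₀)
    (S : Finset (E → ℝ)) (hS : ∀ φ ∈ S, Continuous φ ∧ HasCompactSupport φ) {δ : ℝ}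
    (hδ : 0 < δ) (h : (nearSlices m μ x₀ t₀ ν₀ S δ).Countable) :
    UniqueTangentFlow m μ x₀ t₀ := by
  obtain ⟨D, hD, hdense⟩ := exists_dense E
  obtain ⟨U₀, hU₀, hnear⟩ := near_coord hμ hfin x₀ ht₀ hD hdense hν₀ S hS hδ
  have hp₀ := tangent_cluster hμ hfin x₀ ht₀ hD hν₀
  obtain ⟨e, he⟩ := h.exists_eq_range
    ⟨ν₀ (-1), ν₀, hν₀, rfl, fun φ _ => by rw [sub_self, abs_zero]; exact hδ⟩
  obtain ⟨k, p, hp, hpk, U, hU, hiso⟩ := baire_cluster hμ hfin x₀ ht₀ hD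
    (f := fun k => {fun i => ∫ y, D i y ∂(e k)}) (fun k => isClosed_singleton) hp₀ hU₀ (by
      intro p hpU hp
      obtain ⟨ν, hν⟩ := cluster_good hμ hfin x₀ ht₀ hD hdense hp
      have h1 : ν ∈ range e := by
        rw [← he]
        refine ⟨_, hν.tan, selfSim_neg_one m ν, fun φ hφ => ?_⟩
        rw [selfSim_neg_one]
        exact hnear p hpU ν hν φ hφ
      obtain ⟨k, hk⟩ := h1
      refine ⟨k, ?_⟩
      rw [mem_singleton_iff]
      funext i
      rw [hk, hν.int i])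
  obtain ⟨S', ε, hε, hSε⟩ := nhds_coord hU
  refine unique_of_isolated hμ hfin x₀ ht₀ hD hdense hp S' hε fun q hq hclose => ?_
  have h1 := hiso q (hSε q hclose) hq
  rw [mem_singleton_iff] at h1 hpk
  rw [h1, hpk]

/-- symmetric flows whose tangent flows lie in countably many classes modulo isometries -/
lemma crit_symm (hμ : IsBrakkeFlow m t₀ μ P H) (hfin : ∀ t ∈ Ico 0 t₀, μ t univ < ⊤)
    (x₀ : E) (ht₀ : 0 < t₀) {Γ : Set (E ≃ₗᵢ[ℝ] E)}
    (hΓ : ∀ ω : E →L[ℝ] E, (∀ x, inner ℝ (ω x) x = 0) →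
      (∀ g ∈ Γ, ∀ x, g (ω x) = ω (g x)) → ω = 0)
    (hinv : ∀ g ∈ Γ, ∀ t ∈ Ico 0 t₀, (μ t).map (fun x => x₀ + g (x - x₀)) = μ t)
    {ν₀ : ℝ → Measure (E)} (hν₀ : IsTangentFlow m μ x₀ t₀ ν₀)
    (S₀ : Finset (E → ℝ)) (hS₀ : ∀ φ ∈ S₀, Continuous φ ∧ HasCompactSupport φ) {δ : ℝ}
    (hδ : 0 < δ)
    (θ : ℕ → Measure (E)) (hθ : ∀ k, IsFiniteMeasureOnCompacts (θ k))
    (horb : ∀ ρ ∈ nearSlices m μ x₀ t₀ ν₀ S₀ δ,
      ∃ (k : ℕ) (R : E ≃ₗᵢ[ℝ] E), ρ = (θ k).map R) :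
    UniqueTangentFlow m μ x₀ t₀ := by
  obtain ⟨D, hD, hdense⟩ := exists_dense E
  obtain ⟨U₀, hU₀, hnear⟩ := near_coord hμ hfin x₀ ht₀ hD hdense hν₀ S₀ hS₀ hδ
  have hp₀ := tangent_cluster hμ hfin x₀ ht₀ hD hν₀
  set x := xs m μ x₀ t₀ D with hx
  have hmapint : ∀ (k : ℕ) (R : E ≃ₗᵢ[ℝ] E) (φ : E → ℝ), Continuous φ →
      ∫ y, φ y ∂((θ k).map R) = ∫ y, φ (R y) ∂(θ k) := by
    intro k R φ hφ
    rw [integral_map R.continuous.measurable.aemeasurable hφ.aestronglyMeasurable]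
  set f : ℕ → Set (ℕ → ℝ) := fun k => {p | MapClusterPt p atTop x ∧
    ∃ ν, Good m μ x₀ t₀ D ν p ∧ ∃ R : E ≃ₗᵢ[ℝ] E, ν = (θ k).map R} with hf
  have hfcl : ∀ k, IsClosed (f k) := by
    intro k
    refine IsSeqClosed.isClosed ?_
    intro p q hp hpq
    have hq : MapClusterPt q atTop x := by
      have hcl : IsClosed {q | MapClusterPt q atTop x} := by
        have : {q | MapClusterPt q atTop x} = ⋂ s ∈ (map x atTop), closure s := by
          ext p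
          simp only [Set.mem_ofPred_eq, mem_iInter]
          exact clusterPt_iff_forall_mem_closure
        rw [this]
        exact isClosed_biInter fun s _ => isClosed_closure
      exact hcl.mem_of_tendsto hpq (Eventually.of_forall fun j => (hp j).1)
    obtain ⟨ν, hν⟩ := cluster_good hμ hfin x₀ ht₀ hD hdense hq
    have hp2 : ∀ j, ∃ σ, Good m μ x₀ t₀ D σ (p j) ∧ ∃ R : E ≃ₗᵢ[ℝ] E, σ = (θ k).map R :=
      fun j => (hp j).2
    choose σ hσ R hR using hp2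
    obtain ⟨S, s, hs, hlim⟩ := iso_subseq R
    refine ⟨hq, ν, hν, S, ?_⟩
    have := hν.fin
    have := hθ k
    have hfinS : IsFiniteMeasureOnCompacts ((θ k).map S) := by
      constructor
      intro C hC
      rw [Measure.map_apply S.continuous.measurable hC.measurableSet]
      exact (S.toHomeomorph.isClosedEmbedding.isCompact_preimage hC).measure_lt_top
    refine MeasureTheory.Measure.ext_of_integral_eq_on_compactlySupported fun φ => ?_
    have c1 := φ.continuous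
    have c2 := φ.hasCompactSupport
    have l1 := (good_conv ht₀ hD hdense hν hσ hpq c1 c2).comp hs.tendsto_atTop
    have l2 := hlim (θ k) φ c1 c2
    have e1 : ∫ y, φ y ∂((θ k).map S) = ∫ y, φ (S y) ∂(θ k) := hmapint k S φ c1
    rw [e1]
    refine tendsto_nhds_unique (l1.congr fun j => ?_) l2
    simp only [Function.comp_apply]
    rw [hR (s j)]
    exact hmapint k (R (s j)) φ c1
  obtain ⟨k, p, hp, hpk, U, hU, hiso⟩ := baire_cluster hμ hfin x₀ ht₀ hD (f := f) hfcl hp₀ hU₀ (by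
    intro p hpU hp
    obtain ⟨ν, hν⟩ := cluster_good hμ hfin x₀ ht₀ hD hdense hp
    obtain ⟨k, R, hR⟩ := horb ν ⟨_, hν.tan, selfSim_neg_one m ν, fun φ hφ => by
      rw [selfSim_neg_one]
      exact hnear p hpU ν hν φ hφ⟩
    exact ⟨k, hp, ν, hν, R, hR⟩)
  obtain ⟨-, ν, hν, R₀, hR₀⟩ := hpk
  have hinvG : ∀ (ρ : Measure (E)) (q : ℕ → ℝ), Good m μ x₀ t₀ D ρ q → ∀ g ∈ Γ,
      ∀ φ : E → ℝ, Continuous φ → HasCompactSupport φ → ∫ y, φ (g y) ∂ρ = ∫ y, φ y ∂ρ := by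
    intro ρ q hρ g hg φ hφ hc
    have := tangent_inv ht₀ x₀ (hinv g hg) hρ.tan hφ hc
    rwa [selfSim_neg_one] at this
  -- `p` is isolated
  have hisol : ∃ W ∈ 𝓝 p, ∀ q ∈ W, MapClusterPt q atTop x → q = p := by
    by_contra hcon
    push Not at hcon
    have hcl : p ∈ closure ({q | MapClusterPt q atTop x ∧ q ≠ p} ∩ U) := by
      rw [mem_closure_iff_nhds]
      intro W hW
      obtain ⟨q, hq1, hq2, hq3⟩ := hcon (W ∩ U) (inter_mem hW hU)
      exact ⟨q, hq1.1, ⟨hq2, hq3⟩, hq1.2⟩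
    obtain ⟨q, hq, hqlim⟩ := mem_closure_iff_seq_limit.1 hcl
    have hq2 : ∀ j, ∃ σ, Good m μ x₀ t₀ D σ (q j) ∧ ∃ R : E ≃ₗᵢ[ℝ] E, σ = (θ k).map R :=
      fun j => (hiso (q j) (hq j).2 (hq j).1.1).2
    choose σ hσ R hR using hq2
    have := hν.fin
    have hint : ∀ j (φ : E → ℝ), Continuous φ →
        ∫ y, φ ((R₀.symm.trans (R j)) y) ∂ν = ∫ y, φ y ∂(σ j) := by
      intro j φ hφ
      have h1 : Continuous (fun y => φ ((R₀.symm.trans (R j)) y)) :=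
        hφ.comp (R₀.symm.trans (R j)).continuous
      rw [hR₀, hmapint k R₀ _ h1, hR j, hmapint k (R j) φ hφ]
      simp
    refine rigidIso (ν := ν) (Γ := Γ) hΓ (hinvG ν p hν) (R := fun j => R₀.symm.trans (R j)) ?_ ?_ ?_
    · intro j g hg φ hφ hc
      have h1 := hint j (fun y => φ (g y)) (hφ.comp g.continuous)
      have h2 := hint j φ hφ
      rw [h1, h2]
      exact hinvG _ _ (hσ j) g hg φ hφ hc
    · intro φ hφ hc
      exact (good_conv ht₀ hD hdense hν hσ hqlim hφ hc).congr fun j => (hint j φ hφ).symm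
    · intro j hall
      apply (hq j).1.2
      funext i
      rw [← (hσ j).int i, ← hν.int i, ← hint j (D i) (hD i).1]
      exact hall (D i) (hD i).1 (hD i).2
  obtain ⟨W, hW, hWiso⟩ := hisol
  obtain ⟨S, ε, hε, hSε⟩ := nhds_coord hW
  exact unique_of_isolated hμ hfin x₀ ht₀ hD hdense hp S hε fun q hq hclose =>
    hWiso q (hSε q hclose) hq

end Vale.Agent.P218.H67
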