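import Vale.Agent.P218.H67.Bound

open MeasureTheory Set Filter Topology

namespace Vale.Agent.P218.H67

variable {E : Type} [NormedAddCommGroup E] [InnerProductSpace ℝ E] [FiniteDimensional ℝ E]
    [MeasurableSpace E] [BorelSpace E]

lemma max_pow_hasDerivAt (n : ℕ) (hn : 1 ≤ n) (u : ℝ) :
    HasDerivAt (fun v : ℝ => max 0 v ^ (n + 1)) ((n + 1) * max 0 u ^ n) u := by
  rcases lt_trichotomy u 0 with h | h | h
  · have h1 : (fun v : ℝ => max 0 v ^ (n + 1)) =ᶠ[𝓝 u] fun _ => 0 := by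
      filter_upwards [Iio_mem_nhds h] with v hv
      simp [max_eq_left (le_of_lt (show v < 0 from hv))]
    have h2 : (n + 1) * max 0 u ^ n = (0 : ℝ) := by
      rw [max_eq_left h.le, zero_pow (by omega), mul_zero]
    rw [h2]
    exact (hasDerivAt_const u (0 : ℝ)).congr_of_eventuallyEq h1
  · subst h
    have h2 : (n + 1) * max 0 0 ^ n = (0 : ℝ) := by
      rw [max_self, zero_pow (by omega), mul_zero]
    rw [h2, hasDerivAt_iff_isLittleO_nhds_zero]
    have h3 : (fun h : ℝ => max 0 (0 + h) ^ (n + 1) - max 0 0 ^ (n + 1) - h • (0 : ℝ)) =O[𝓝 0]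
        fun h : ℝ => h ^ (n + 1) := by
      refine Asymptotics.IsBigO.of_bound 1 (Eventually.of_forall fun h => ?_)
      simp only [zero_add, max_self, smul_zero, sub_zero, one_mul, norm_pow]
      rw [zero_pow (by omega), sub_zero, norm_pow]
      gcongr
      rw [Real.norm_of_nonneg (le_max_left _ _), Real.norm_eq_abs]
      exact max_le (abs_nonneg _) (le_abs_self _)
    exact h3.trans_isLittleO (Asymptotics.isLittleO_pow_id (by omega))
  · have h1 : (fun v : ℝ => max 0 v ^ (n + 1)) =ᶠ[𝓝 u] fun v => v ^ (n + 1) := by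
      filter_upwards [Ioi_mem_nhds h] with v hv
      rw [max_eq_right (le_of_lt (show 0 < v from hv))]
    rw [max_eq_right h.le]
    have h2 := (hasDerivAt_pow (n + 1) u).congr_of_eventuallyEq h1
    simpa using h2

/-- the cut-off `u_+^3` -/
noncomputable def jj (u : ℝ) : ℝ := max 0 u ^ 3

lemma jj_hasDerivAt (u : ℝ) : HasDerivAt jj (3 * max 0 u ^ 2) u := by
  have := max_pow_hasDerivAt 2 (by norm_num) u
  norm_num at this
  exact this

lemma jj_deriv : deriv jj = fun u => 3 * max 0 u ^ 2 := funext fun u => (jj_hasDerivAt u).deriv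

lemma jj_contDiff : ContDiff ℝ 2 jj := by
  have h1 : ∀ u : ℝ, HasDerivAt (fun u : ℝ => 3 * max 0 u ^ 2) (3 * (2 * max 0 u)) u := by
    intro u
    have := (max_pow_hasDerivAt 1 le_rfl u).const_mul 3
    norm_num at this ⊢
    convert this using 1
  rw [show (2 : WithTop ℕ∞) = 1 + 1 by norm_num, contDiff_succ_iff_deriv]
  refine ⟨fun u => (jj_hasDerivAt u).differentiableAt, by simp, ?_⟩
  rw [jj_deriv, contDiff_one_iff_deriv]
  refine ⟨fun u => (h1 u).differentiableAt, ?_⟩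
  rw [show deriv (fun u : ℝ => 3 * max 0 u ^ 2) = fun u => 3 * (2 * max 0 u) from
    funext fun u => (h1 u).deriv]
  fun_prop

lemma jj_nonneg (u : ℝ) : 0 ≤ jj u := by unfold jj; positivity

/-- the spatial cut-off -/
noncomputable def cut (R : ℝ) (y : E) : ℝ := jj (1 - ‖y‖ ^ 2 / R ^ 2)

lemma cut_contDiff (R : ℝ) : ContDiff ℝ 2 (cut (E := E) R) := by
  unfold cut
  exact jj_contDiff.comp (contDiff_const.sub ((contDiff_norm_sq ℝ).div_const _))

lemma cut_nonneg (R : ℝ) (y : E) : 0 ≤ cut R y := jj_nonneg _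

lemma cut_le_one (R : ℝ) (y : E) : cut R y ≤ 1 := by
  unfold cut jj
  have h1 : 0 ≤ ‖y‖ ^ 2 / R ^ 2 := by positivity
  have h2 : max 0 (1 - ‖y‖ ^ 2 / R ^ 2) ≤ 1 := max_le zero_le_one (by linarith)
  exact pow_le_one₀ (le_max_left _ _) h2

lemma cut_compact {R : ℝ} (hR : 0 < R) : HasCompactSupport (cut (E := E) R) := by
  refine HasCompactSupport.intro (isCompact_closedBall (0 : E) R) ?_
  intro y hy
  rw [mem_closedBall_zero_iff, not_le] at hy
  have h1 : 1 - ‖y‖ ^ 2 / R ^ 2 ≤ 0 := by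
    rw [sub_nonpos, one_le_div (by positivity)]
    gcongr
  unfold cut jj
  rw [max_eq_left h1]
  norm_num

lemma cut_hasFDerivAt (R : ℝ) (y : E) :
    HasFDerivAt (cut (E := E) R)
      ((3 * max 0 (1 - ‖y‖ ^ 2 / R ^ 2) ^ 2) • (-(2 / R ^ 2)) • innerSL ℝ y) y := by
  have h1 : HasFDerivAt (fun z : E => ‖z‖ ^ 2) (2 • innerSL ℝ y) y :=
    (hasStrictFDerivAt_norm_sq y).hasFDerivAt
  have h2 : HasFDerivAt (fun z : E => 1 - ‖z‖ ^ 2 / R ^ 2) ((-(2 / R ^ 2)) • innerSL ℝ y) y := by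
    have h3 := (h1.const_mul (-(1 / R ^ 2))).const_add 1
    have e1 : (fun z : E => 1 - ‖z‖ ^ 2 / R ^ 2) = fun z => 1 + (-(1 / R ^ 2)) * ‖z‖ ^ 2 := by
      funext z
      ring
    have e2 : (-(2 / R ^ 2)) • innerSL ℝ y = (-(1 / R ^ 2)) • (2 • innerSL ℝ y) := by
      rw [← Nat.cast_smul_eq_nsmul ℝ, smul_smul]
      congr 1
      push_cast
      ring
    rw [e1, e2]
    exact h3
  exact (jj_hasDerivAt _).comp_hasFDerivAt y h2

lemma cut_grad {R : ℝ} (hR : 0 < R) (y : E) :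
    ‖fderiv ℝ (cut (E := E) R) y‖ ^ 2 ≤ 36 / R ^ 2 * cut R y := by
  rw [(cut_hasFDerivAt R y).fderiv, norm_smul, norm_smul, innerSL_apply_norm, norm_neg,
    Real.norm_of_nonneg (by positivity), Real.norm_of_nonneg (by positivity)]
  set u := max 0 (1 - ‖y‖ ^ 2 / R ^ 2) with hu
  have hu0 : 0 ≤ u := le_max_left _ _
  have hj : cut R y = u ^ 3 := rfl
  rw [hj]
  have h1 : u * ‖y‖ ^ 2 ≤ R ^ 2 := by
    rcases le_or_gt (1 - ‖y‖ ^ 2 / R ^ 2) 0 with h | h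
    · rw [hu, max_eq_left h, zero_mul]
      positivity
    · have h2 : ‖y‖ ^ 2 / R ^ 2 < 1 := by linarith
      have h3 : ‖y‖ ^ 2 < R ^ 2 := by rwa [div_lt_one (by positivity)] at h2
      have h4 : u ≤ 1 := by
        rw [hu]
        refine max_le zero_le_one ?_
        have : 0 ≤ ‖y‖ ^ 2 / R ^ 2 := by positivity
        linarith
      nlinarith [sq_nonneg ‖y‖]
  have e : (3 * u ^ 2 * (2 / R ^ 2 * ‖y‖)) ^ 2 = 36 / R ^ 4 * u ^ 3 * (u * ‖y‖ ^ 2) := by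
    field_simp
    ring
  rw [e]
  calc 36 / R ^ 4 * u ^ 3 * (u * ‖y‖ ^ 2) ≤ 36 / R ^ 4 * u ^ 3 * R ^ 2 := by gcongr
    _ = 36 / R ^ 2 * u ^ 3 := by field_simp

lemma cut_tendsto (y : E) : Tendsto (fun n : ℕ => cut ((n : ℝ) + 1) y) atTop (𝓝 1) := by
  have h1 : Tendsto (fun n : ℕ => ‖y‖ ^ 2 / ((n : ℝ) + 1) ^ 2) atTop (𝓝 0) := by
    refine Tendsto.div_atTop tendsto_const_nhds ?_
    exact (tendsto_pow_atTop (by norm_num)).comp
      (tendsto_atTop_add_const_right _ _ tendsto_natCast_atTop_atTop)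
  have h2 : Tendsto (fun n : ℕ => jj (1 - ‖y‖ ^ 2 / ((n : ℝ) + 1) ^ 2)) atTop (𝓝 (jj (1 - 0))) :=
    (jj_contDiff.continuous.tendsto _).comp (tendsto_const_nhds.sub h1)
  have h3 : jj (1 - 0) = 1 := by unfold jj; norm_num
  rw [h3] at h2
  exact h2

/-- bounded non-negative `C^2` functions with bounded gradient -/
structure Bd (c₀ L : ℝ) (ψ : E → ℝ) : Prop where
  smooth : ContDiff ℝ 2 ψ
  nonneg : ∀ y, 0 ≤ ψ y
  le : ∀ y, ψ y ≤ c₀
  grad : ∀ y, ‖fderiv ℝ ψ y‖ ≤ L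

lemma Bd.prof {c₀ L : ℝ} {ψ : E → ℝ} (h : Bd c₀ L ψ) {K R : ℝ} (hK : 0 < K) (hR : 0 < R) :
    Prof (L ^ 2 / (2 * K) + 18 * (K + c₀) / R ^ 2) (fun y => (ψ y + K) * cut R y) where
  smooth := (h.smooth.add contDiff_const).mul (cut_contDiff R)
  compact := (cut_compact hR).mul_left
  nonneg := fun y => mul_nonneg (by linarith [h.nonneg y]) (cut_nonneg R y)
  grad := by
    intro y
    have hψ : HasFDerivAt (fun z => ψ z + K) (fderiv ℝ ψ y) y :=
      ((h.smooth.differentiable (by norm_num)) y).hasFDerivAt.add_const K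
    have hc : HasFDerivAt (cut R) (fderiv ℝ (cut R) y) y :=
      (((cut_contDiff R).differentiable (by norm_num)) y).hasFDerivAt
    have hd : fderiv ℝ (fun z => (ψ z + K) * cut R z) y = _ := (hψ.mul hc).fderiv
    rw [hd]
    set B := ψ y + K with hB
    have hB0 : K ≤ B := by linarith [h.nonneg y]
    have hB1 : B ≤ K + c₀ := by linarith [h.le y]
    have hBp : 0 < B := by linarith
    have hχ0 := cut_nonneg R y
    have hχ1 := cut_le_one R y
    have hL : 0 ≤ L := (norm_nonneg _).trans (h.grad y)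
    have hL2 : ‖fderiv ℝ ψ y‖ ^ 2 ≤ L ^ 2 := by
      gcongr
      exact h.grad y
    have hg := cut_grad hR y
    set χ := cut R y with hχ
    have n1 : ‖B • fderiv ℝ (cut R) y + χ • fderiv ℝ ψ y‖ ≤
        B * ‖fderiv ℝ (cut R) y‖ + χ * ‖fderiv ℝ ψ y‖ := by
      refine (norm_add_le _ _).trans (le_of_eq ?_)
      rw [norm_smul, norm_smul, Real.norm_of_nonneg hBp.le, Real.norm_of_nonneg hχ0]
    have n2 : (B * ‖fderiv ℝ (cut R) y‖ + χ * ‖fderiv ℝ ψ y‖) ^ 2 ≤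
        2 * (B ^ 2 * ‖fderiv ℝ (cut R) y‖ ^ 2) + 2 * (χ ^ 2 * ‖fderiv ℝ ψ y‖ ^ 2) := by
      nlinarith [sq_nonneg (B * ‖fderiv ℝ (cut R) y‖ - χ * ‖fderiv ℝ ψ y‖)]
    have n3 : B ^ 2 * ‖fderiv ℝ (cut R) y‖ ^ 2 ≤ (K + c₀) * B * (36 / R ^ 2 * χ) := by
      have h1 : B ^ 2 ≤ (K + c₀) * B := by nlinarith
      have h2 : 0 ≤ (K + c₀) * B := (sq_nonneg B).trans h1
      exact mul_le_mul h1 hg (sq_nonneg _) h2
    have n4 : χ ^ 2 * ‖fderiv ℝ ψ y‖ ^ 2 ≤ (B / K * χ) * L ^ 2 := by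
      have h1 : χ ^ 2 ≤ B / K * χ := by
        have : 1 ≤ B / K := by rwa [one_le_div hK]
        nlinarith
      gcongr
    calc ‖B • fderiv ℝ (cut R) y + χ • fderiv ℝ ψ y‖ ^ 2
        ≤ (B * ‖fderiv ℝ (cut R) y‖ + χ * ‖fderiv ℝ ψ y‖) ^ 2 := by
          gcongr
      _ ≤ 2 * (B ^ 2 * ‖fderiv ℝ (cut R) y‖ ^ 2) + 2 * (χ ^ 2 * ‖fderiv ℝ ψ y‖ ^ 2) := n2
      _ ≤ 2 * ((K + c₀) * B * (36 / R ^ 2 * χ)) + 2 * ((B / K * χ) * L ^ 2) := by linarith
      _ = 4 * (L ^ 2 / (2 * K) + 18 * (K + c₀) / R ^ 2) * (B * χ) := by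
          field_simp
          ring

end Vale.Agent.P218.H67
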