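import Mathlib

/-!
Brakke flows (in the form used by White) on `[0, t₀)` in a Euclidean space `E` (a
finite-dimensional real inner product space), their parabolic rescalings at a point `(x₀, t₀)`,
tangent flows, and the Gaussian density ratio.
-/

open MeasureTheory Set Filter Topology

namespace Vale.Agent.P218.H67

variable {E : Type} [NormedAddCommGroup E] [InnerProductSpace ℝ E] [FiniteDimensional ℝ E]

/-- `P` is the orthogonal projection onto an `m`-dimensional linear subspace. -/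
def IsPlane (m : ℕ) (P : E →L[ℝ] E) : Prop :=
  ∃ V : Submodule ℝ E, Module.finrank ℝ V = m ∧ P = V.starProjection

/-- The divergence of the vector field `X` at `x` along the range of the projection `P`:
the trace of `P` composed with the derivative of `X`. -/
noncomputable def divP (P : E →L[ℝ] E) (X : E → E) (x : E) : ℝ :=
  LinearMap.trace ℝ E (P.comp (fderiv ℝ X x) : E →L[ℝ] E)

/-- Test functions on `(-∞, t₀) × E`: non-negative, of class `C^2`, and with compact support in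
space, locally uniformly in time. -/
structure IsTest (t₀ : ℝ) (f : ℝ → E → ℝ) : Prop where
  nonneg : ∀ t < t₀, ∀ x, 0 ≤ f t x
  smooth : ContDiffOn ℝ 2 (fun p : ℝ × E => f p.1 p.2) (Iio t₀ ×ˢ univ)
  supp : ∀ a b : ℝ, b < t₀ → ∃ K : Set E, IsCompact K ∧ ∀ t ∈ Icc a b, ∀ x ∉ K, f t x = 0

variable [MeasurableSpace E]

/-- The right-hand side of Brakke's inequality at time `t`:
the integral of `-|H|^2 f + H . D f + ∂_t f`. -/
noncomputable def rate (μ : ℝ → Measure E) (H : ℝ → E → E) (f : ℝ → E → ℝ) (t : ℝ) : ℝ :=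
  ∫ x, (-(‖H t x‖ ^ 2 * f t x) + fderiv ℝ (f t) x (H t x) + deriv (fun s => f s x) t) ∂(μ t)

/-- `(μ_t)` is an `m`-dimensional Brakke flow in `E` on the time interval `[0, t₀)`, with
approximate tangent planes `P t x` and mean curvature vectors `H t x`: the `μ_t` are Radon
measures; for almost every time the varifold given by `μ_t` and `P t` has first variation
`-H μ_t` with `H` perpendicular to the planes and locally square integrable; and Brakke's
inequality holds for every test function on every interval. -/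
structure IsBrakkeFlow (m : ℕ) (t₀ : ℝ) (μ : ℝ → Measure E)
    (P : ℝ → E → (E →L[ℝ] E)) (H : ℝ → E → E) : Prop where
  radon : ∀ t ∈ Ico 0 t₀, IsFiniteMeasureOnCompacts (μ t)
  meas : ∀ᵐ t ∂(volume.restrict (Ioo 0 t₀)),
    AEStronglyMeasurable (P t) (μ t) ∧ AEStronglyMeasurable (H t) (μ t)
  plane : ∀ᵐ t ∂(volume.restrict (Ioo 0 t₀)), ∀ᵐ x ∂(μ t),
    IsPlane m (P t x) ∧ P t x (H t x) = 0
  sq : ∀ᵐ t ∂(volume.restrict (Ioo 0 t₀)), ∀ K : Set E, IsCompact K →
    IntegrableOn (fun x => ‖H t x‖ ^ 2) K (μ t)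
  first : ∀ᵐ t ∂(volume.restrict (Ioo 0 t₀)), ∀ X : E → E, ContDiff ℝ 1 X →
    HasCompactSupport X → ∫ x, divP (P t x) X x ∂(μ t) = -∫ x, inner ℝ (H t x) (X x) ∂(μ t)
  brakke : ∀ f : ℝ → E → ℝ, IsTest t₀ f → ∀ a b : ℝ, 0 ≤ a → a ≤ b → b < t₀ →
    IntervalIntegrable (rate μ H f) volume a b ∧
      (∫ x, f b x ∂(μ b)) - ∫ x, f a x ∂(μ a) ≤ ∫ t in a..b, rate μ H f t

/-- The parabolic rescaling `μ^l_s` about `(x₀, t₀)`: the push-forward of `l^m μ_{t₀ + s / l^2}`
under `x ↦ l (x - x₀)`. -/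
noncomputable def rescale (m : ℕ) (μ : ℝ → Measure E) (x₀ : E) (t₀ l s : ℝ) : Measure E :=
  ENNReal.ofReal (l ^ m) • (μ (t₀ + s / l ^ 2)).map (fun x => l • (x - x₀))

/-- Weak (vague) convergence of Radon measures: convergence of the integrals of all continuous
functions of compact support. -/
def VagueTendsto {ι : Type} (ν : ι → Measure E) (F : Filter ι) (θ : Measure E) : Prop :=
  ∀ φ : E → ℝ, Continuous φ → HasCompactSupport φ →
    Tendsto (fun i => ∫ x, φ x ∂(ν i)) F (𝓝 (∫ x, φ x ∂θ))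

/-- `(ν_s)_{s < 0}` is a tangent flow at `(x₀, t₀)`. -/
def IsTangentFlow (m : ℕ) (μ : ℝ → Measure E) (x₀ : E) (t₀ : ℝ) (ν : ℝ → Measure E) : Prop :=
  (∀ s < 0, IsFiniteMeasureOnCompacts (ν s)) ∧
    ∃ l : ℕ → ℝ, Tendsto l atTop atTop ∧
      ∀ s < 0, VagueTendsto (fun i => rescale m μ x₀ t₀ (l i) s) atTop (ν s)

/-- The tangent flow at `(x₀, t₀)` is unique, in fixed coordinates: `μ^l_s` converges for every
`s < 0` as `l → ∞`, and every tangent flow is equal to the limit. -/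
def UniqueTangentFlow (m : ℕ) (μ : ℝ → Measure E) (x₀ : E) (t₀ : ℝ) : Prop :=
  ∃ ν : ℝ → Measure E, IsTangentFlow m μ x₀ t₀ ν ∧
    (∀ s < 0, VagueTendsto (fun l : ℝ => rescale m μ x₀ t₀ l s) atTop (ν s)) ∧
    ∀ ν' : ℝ → Measure E, IsTangentFlow m μ x₀ t₀ ν' → ∀ s < 0, ν' s = ν s

/-- The Gaussian density ratio of the flow at `(x₀, t₀)` and time `t < t₀`. -/
noncomputable def gauss (m : ℕ) (μ : ℝ → Measure E) (x₀ : E) (t₀ t : ℝ) : ℝ :=
  ∫ x, (4 * Real.pi * (t₀ - t)) ^ (-(m : ℝ) / 2) *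
    Real.exp (-(‖x - x₀‖ ^ 2) / (4 * (t₀ - t))) ∂(μ t)

/-- The scale-invariant dissipation at time `t`: the Gaussian integral of
`|√(t₀ - t) H + (x - x₀)^⊥ / (2 √(t₀ - t))|^2`. It vanishes for self-shrinking flows. -/
noncomputable def dissip (m : ℕ) (μ : ℝ → Measure E)
    (P : ℝ → E → (E →L[ℝ] E)) (H : ℝ → E → E) (x₀ : E) (t₀ t : ℝ) : ENNReal :=
  ∫⁻ x, ENNReal.ofReal ((4 * Real.pi * (t₀ - t)) ^ (-(m : ℝ) / 2) *
    Real.exp (-(‖x - x₀‖ ^ 2) / (4 * (t₀ - t))) *
    ‖√(t₀ - t) • H t x + (2 * √(t₀ - t))⁻¹ • ((x - x₀) - P t x (x - x₀))‖ ^ 2) ∂(μ t)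

end Vale.Agent.P218.H67
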