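import Vale.Agent.P218.H67.Def

/-!
Notions used in the uniqueness criteria for tangent flows.
-/

open MeasureTheory Set Filter Topology

namespace Vale.Agent.P218.H67

variable {E : Type} [NormedAddCommGroup E] [InnerProductSpace ℝ E]

/-- `Γ` is a set of linear isometries such that no non-zero skew-symmetric map commutes with all
of them (no one-parameter group of rotations commutes with `Γ`). -/
def NoRotation (Γ : Set (E ≃ₗᵢ[ℝ] E)) : Prop :=
  ∀ ω : E →L[ℝ] E, (∀ x, inner ℝ (ω x) x = 0) → (∀ g ∈ Γ, ∀ x, g (ω x) = ω (g x)) → ω = 0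

/-- `S` is a finite set of continuous functions of compact support, and `δ` is positive: this data
defines a weak neighbourhood of every Radon measure. -/
def IsNbhd (S : Finset (E → ℝ)) (δ : ℝ) : Prop :=
  0 < δ ∧ ∀ φ ∈ S, Continuous φ ∧ HasCompactSupport φ

variable [MeasurableSpace E]

/-- The measure `ρ` is close to `ρ₀`: the integrals of the functions in `S` differ by less
than `δ`. -/
def IsClose (S : Finset (E → ℝ)) (δ : ℝ) (ρ ρ₀ : Measure E) : Prop :=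
  ∀ φ ∈ S, |∫ y, φ y ∂ρ - ∫ y, φ y ∂ρ₀| < δ

/-- The flow is invariant under `x ↦ x₀ + g (x - x₀)`, up to time `t₀`. -/
def InvariantUnder (μ : ℝ → Measure E) (x₀ : E) (t₀ : ℝ) (g : E ≃ₗᵢ[ℝ] E) : Prop :=
  ∀ t ∈ Ico 0 t₀, (μ t).map (fun x => x₀ + g (x - x₀)) = μ t

/-- The measures in `A` fall into at most countably many classes modulo linear isometries. -/
def CountablyManyShapes (A : Set (Measure E)) : Prop :=
  ∃ θ : ℕ → Measure E, (∀ k, IsFiniteMeasureOnCompacts (θ k)) ∧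
    ∀ ρ ∈ A, ∃ (k : ℕ) (R : E ≃ₗᵢ[ℝ] E), ρ = (θ k).map R

variable [FiniteDimensional ℝ E]

/-- The slices at time `-1` of the tangent flows at `(x₀, t₀)` that are close to `ν₀ (-1)`. -/
def tangentsNear (m : ℕ) (μ : ℝ → Measure E) (x₀ : E) (t₀ : ℝ) (ν₀ : ℝ → Measure E)
    (S : Finset (E → ℝ)) (δ : ℝ) : Set (Measure E) :=
  {ρ | ∃ ν, IsTangentFlow m μ x₀ t₀ ν ∧ ν (-1) = ρ ∧ IsClose S δ (ν (-1)) (ν₀ (-1))}

/-- A Lojasiewicz inequality near the tangent flow `ν₀`, for the flow itself: for almost every `t`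
close to `t₀` at which the flow rescaled by `1 / √(t₀ - t)` about `(x₀, t₀)` is close to `ν₀`, the
excess of the density ratio over the Gaussian density `Θ` satisfies
`(gauss t - Θ) ^ (2 - 2 θ) ≤ C * dissip t`, with an exponent `θ` in `(0, 1/2]`. -/
def LojasiewiczNear (m : ℕ) (μ : ℝ → Measure E) (P : ℝ → E → (E →L[ℝ] E)) (H : ℝ → E → E)
    (x₀ : E) (t₀ : ℝ) (ν₀ : ℝ → Measure E) : Prop :=
  ∃ (S : Finset (E → ℝ)) (δ : ℝ), IsNbhd S δ ∧ ∃ C θ t₁ Θ : ℝ, 0 < C ∧ 0 < θ ∧ θ ≤ 1 / 2 ∧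
    t₁ < t₀ ∧ Tendsto (gauss m μ x₀ t₀) (𝓝[<] t₀) (𝓝 Θ) ∧
    ∀ᵐ t ∂(volume.restrict (Ioo t₁ t₀)),
      IsClose S δ (rescale m μ x₀ t₀ (√(t₀ - t))⁻¹ (-1)) (ν₀ (-1)) →
      ENNReal.ofReal ((gauss m μ x₀ t₀ t - Θ) ^ (2 - 2 * θ)) ≤
        ENNReal.ofReal C * dissip m μ P H x₀ t₀ t

end Vale.Agent.P218.H67
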