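import Vale.Agent.P218.H67.Resc

open MeasureTheory Set Filter Topology

namespace Vale.Agent.P218.H67

variable {E : Type} [NormedAddCommGroup E] [InnerProductSpace ℝ E] [FiniteDimensional ℝ E]
    [MeasurableSpace E] [BorelSpace E]

/-- continuous cut-off -/
noncomputable def eta (n : ℕ) (y : E) : ℝ := max 0 (min 1 ((n : ℝ) + 1 - ‖y‖))

lemma eta_continuous (n : ℕ) : Continuous (eta (E := E) n) := by
  unfold eta
  fun_prop

lemma eta_nonneg (n : ℕ) (y : E) : 0 ≤ eta n y := le_max_left _ _

lemma eta_le_one (n : ℕ) (y : E) : eta n y ≤ 1 := max_le zero_le_one (min_le_left _ _)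

lemma eta_eq_one {n : ℕ} {y : E} (h : ‖y‖ ≤ n) : eta n y = 1 := by
  unfold eta
  rw [min_eq_left (by linarith), max_eq_right zero_le_one]

lemma eta_eq_zero {n : ℕ} {y : E} (h : y ∉ Metric.closedBall (0 : E) (n + 1)) :
    eta n y = 0 := by
  rw [mem_closedBall_zero_iff, not_le] at h
  unfold eta
  exact max_eq_left ((min_le_right _ _).trans (by linarith))

variable (E) in
/-- a countable family of test functions, dense in the weighted sense -/
lemma exists_dense : ∃ D : ℕ → E → ℝ,
    (∀ k, Continuous (D k) ∧ HasCompactSupport (D k)) ∧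
    ∀ φ : E → ℝ, Continuous φ → HasCompactSupport φ → ∀ ε > 0,
      ∃ k, ∀ y, |φ y - D k y| ≤ ε * gw y := by
  let d : ℕ → C(E, ℝ) := TopologicalSpace.denseSeq C(E, ℝ)
  refine ⟨fun k y => eta k.unpair.1 y * d k.unpair.2 y, ?_, ?_⟩
  · intro k
    refine ⟨(eta_continuous _).mul (d _).continuous, ?_⟩
    refine HasCompactSupport.intro (isCompact_closedBall (0 : E) (k.unpair.1 + 1)) fun y hy => ?_
    change eta k.unpair.1 y * d k.unpair.2 y = 0
    rw [eta_eq_zero hy, zero_mul]
  · intro φ hφ hc ε hε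
    obtain ⟨R, hR⟩ := hc.isCompact.isBounded.subset_closedBall (0 : E)
    obtain ⟨n, hn⟩ := exists_nat_ge R
    set K : Set (E) := Metric.closedBall 0 (n + 1) with hK
    set δ : ℝ := ε * Real.exp (-(((n : ℝ) + 1) ^ 2) / 4) with hδ
    have hδ0 : 0 < δ := by positivity
    have hcl : (⟨φ, hφ⟩ : C(E, ℝ)) ∈ closure (range d) := by
      rw [(TopologicalSpace.denseRange_denseSeq C(E, ℝ)).closure_range]
      trivial
    obtain ⟨g, hg, hlim⟩ := mem_closure_iff_seq_limit.1 hcl
    rw [ContinuousMap.tendsto_iff_forall_isCompact_tendstoUniformlyOn] at hlim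
    have h1 := (Metric.tendstoUniformlyOn_iff.1 (hlim K (isCompact_closedBall _ _))) δ hδ0
    obtain ⟨j, hj⟩ := h1.exists
    obtain ⟨i, hi⟩ := hg j
    refine ⟨Nat.pair n i, fun y => ?_⟩
    simp only [Nat.unpair_pair]
    by_cases hy : y ∈ K
    · have h2 : φ y = eta n y * φ y := by
        by_cases h3 : ‖y‖ ≤ n
        · rw [eta_eq_one h3, one_mul]
        · have : φ y = 0 := by
            by_contra hne
            have h4 := hR (subset_tsupport _ (Function.mem_support.2 hne))
            rw [mem_closedBall_zero_iff] at h4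
            exact h3 (h4.trans hn)
          rw [this, mul_zero]
      have h5 : |φ y - d i y| ≤ δ := by
        have := hj y hy
        rw [← hi, Real.dist_eq] at this
        exact this.le
      have h6 : δ ≤ ε * gw y := by
        rw [hδ]
        unfold gw
        have hyn : ‖y‖ ≤ n + 1 := mem_closedBall_zero_iff.1 hy
        gcongr
      calc |φ y - eta n y * d i y| = eta n y * |φ y - d i y| := by
            conv_lhs => rw [h2]
            rw [← mul_sub, abs_mul, abs_of_nonneg (eta_nonneg _ _)]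
        _ ≤ 1 * δ := mul_le_mul (eta_le_one _ _) h5 (abs_nonneg _) zero_le_one
        _ ≤ ε * gw y := by rwa [one_mul]
    · have h2 : φ y = 0 := by
        by_contra hne
        have h4 := hR (subset_tsupport _ (Function.mem_support.2 hne))
        apply hy
        rw [mem_closedBall_zero_iff] at h4 ⊢
        linarith
      rw [eta_eq_zero hy, h2, zero_mul, sub_zero, abs_zero]
      exact mul_nonneg hε.le (gw_pos y).le

/-- Convergence of a slowly varying sequence to an isolated cluster point. -/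
lemma isolated_tendsto {ι : Type} {x : ℕ → ι → ℝ} {K : Set (ι → ℝ)} (hK : IsCompact K)
    (hx : ∀ᶠ n in atTop, x n ∈ K) (hstep : ∀ k, Tendsto (fun n => x (n + 1) k - x n k) atTop (𝓝 0))
    {p : ι → ℝ} (hp : MapClusterPt p atTop x) (S : Finset ι) {ε : ℝ} (hε : 0 < ε)
    (hiso : ∀ q, MapClusterPt q atTop x → (∀ k ∈ S, |q k - p k| ≤ 2 * ε) → q = p) :
    Tendsto x atTop (𝓝 p) := by
  have hopen : ∀ r : ℝ, 0 < r → ∀ᶠ y in 𝓝 p, ∀ k ∈ S, |y k - p k| < r := by
    intro r hr
    rw [Filter.eventually_all_finset]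
    intro k _
    have : Tendsto (fun y : ι → ℝ => |y k - p k|) (𝓝 p) (𝓝 |p k - p k|) :=
      ((continuous_apply k).tendsto p |>.sub_const _).abs
    rw [sub_self, abs_zero] at this
    exact this.eventually_lt_const hr
  have hfreq : ∃ᶠ n in atTop, ∀ k ∈ S, |x n k - p k| < ε :=
    (mapClusterPt_iff_frequently.1 hp) _ (hopen ε hε)
  have hstepS : ∀ᶠ n in atTop, ∀ k ∈ S, |x (n + 1) k - x n k| < ε := by
    rw [Filter.eventually_all_finset]
    intro k _
    have := (hstep k).abs
    rw [abs_zero] at this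
    exact this.eventually_lt_const hε
  have hev : ∀ᶠ n in atTop, ∀ k ∈ S, |x n k - p k| < ε := by
    by_contra hne
    have hfreq2 : ∃ᶠ n in atTop, ¬ ∀ k ∈ S, |x n k - p k| < ε := by
      rwa [Filter.not_eventually] at hne
    -- infinitely many transitions
    have htr : ∃ᶠ n in atTop, (∀ k ∈ S, |x n k - p k| < ε) ∧
        ¬ ∀ k ∈ S, |x (n + 1) k - p k| < ε := by
      rw [Filter.frequently_atTop]
      intro a
      obtain ⟨n₁, hn₁, h₁⟩ := (Filter.frequently_atTop.1 hfreq) a
      obtain ⟨n₂, hn₂, h₂⟩ := (Filter.frequently_atTop.1 hfreq2) n₁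
      by_contra hcon
      push Not at hcon
      have hind : ∀ j, ∀ k ∈ S, |x (n₁ + j) k - p k| < ε := by
        intro j
        induction j with
        | zero => exact h₁
        | succ j ih => exact hcon (n₁ + j) (by omega) ih
      have := hind (n₂ - n₁)
      rw [show n₁ + (n₂ - n₁) = n₂ by omega] at this
      exact h₂ this
    have hfr : ∃ᶠ n in atTop, x n ∈ K ∧ (∀ k ∈ S, |x n k - p k| ≤ 2 * ε) ∧
        ¬ ∀ k ∈ S, |x n k - p k| < ε := by
      rw [Filter.frequently_atTop]
      intro a
      obtain ⟨b, hb⟩ := Filter.eventually_atTop.1 (hstepS.and hx)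
      obtain ⟨n, hn, h1, h2⟩ := (Filter.frequently_atTop.1 htr) (max a b)
      refine ⟨n + 1, by omega, (hb (n + 1) (by omega)).2, fun k hk => ?_, h2⟩
      have h3 := h1 k hk
      have h4 := (hb n (by omega)).1 k hk
      have : x (n + 1) k - p k = (x (n + 1) k - x n k) + (x n k - p k) := by ring
      rw [this]
      refine (abs_add_le _ _).trans ?_
      linarith
    set C : Set (ι → ℝ) := K ∩ {y | (∀ k ∈ S, |y k - p k| ≤ 2 * ε) ∧
      ¬ ∀ k ∈ S, |y k - p k| < ε} with hC
    have hCc : IsCompact C := by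
      refine hK.inter_right ?_
      have e1 : {y : ι → ℝ | (∀ k ∈ S, |y k - p k| ≤ 2 * ε) ∧ ¬ ∀ k ∈ S, |y k - p k| < ε} =
          {y | ∀ k ∈ S, |y k - p k| ≤ 2 * ε} ∩ {y | ∀ k ∈ S, |y k - p k| < ε}ᶜ := rfl
      rw [e1]
      refine IsClosed.inter ?_ (IsOpen.isClosed_compl ?_)
      · simp only [Set.ofPred_forall]
        exact isClosed_biInter fun k _ => isClosed_le (by fun_prop) continuous_const
      · simp only [Set.ofPred_forall]
        exact Set.Finite.isOpen_biInter S.finite_toSet fun k _ =>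
          isOpen_lt (by fun_prop) continuous_const
    obtain ⟨q, hqC, hq⟩ := hCc.exists_mapClusterPt_of_frequently hfr
    have := hiso q hq hqC.2.1
    subst this
    exact hqC.2.2 fun k _ => by simpa using hε
  refine hK.tendsto_nhds_of_unique_mapClusterPt hx fun q _ hq => ?_
  refine hiso q hq fun k hk => ?_
  have hcl : IsClosed {y : ι → ℝ | |y k - p k| ≤ 2 * ε} :=
    isClosed_le (by fun_prop) continuous_const
  refine hcl.closure_subset ?_
  rw [mem_closure_iff_frequently]
  by_contra hcon
  rw [Filter.not_frequently] at hcon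
  have h1 := (mapClusterPt_iff_frequently.1 hq) _ hcon
  obtain ⟨n, hn1, hn2⟩ := (h1.and_eventually hev).exists
  apply hn1
  change |x n k - p k| ≤ 2 * ε
  linarith [hn2 k hk]

end Vale.Agent.P218.H67
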