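import Vale.Agent.P218.H67.RateC

open MeasureTheory Set Filter Topology

namespace Vale.Agent.P218.H67

variable {E : Type} [NormedAddCommGroup E] [InnerProductSpace ℝ E] [FiniteDimensional ℝ E]
    [MeasurableSpace E] [BorelSpace E]
    {m : ℕ} {t₀ : ℝ} {μ : ℝ → Measure (E)}
    {P : ℝ → E → (E →L[ℝ] E)} {H : ℝ → E → E}

lemma Ex_eq {P : E →L[ℝ] E} (hP : IsPlane m P) {h y : E} (hh : P h = 0)
    (A : ℝ) (D : E →L[ℝ] ℝ) :
    Ex m P h y A D = D (h + (1 / 2 : ℝ) • (y - P y)) - A * ‖h + (1 / 2 : ℝ) • (y - P y)‖ ^ 2 := by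
  set z : E := y - P y with hz
  have hPz : P z = 0 := by rw [hz, map_sub, hP.idem, sub_self]
  have e1 : inner ℝ (P y) h = 0 := by rw [hP.symm, hh, inner_zero_right]
  have e2 : inner ℝ z h = inner ℝ y h := by rw [hz, inner_sub_left, e1, sub_zero]
  have e3 : inner ℝ (P y) z = 0 := by rw [hP.symm, hPz, inner_zero_right]
  have e4 : inner ℝ z z = inner ℝ y y - inner ℝ y (P y) := by
    have : inner ℝ z z = inner ℝ y z := by
      conv_lhs => rw [hz]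
      rw [inner_sub_left, e3, sub_zero]
    rw [this, hz, inner_sub_right]
  set w : E := h + (1 / 2 : ℝ) • z with hw
  have e5 : ‖w‖ ^ 2 = ‖h‖ ^ 2 + inner ℝ y h + 1 / 4 * (inner ℝ y y - inner ℝ y (P y)) := by
    rw [hw, norm_add_sq_real, norm_smul, mul_pow, inner_smul_right, real_inner_comm, e2, ← e4,
      real_inner_self_eq_norm_sq]
    norm_num
    ring
  have e6 : D w = D h + 1 / 2 * (D y - D (P y)) := by
    rw [hw, map_add, map_smul, hz, map_sub, smul_eq_mul]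
  have e8 : inner ℝ h y = inner ℝ y h := real_inner_comm _ _
  unfold Ex
  rw [e8, e5, e6]
  ring

lemma Ex_le {P : E →L[ℝ] E} (hP : IsPlane m P) {h y : E} (hh : P h = 0)
    {A c : ℝ} {D : E →L[ℝ] ℝ} (hA : 0 ≤ A) (hc : 0 ≤ c) (hD : ‖D‖ ^ 2 ≤ 4 * c * A) :
    Ex m P h y A D ≤ 2 * c - 1 / 2 * (A * ‖h + (1 / 2 : ℝ) • (y - P y)‖ ^ 2) := by
  rw [Ex_eq hP hh]
  set w : E := h + (1 / 2 : ℝ) • (y - P y) with hw
  have e7 : D w ≤ 2 * c + A / 2 * ‖w‖ ^ 2 := by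
    calc D w ≤ ‖D w‖ := le_abs_self _
      _ ≤ ‖D‖ * ‖w‖ := D.le_opNorm w
      _ ≤ 2 * c + A / 2 * ‖w‖ ^ 2 := young (by positivity) (by positivity) (by linarith)
  linarith

/-- the velocity in similarity variables -/
noncomputable def wv (P : ℝ → E → (E →L[ℝ] E)) (H : ℝ → E → E) (x₀ : E)
    (t₀ t : ℝ) (x : E) : E :=
  √(t₀ - t) • H t x + (1 / 2 : ℝ) • (sim x₀ t₀ t x - P t x (sim x₀ t₀ t x))

lemma dissip_eq {x₀ : E} {t : ℝ} (h : t < t₀) :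
    dissip m μ P H x₀ t₀ t = ∫⁻ x, ENNReal.ofReal (kap m t₀ t * gw (sim x₀ t₀ t x) *
      ‖wv P H x₀ t₀ t x‖ ^ 2) ∂(μ t) := by
  unfold dissip
  congr 1
  funext x
  have hτ : 0 < t₀ - t := by linarith
  have e1 : Real.exp (-(‖x - x₀‖ ^ 2) / (4 * (t₀ - t))) = gw (sim x₀ t₀ t x) := by
    unfold gw
    rw [norm_sim_sq x₀ x h]
    congr 1
    field_simp
  have e2 : (2 * √(t₀ - t))⁻¹ • ((x - x₀) - P t x (x - x₀)) =
      (1 / 2 : ℝ) • (sim x₀ t₀ t x - P t x (sim x₀ t₀ t x)) := by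
    unfold sim
    rw [map_smul, ← smul_sub, smul_smul]
    congr 1
    rw [mul_inv]
    norm_num
  rw [e1, e2]
  rfl

lemma wv_meas {x₀ : E} {t : ℝ} (h1 : AEStronglyMeasurable (P t) (μ t))
    (h2 : AEStronglyMeasurable (H t) (μ t)) : AEStronglyMeasurable (wv P H x₀ t₀ t) (μ t) := by
  have cs : Continuous (sim x₀ t₀ t) := sim_continuous x₀ t₀ t
  have mPy : AEStronglyMeasurable (fun x => P t x (sim x₀ t₀ t x)) (μ t) :=
    isBoundedBilinearMap_apply.continuous.comp_aestronglyMeasurable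
      (h1.prodMk cs.aestronglyMeasurable)
  have e1 : AEStronglyMeasurable (fun x => √(t₀ - t) • H t x) (μ t) :=
    h2.const_smul (√(t₀ - t))
  have e2 : AEStronglyMeasurable (fun x => sim x₀ t₀ t x - P t x (sim x₀ t₀ t x)) (μ t) :=
    cs.aestronglyMeasurable.sub mPy
  have e3 : AEStronglyMeasurable
      (fun x => (1 / 2 : ℝ) • (sim x₀ t₀ t x - P t x (sim x₀ t₀ t x))) (μ t) :=
    e2.const_smul (1 / 2 : ℝ)
  have e4 : AEStronglyMeasurable (fun x => √(t₀ - t) • H t x +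
      (1 / 2 : ℝ) • (sim x₀ t₀ t x - P t x (sim x₀ t₀ t x))) (μ t) := e1.add e3
  exact e4

lemma wv_meas2 {x₀ : E} {t : ℝ} (h1 : AEStronglyMeasurable (P t) (μ t))
    (h2 : AEStronglyMeasurable (H t) (μ t)) {A : E → ℝ} (hA : Continuous A) :
    AEStronglyMeasurable (fun x => kap m t₀ t * gw (sim x₀ t₀ t x) *
      (A (sim x₀ t₀ t x) * ‖wv P H x₀ t₀ t x‖ ^ 2)) (μ t) := by
  have cs : Continuous (sim x₀ t₀ t) := sim_continuous x₀ t₀ t
  have mw : AEStronglyMeasurable (wv P H x₀ t₀ t) (μ t) := wv_meas h1 h2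
  have c1 : Continuous (fun x => kap m t₀ t * gw (sim x₀ t₀ t x)) :=
    continuous_const.mul (gw_contDiff.continuous.comp cs)
  have c2 : Continuous (fun x => A (sim x₀ t₀ t x)) := hA.comp cs
  exact c1.aestronglyMeasurable.mul (c2.aestronglyMeasurable.mul (mw.norm.pow 2))

lemma pw_le {x₀ : E} {t : ℝ} (hlt : t < t₀) {A : E → ℝ} {c : ℝ} (hc : 0 ≤ c)
    (hA : Prof c A) {x : E} {Fx : ℝ} (hP : IsPlane m (P t x)) (hPH : P t x (H t x) = 0)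
    (hFx : Fx = kap m t₀ t / (t₀ - t) * gw (sim x₀ t₀ t x) * Ex m (P t x) (√(t₀ - t) • H t x)
          (sim x₀ t₀ t x) (A (sim x₀ t₀ t x)) (fderiv ℝ A (sim x₀ t₀ t x))) :
    kap m t₀ t * gw (sim x₀ t₀ t x) * (A (sim x₀ t₀ t x) * ‖wv P H x₀ t₀ t x‖ ^ 2) ≤
      4 * c * (kap m t₀ t * gw (sim x₀ t₀ t x)) - 2 * (t₀ - t) * Fx := by
  have hτ : 0 < t₀ - t := by linarith
  have hκ : 0 < kap m t₀ t := kap_pos m hlt
  have hPh : P t x (√(t₀ - t) • H t x) = 0 := by rw [map_smul, hPH, smul_zero]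
  have hpw := Ex_le (y := sim x₀ t₀ t x) hP hPh (hA.nonneg (sim x₀ t₀ t x)) hc
    (hA.grad (sim x₀ t₀ t x))
  have hg := gw_pos (sim x₀ t₀ t x)
  have h3 : ‖√(t₀ - t) • H t x + (1 / 2 : ℝ) • (sim x₀ t₀ t x - P t x (sim x₀ t₀ t x))‖ =
      ‖wv P H x₀ t₀ t x‖ := rfl
  rw [h3] at hpw
  generalize hE : Ex m (P t x) (√(t₀ - t) • H t x) (sim x₀ t₀ t x) (A (sim x₀ t₀ t x))
    (fderiv ℝ A (sim x₀ t₀ t x)) = EE at hpw hFx
  have h2 : 2 * (t₀ - t) * Fx = 2 * (kap m t₀ t * gw (sim x₀ t₀ t x)) * EE := by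
    rw [hFx]
    field_simp
  rw [h2]
  have hfac : 0 ≤ 2 * (kap m t₀ t * gw (sim x₀ t₀ t x)) := by positivity
  have h1 := mul_le_mul_of_nonneg_left hpw hfac
  linarith

/-- slice inequality with the dissipation term -/
lemma rate_le2 (hμ : IsBrakkeFlow m t₀ μ P H) (hfin : ∀ t ∈ Ico 0 t₀, μ t univ < ⊤) (x₀ : E)
    {A : E → ℝ} {c : ℝ} (hc : 0 ≤ c) (hA : Prof c A) :
    ∀ᵐ t ∂(volume.restrict (Ioo 0 t₀)),
      ∫⁻ x, ENNReal.ofReal (kap m t₀ t * gw (sim x₀ t₀ t x) *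
        (A (sim x₀ t₀ t x) * ‖wv P H x₀ t₀ t x‖ ^ 2)) ∂(μ t) ≤
      ENNReal.ofReal (4 * c * gauss m μ x₀ t₀ t -
        2 * (t₀ - t) * rate μ H (tst m x₀ t₀ (fun z => gw z * A z)) t) := by
  filter_upwards [rate_repr hμ hfin x₀ hA, hμ.meas, ae_restrict_mem measurableSet_Ioo]
    with t ht hmeas htt
  obtain ⟨F, hF, hrate, hae⟩ := ht
  have hlt : t < t₀ := htt.2
  have hκ : 0 < kap m t₀ t := kap_pos m hlt
  have hfinm : IsFiniteMeasure (μ t) := ⟨hfin t ⟨htt.1.le, htt.2⟩⟩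
  have i1 : Integrable (fun x => 4 * c * (kap m t₀ t * gw (sim x₀ t₀ t x))) (μ t) :=
    (integrable_gauss (m := m) (x₀ := x₀) (t₀ := t₀)).const_mul _
  have i2 : Integrable (fun x => 2 * (t₀ - t) * F x) (μ t) := hF.const_mul _
  have hle : ∀ᵐ x ∂(μ t), kap m t₀ t * gw (sim x₀ t₀ t x) *
      (A (sim x₀ t₀ t x) * ‖wv P H x₀ t₀ t x‖ ^ 2) ≤
      4 * c * (kap m t₀ t * gw (sim x₀ t₀ t x)) - 2 * (t₀ - t) * F x := by
    filter_upwards [hae] with x hx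
    exact pw_le hlt hc hA hx.1 hx.2.1 hx.2.2
  have hnn : 0 ≤ᵐ[μ t] fun x => kap m t₀ t * gw (sim x₀ t₀ t x) *
      (A (sim x₀ t₀ t x) * ‖wv P H x₀ t₀ t x‖ ^ 2) := by
    refine Eventually.of_forall fun x => ?_
    exact mul_nonneg (mul_nonneg hκ.le (gw_pos _).le) (mul_nonneg (hA.nonneg _) (sq_nonneg _))
  have iD : Integrable (fun x => kap m t₀ t * gw (sim x₀ t₀ t x) *
      (A (sim x₀ t₀ t x) * ‖wv P H x₀ t₀ t x‖ ^ 2)) (μ t) := by
    refine Integrable.mono' (i1.sub i2) (wv_meas2 hmeas.1 hmeas.2 hA.smooth.continuous) ?_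
    filter_upwards [hle, hnn] with x hx hx0
    rw [Real.norm_of_nonneg hx0]
    exact hx
  rw [← ofReal_integral_eq_lintegral_ofReal iD hnn]
  refine ENNReal.ofReal_le_ofReal ?_
  have h5 : ∫ x, (4 * c * (kap m t₀ t * gw (sim x₀ t₀ t x)) - 2 * (t₀ - t) * F x) ∂(μ t) =
      4 * c * gauss m μ x₀ t₀ t -
        2 * (t₀ - t) * rate μ H (tst m x₀ t₀ (fun z => gw z * A z)) t := by
    have h6 : ∫ x, 4 * c * (kap m t₀ t * gw (sim x₀ t₀ t x)) ∂(μ t) =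
        4 * c * ∫ x, kap m t₀ t * gw (sim x₀ t₀ t x) ∂(μ t) := integral_const_mul _ _
    have h7 : ∫ x, 2 * (t₀ - t) * F x ∂(μ t) = 2 * (t₀ - t) * ∫ x, F x ∂(μ t) :=
      integral_const_mul _ _
    rw [integral_sub i1 i2, h6, h7, hrate, gauss_eq m μ x₀ hlt]
  rw [← h5]
  exact integral_mono_ae iD (i1.sub i2) hle

lemma cut_prof {R : ℝ} (hR : 0 < R) : Prof (9 / R ^ 2) (cut (E := E) R) where
  smooth := cut_contDiff R
  compact := cut_compact hR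
  nonneg := cut_nonneg R
  grad := fun y => (cut_grad hR y).trans (le_of_eq (by ring))

lemma inv_sq_tendsto (c : ℝ) : Tendsto (fun n : ℕ => c / ((n : ℝ) + 1) ^ 2) atTop (𝓝 0) := by
  refine Tendsto.div_atTop tendsto_const_nhds ?_
  exact (tendsto_pow_atTop (by norm_num)).comp
    (tendsto_atTop_add_const_right _ _ tendsto_natCast_atTop_atTop)

/-- the comparison function -/
noncomputable def FF (m : ℕ) (μ : ℝ → Measure (E)) (H : ℝ → E → E) (x₀ : E)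
    (t₀ a : ℝ) (n : ℕ) (t : ℝ) : ℝ :=
  4 * (9 / ((n : ℝ) + 1) ^ 2) * gauss m μ x₀ t₀ a * (1 / (t₀ - t)) -
    2 * rate μ H (tst m x₀ t₀ (fun z => gw z * cut ((n : ℝ) + 1) z)) t

/-- truncated dissipation -/
noncomputable def DD (m : ℕ) (μ : ℝ → Measure (E)) (P : ℝ → E → (E →L[ℝ] E))
    (H : ℝ → E → E) (x₀ : E) (t₀ : ℝ) (n : ℕ) (t : ℝ) : ENNReal :=
  ∫⁻ x, ENNReal.ofReal (kap m t₀ t * gw (sim x₀ t₀ t x) *
        (cut ((n : ℝ) + 1) (sim x₀ t₀ t x) * ‖wv P H x₀ t₀ t x‖ ^ 2)) ∂(μ t)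

lemma DD_le (hμ : IsBrakkeFlow m t₀ μ P H) (hfin : ∀ t ∈ Ico 0 t₀, μ t univ < ⊤) (x₀ : E)
    {a b : ℝ} (ha : 0 ≤ a) (hb : b < t₀) (n : ℕ) :
    ∀ᵐ t ∂(volume.restrict (Ioc a b)),
      ENNReal.ofReal (1 / (t₀ - t)) * DD m μ P H x₀ t₀ n t ≤
      ENNReal.ofReal (FF m μ H x₀ t₀ a n t) := by
  have hsub : Ioc a b ⊆ Ioo 0 t₀ := fun s hs => ⟨lt_of_le_of_lt ha hs.1, lt_of_le_of_lt hs.2 hb⟩
  have hRn : (0 : ℝ) < (n : ℝ) + 1 := by positivity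
  have hc0 : (0 : ℝ) ≤ 9 / ((n : ℝ) + 1) ^ 2 := by positivity
  have h1 := ae_restrict_of_ae_restrict_of_subset hsub
    (rate_le2 hμ hfin x₀ hc0 (cut_prof (E := E) hRn))
  filter_upwards [h1, ae_restrict_mem measurableSet_Ioc] with t ht htt
  have hτ : 0 < t₀ - t := by linarith [htt.2]
  unfold DD
  refine (mul_le_mul_right ht _).trans ?_
  rw [← ENNReal.ofReal_mul (by positivity)]
  refine ENNReal.ofReal_le_ofReal ?_
  have hGt : gauss m μ x₀ t₀ t ≤ gauss m μ x₀ t₀ a :=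
    gauss_anti hμ hfin x₀ ha htt.1.le (lt_of_le_of_lt htt.2 hb)
  unfold FF
  generalize 9 / ((n : ℝ) + 1) ^ 2 = c at hc0
  generalize rate μ H (tst m x₀ t₀ (fun z => gw z * cut ((n : ℝ) + 1) z)) t = r
  generalize gauss m μ x₀ t₀ t = g at hGt
  generalize gauss m μ x₀ t₀ a = g' at hGt
  have h3 : 1 / (t₀ - t) * (4 * c * g - 2 * (t₀ - t) * r) =
      4 * c * g * (1 / (t₀ - t)) - 2 * r := by
    field_simp
  rw [h3]
  have h4 : 4 * c * g * (1 / (t₀ - t)) ≤ 4 * c * g' * (1 / (t₀ - t)) := by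
    gcongr
  linarith

lemma FF_nonneg (hμ : IsBrakkeFlow m t₀ μ P H) (hfin : ∀ t ∈ Ico 0 t₀, μ t univ < ⊤) (x₀ : E)
    {a b : ℝ} (ha : 0 ≤ a) (hb : b < t₀) (n : ℕ) :
    0 ≤ᵐ[volume.restrict (Ioc a b)] FF m μ H x₀ t₀ a n := by
  have hsub : Ioc a b ⊆ Ioo 0 t₀ := fun s hs => ⟨lt_of_le_of_lt ha hs.1, lt_of_le_of_lt hs.2 hb⟩
  have hRn : (0 : ℝ) < (n : ℝ) + 1 := by positivity
  have hc0 : (0 : ℝ) ≤ 9 / ((n : ℝ) + 1) ^ 2 := by positivity
  have h1 := ae_restrict_of_ae_restrict_of_subset hsub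
    (rate_le hμ hfin x₀ hc0 (cut_prof (E := E) hRn))
  filter_upwards [h1, ae_restrict_mem measurableSet_Ioc] with t ht htt
  have hτ : 0 < t₀ - t := by linarith [htt.2]
  have hGt : gauss m μ x₀ t₀ t ≤ gauss m μ x₀ t₀ a :=
    gauss_anti hμ hfin x₀ ha htt.1.le (lt_of_le_of_lt htt.2 hb)
  have hGn : 0 ≤ gauss m μ x₀ t₀ t := gauss_nonneg (by linarith [htt.2])
  unfold FF
  simp only [Pi.zero_apply]
  generalize 9 / ((n : ℝ) + 1) ^ 2 = c at hc0 ht ⊢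
  generalize rate μ H (tst m x₀ t₀ (fun z => gw z * cut ((n : ℝ) + 1) z)) t = r at ht ⊢
  generalize gauss m μ x₀ t₀ t = g at hGt hGn ht
  generalize gauss m μ x₀ t₀ a = g' at hGt ⊢
  have h2 : r ≤ c * g' * (1 / (t₀ - t)) := by
    refine ht.trans ?_
    rw [div_mul_eq_mul_div, mul_one_div]
    gcongr
  have h3 : 0 ≤ c * g' * (1 / (t₀ - t)) := by
    have : 0 ≤ g' := hGn.trans hGt
    positivity
  linarith

lemma inv_cont {a b : ℝ} (hab : a ≤ b) (hb : b < t₀) :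
    ContinuousOn (fun t : ℝ => 1 / (t₀ - t)) (uIcc a b) := by
  refine ContinuousOn.div continuousOn_const (by fun_prop) ?_
  intro t ht
  rw [uIcc_of_le hab] at ht
  have : 0 < t₀ - t := by linarith [ht.2]
  exact this.ne'

lemma cut_isTest (x₀ : E) (n : ℕ) :
    IsTest t₀ (tst m x₀ t₀ (fun z => gw z * cut ((n : ℝ) + 1) z)) := by
  have hRn : (0 : ℝ) < (n : ℝ) + 1 := by positivity
  exact tst_isTest m x₀ t₀ (gw_contDiff.mul (cut_contDiff _)) ((cut_compact hRn).mul_left)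
      (fun y => mul_nonneg (gw_pos y).le (cut_nonneg _ _))

lemma FF_int (hμ : IsBrakkeFlow m t₀ μ P H) (x₀ : E)
    {a b : ℝ} (ha : 0 ≤ a) (hab : a ≤ b) (hb : b < t₀) (n : ℕ) :
    IntegrableOn (FF m μ H x₀ t₀ a n) (Ioc a b) ∧
    ∫ t in Ioc a b, FF m μ H x₀ t₀ a n t ≤
      2 * (gg m μ x₀ t₀ (cut ((n : ℝ) + 1)) a - gg m μ x₀ t₀ (cut ((n : ℝ) + 1)) b) +
      (9 / ((n : ℝ) + 1) ^ 2) * (4 * gauss m μ x₀ t₀ a * ∫ t in Ioc a b, 1 / (t₀ - t)) := by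
  have h1 := hμ.brakke _ (cut_isTest (m := m) (t₀ := t₀) x₀ n) a b ha hab hb
  have i1 : IntegrableOn (fun t : ℝ => 4 * (9 / ((n : ℝ) + 1) ^ 2) * gauss m μ x₀ t₀ a *
      (1 / (t₀ - t))) (Ioc a b) := (inv_cont hab hb).intervalIntegrable.1.const_mul _
  have i2 : IntegrableOn (fun t : ℝ => 2 *
      rate μ H (tst m x₀ t₀ (fun z => gw z * cut ((n : ℝ) + 1) z)) t) (Ioc a b) :=
    h1.1.1.const_mul _
  refine ⟨i1.sub i2, ?_⟩
  have h2 : ∫ t in Ioc a b, FF m μ H x₀ t₀ a n t =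
      4 * (9 / ((n : ℝ) + 1) ^ 2) * gauss m μ x₀ t₀ a * (∫ t in Ioc a b, 1 / (t₀ - t)) -
      2 * (∫ t in Ioc a b, rate μ H (tst m x₀ t₀ (fun z => gw z * cut ((n : ℝ) + 1) z)) t) := by
    unfold FF
    rw [integral_sub i1 i2, integral_const_mul, integral_const_mul]
  rw [h2]
  have h3 := h1.2
  rw [intervalIntegral.integral_of_le hab] at h3
  have h4 : gg m μ x₀ t₀ (cut ((n : ℝ) + 1)) b - gg m μ x₀ t₀ (cut ((n : ℝ) + 1)) a ≤
      ∫ t in Ioc a b, rate μ H (tst m x₀ t₀ (fun z => gw z * cut ((n : ℝ) + 1) z)) t := h3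
  linarith

lemma dissip_le_liminf {x₀ : E} {t : ℝ} (hlt : t < t₀)
    (h1 : AEStronglyMeasurable (P t) (μ t)) (h2 : AEStronglyMeasurable (H t) (μ t)) :
    dissip m μ P H x₀ t₀ t ≤ liminf (fun n => DD m μ P H x₀ t₀ n t) atTop := by
  rw [dissip_eq hlt]
  have h3 : ∀ x, liminf (fun n : ℕ => ENNReal.ofReal (kap m t₀ t * gw (sim x₀ t₀ t x) *
        (cut ((n : ℝ) + 1) (sim x₀ t₀ t x) * ‖wv P H x₀ t₀ t x‖ ^ 2))) atTop =
      ENNReal.ofReal (kap m t₀ t * gw (sim x₀ t₀ t x) * ‖wv P H x₀ t₀ t x‖ ^ 2) := by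
    intro x
    have h4 : Tendsto (fun n : ℕ => kap m t₀ t * gw (sim x₀ t₀ t x) *
        (cut ((n : ℝ) + 1) (sim x₀ t₀ t x) * ‖wv P H x₀ t₀ t x‖ ^ 2)) atTop
        (𝓝 (kap m t₀ t * gw (sim x₀ t₀ t x) * (1 * ‖wv P H x₀ t₀ t x‖ ^ 2))) :=
      ((cut_tendsto (sim x₀ t₀ t x)).mul_const _).const_mul _
    rw [one_mul] at h4
    exact (ENNReal.tendsto_ofReal h4).liminf_eq
  simp only [← h3]
  unfold DD
  refine lintegral_liminf_le' fun n => ?_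
  exact (wv_meas2 h1 h2 (cut_contDiff _).continuous).aemeasurable.ennreal_ofReal

lemma mul_liminf_le (c : ENNReal) (hc : c ≠ ⊤) (f : ℕ → ENNReal) :
    c * liminf f atTop = liminf (fun n => c * f n) atTop := by
  have hcont : Continuous (fun z : ENNReal => c * z) := ENNReal.continuous_const_mul hc
  have hmono : Monotone (fun z : ENNReal => c * z) := fun x y hxy => mul_le_mul_right hxy _
  exact hmono.map_liminf_of_continuousAt _ hcont.continuousAt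

/-- the integrated dissipation is controlled by the drop of the density ratio -/
lemma dissip_int (hμ : IsBrakkeFlow m t₀ μ P H) (hfin : ∀ t ∈ Ico 0 t₀, μ t univ < ⊤) (x₀ : E)
    {a b : ℝ} (ha : 0 ≤ a) (hab : a ≤ b) (hb : b < t₀) :
    ∫⁻ t in Ioc a b, ENNReal.ofReal (1 / (t₀ - t)) * dissip m μ P H x₀ t₀ t ≤
      ENNReal.ofReal (2 * (gauss m μ x₀ t₀ a - gauss m μ x₀ t₀ b)) := by
  have hsub : Ioc a b ⊆ Ioo 0 t₀ := fun s hs => ⟨lt_of_le_of_lt ha hs.1, lt_of_le_of_lt hs.2 hb⟩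
  have hall : ∀ᵐ t ∂(volume.restrict (Ioc a b)), ∀ n,
      ENNReal.ofReal (1 / (t₀ - t)) * DD m μ P H x₀ t₀ n t ≤
      ENNReal.ofReal (FF m μ H x₀ t₀ a n t) := ae_all_iff.2 (DD_le hμ hfin x₀ ha hb)
  have hmeas' := ae_restrict_of_ae_restrict_of_subset hsub hμ.meas
  have hlim : ∀ᵐ t ∂(volume.restrict (Ioc a b)),
      ENNReal.ofReal (1 / (t₀ - t)) * dissip m μ P H x₀ t₀ t ≤
      liminf (fun n => ENNReal.ofReal (FF m μ H x₀ t₀ a n t)) atTop := by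
    filter_upwards [hall, hmeas', ae_restrict_mem measurableSet_Ioc] with t ht hmeas htt
    have hlt : t < t₀ := lt_of_le_of_lt htt.2 hb
    refine (mul_le_mul_right (dissip_le_liminf hlt hmeas.1 hmeas.2) _).trans ?_
    rw [mul_liminf_le _ ENNReal.ofReal_ne_top]
    exact liminf_le_liminf (Eventually.of_forall ht)
  refine (lintegral_mono_ae hlim).trans ?_
  refine (lintegral_liminf_le' fun n =>
    ((FF_int hμ x₀ ha hab hb n).1).aestronglyMeasurable.aemeasurable.ennreal_ofReal).trans ?_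
  have e1 : ∀ n, ∫⁻ t in Ioc a b, ENNReal.ofReal (FF m μ H x₀ t₀ a n t) ≤
      ENNReal.ofReal (2 * (gg m μ x₀ t₀ (cut ((n : ℝ) + 1)) a -
        gg m μ x₀ t₀ (cut ((n : ℝ) + 1)) b) +
      (9 / ((n : ℝ) + 1) ^ 2) * (4 * gauss m μ x₀ t₀ a * ∫ t in Ioc a b, 1 / (t₀ - t))) := by
    intro n
    rw [← ofReal_integral_eq_lintegral_ofReal (FF_int hμ x₀ ha hab hb n).1
      (FF_nonneg hμ hfin x₀ ha hb n)]
    exact ENNReal.ofReal_le_ofReal (FF_int hμ x₀ ha hab hb n).2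
  have fa : IsFiniteMeasure (μ a) := ⟨hfin a ⟨ha, by linarith⟩⟩
  have fb : IsFiniteMeasure (μ b) := ⟨hfin b ⟨ha.trans hab, hb⟩⟩
  have e3 : ∀ s, s < t₀ → IsFiniteMeasure (μ s) →
      Tendsto (fun n : ℕ => gg m μ x₀ t₀ (cut ((n : ℝ) + 1)) s) atTop
        (𝓝 (gauss m μ x₀ t₀ s)) := by
    intro s hs hfs
    have h1 := gg_cut_tendsto (m := m) (t₀ := t₀) (μ := μ)
      (continuous_const (y := (1 : ℝ))) (c := 1) (by simp) x₀ s
    have h2 : gg m μ x₀ t₀ (fun _ => (1 : ℝ)) s = gauss m μ x₀ t₀ s := by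
      rw [gauss_eq m μ x₀ hs]
      unfold gg
      simp only [mul_one]
    rw [h2] at h1
    refine h1.congr fun n => ?_
    simp only [one_mul]
  have e4 : Tendsto (fun n : ℕ => ENNReal.ofReal
      (2 * (gg m μ x₀ t₀ (cut ((n : ℝ) + 1)) a - gg m μ x₀ t₀ (cut ((n : ℝ) + 1)) b) +
      (9 / ((n : ℝ) + 1) ^ 2) * (4 * gauss m μ x₀ t₀ a * ∫ t in Ioc a b, 1 / (t₀ - t)))) atTop
      (𝓝 (ENNReal.ofReal (2 * (gauss m μ x₀ t₀ a - gauss m μ x₀ t₀ b) +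
        0 * (4 * gauss m μ x₀ t₀ a * ∫ t in Ioc a b, 1 / (t₀ - t))))) := by
    refine ENNReal.tendsto_ofReal ?_
    exact (((e3 a (by linarith) fa).sub (e3 b hb fb)).const_mul 2).add
      ((inv_sq_tendsto 9).mul_const _)
  rw [zero_mul, add_zero] at e4
  rw [← e4.liminf_eq]
  exact liminf_le_liminf (Eventually.of_forall e1)

end Vale.Agent.P218.H67
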