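import Vale.Agent.P218.H67.Limit

open MeasureTheory Set Filter Topology

namespace Vale.Agent.P218.H67

variable {V : Type} [NormedAddCommGroup V] [InnerProductSpace ℝ V] [FiniteDimensional ℝ V]

/-- endomorphisms -/
abbrev Ed (V : Type) [NormedAddCommGroup V] [InnerProductSpace ℝ V] := V →L[ℝ] V

/-- trace -/
noncomputable def trc (A : Ed V) : ℝ := LinearMap.trace ℝ V (A : V →ₗ[ℝ] V)

lemma trc_add (A B : Ed V) : trc (A + B) = trc A + trc B := by
  unfold trc
  rw [← map_add]
  rfl

lemma trc_sub (A B : Ed V) : trc (A - B) = trc A - trc B := by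
  unfold trc
  rw [← map_sub]
  rfl

lemma trc_smul (c : ℝ) (A : Ed V) : trc (c • A) = c * trc A := by
  unfold trc
  rw [← smul_eq_mul, ← map_smul]
  rfl

lemma trc_neg (A : Ed V) : trc (-A) = -trc A := by
  unfold trc
  rw [← map_neg]
  rfl

lemma trc_comm (A B : Ed V) : trc (A * B) = trc (B * A) :=
  LinearMap.trace_mul_comm ℝ (A : V →ₗ[ℝ] V) (B : V →ₗ[ℝ] V)

lemma trc_sum (A : Ed V) : trc A = ∑ i, inner ℝ (stdOrthonormalBasis ℝ V i)
    (A (stdOrthonormalBasis ℝ V i)) :=
  LinearMap.trace_eq_sum_inner _ _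

lemma trc_continuous : Continuous (trc (V := V)) := by
  have : trc (V := V) = fun A => ∑ i, inner ℝ (stdOrthonormalBasis ℝ V i)
      (A (stdOrthonormalBasis ℝ V i)) := funext trc_sum
  rw [this]
  refine continuous_finset_sum _ fun i _ => ?_
  exact continuous_const.inner (ContinuousLinearMap.apply ℝ (V) _).continuous

lemma trc_star (A : Ed V) : trc (star A) = trc A := by
  rw [trc_sum, trc_sum]
  refine Finset.sum_congr rfl fun i _ => ?_
  rw [ContinuousLinearMap.star_eq_adjoint, ContinuousLinearMap.adjoint_inner_right,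
    real_inner_comm]

lemma eq_zero_of_trc {A : Ed V} (h : trc (star A * A) ≤ 0) : A = 0 := by
  rw [trc_sum] at h
  have h1 : ∀ i, inner ℝ (stdOrthonormalBasis ℝ V i)
      ((star A * A) (stdOrthonormalBasis ℝ V i)) =
      ‖A (stdOrthonormalBasis ℝ V i)‖ ^ 2 := by
    intro i
    rw [ContinuousLinearMap.star_eq_adjoint]
    change inner ℝ _ ((ContinuousLinearMap.adjoint A) (A _)) = _
    rw [ContinuousLinearMap.adjoint_inner_right, real_inner_self_eq_norm_sq]
  simp only [h1] at h
  have h2 : ∀ i, ‖A (stdOrthonormalBasis ℝ V i)‖ ^ 2 = 0 := by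
    have h3 : ∑ i, ‖A (stdOrthonormalBasis ℝ V i)‖ ^ 2 = 0 :=
      le_antisymm h (Finset.sum_nonneg fun i _ => sq_nonneg _)
    intro i
    exact (Finset.sum_eq_zero_iff_of_nonneg (fun i _ => sq_nonneg _)).1 h3 i (Finset.mem_univ i)
  have h4 : (A : V →ₗ[ℝ] V) = 0 := by
    refine (stdOrthonormalBasis ℝ V).toBasis.ext fun i => ?_
    have := h2 i
    rw [sq_eq_zero_iff, norm_eq_zero] at this
    simpa using this
  ext x
  have := congrArg (fun f : V →ₗ[ℝ] V => f x) h4
  simp only [ContinuousLinearMap.coe_coe, LinearMap.zero_apply] at this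
  rw [this]
  rfl

lemma unit_norm {A : Ed V} (h : A ∈ unitary (Ed V)) (x : V) : ‖A x‖ = ‖x‖ := by
  have h1 : star A * A = 1 := Unitary.star_mul_self_of_mem h
  have h2 : inner ℝ (A x) (A x) = inner ℝ x x := by
    rw [← ContinuousLinearMap.adjoint_inner_right, ← ContinuousLinearMap.star_eq_adjoint]
    change inner ℝ x ((star A * A) x) = _
    rw [h1]
    rfl
  rw [real_inner_self_eq_norm_sq, real_inner_self_eq_norm_sq] at h2
  exact (sq_eq_sq₀ (norm_nonneg _) (norm_nonneg _)).1 h2

lemma unit_compact : IsCompact ((unitary (Ed V) : Submonoid (Ed V)) : Set (Ed V)) := by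
  refine Metric.isCompact_of_isClosed_isBounded ?_ ?_
  · have e : ((unitary (Ed V) : Submonoid (Ed V)) : Set (Ed V)) =
        {A | star A * A = 1} ∩ {A | A * star A = 1} := by
      ext A
      simp only [SetLike.mem_coe, Unitary.mem_iff, mem_inter_iff]
      rfl
    rw [e]
    exact (isClosed_eq (by fun_prop) continuous_const).inter
      (isClosed_eq (by fun_prop) continuous_const)
  · refine (Metric.isBounded_closedBall (x := (0 : Ed V)) (r := 1)).subset ?_
    intro A hA
    rw [mem_closedBall_zero_iff]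
    refine ContinuousLinearMap.opNorm_le_bound _ zero_le_one fun x => ?_
    rw [unit_norm hA, one_mul]

variable [MeasurableSpace V] [BorelSpace V]

/-- `A` leaves the measure `ν` invariant (tested on functions). -/
def Inv (ν : Measure (V)) (A : Ed V) : Prop :=
  ∀ φ : V → ℝ, Continuous φ → HasCompactSupport φ → ∫ x, φ (A x) ∂ν = ∫ x, φ x ∂ν

lemma comp_compact {A : Ed V} (hA : A ∈ unitary (Ed V)) {φ : V → ℝ}
    (hc : HasCompactSupport φ) : HasCompactSupport (fun x => φ (A x)) := by
  obtain ⟨R, hR⟩ := hc.isCompact.isBounded.subset_closedBall (0 : V)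
  refine HasCompactSupport.intro (isCompact_closedBall (0 : V) R) fun x hx => ?_
  by_contra hne
  have := hR (subset_tsupport _ (Function.mem_support.2 hne))
  rw [mem_closedBall_zero_iff, unit_norm hA] at this
  exact hx (mem_closedBall_zero_iff.2 this)

lemma Inv.mul {ν : Measure (V)} {A B : Ed V} (hA : Inv ν A) (hAu : A ∈ unitary (Ed V))
    (hB : Inv ν B) : Inv ν (A * B) := by
  intro φ hφ hc
  have := hB (fun x => φ (A x)) (hφ.comp A.continuous) (comp_compact hAu hc)
  change ∫ x, φ (A (B x)) ∂ν = _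
  rw [this]
  exact hA φ hφ hc

lemma Inv.star {ν : Measure (V)} {A : Ed V} (hA : Inv ν A) (hAu : A ∈ unitary (Ed V)) :
    Inv ν (star A) := by
  intro φ hφ hc
  have h1 := hA (fun x => φ (Star.star A x)) (hφ.comp (Star.star A).continuous)
    (comp_compact (Unitary.star_mem hAu) hc)
  rw [← h1]
  congr 1
  funext x
  have : Star.star A (A x) = x := by
    change (Star.star A * A) x = x
    rw [Unitary.star_mul_self_of_mem hAu]
    rfl
  rw [this]

lemma Inv.one (ν : Measure (V)) : Inv ν (1 : Ed V) := fun _ _ _ => rfl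

/-- continuity of the action -/
lemma act_tendsto {ν : Measure (V)} [IsFiniteMeasureOnCompacts ν] {A : ℕ → Ed V} {B : Ed V}
    (hA : ∀ j, A j ∈ unitary (Ed V)) (hlim : Tendsto A atTop (𝓝 B))
    {φ : V → ℝ} (hφ : Continuous φ) (hc : HasCompactSupport φ) :
    Tendsto (fun j => ∫ x, φ (A j x) ∂ν) atTop (𝓝 (∫ x, φ (B x) ∂ν)) := by
  obtain ⟨R, hR⟩ := hc.isCompact.isBounded.subset_closedBall (0 : V)
  obtain ⟨C, hC⟩ := hφ.bounded_above_of_compact_support hc
  have hC0 : 0 ≤ C := (norm_nonneg _).trans (hC 0)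
  refine tendsto_integral_of_dominated_convergence
    (fun x => (Metric.closedBall (0 : V) R).indicator (fun _ => C) x) ?_ ?_ ?_ ?_
  · exact fun j => (hφ.comp (A j).continuous).aestronglyMeasurable
  · rw [integrable_indicator_iff measurableSet_closedBall]
    exact integrableOn_const (isCompact_closedBall _ _).measure_lt_top.ne
  · intro j
    refine Eventually.of_forall fun x => ?_
    by_cases hx : x ∈ Metric.closedBall (0 : V) R
    · rw [indicator_of_mem hx]
      exact hC _
    · rw [indicator_of_notMem hx]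
      have : φ (A j x) = 0 := by
        by_contra hne
        have := hR (subset_tsupport _ (Function.mem_support.2 hne))
        rw [mem_closedBall_zero_iff, unit_norm (hA j)] at this
        exact hx (mem_closedBall_zero_iff.2 this)
      rw [this, norm_zero]
  · refine Eventually.of_forall fun x => ?_
    have h1 : Tendsto (fun j => A j x) atTop (𝓝 (B x)) :=
      ((ContinuousLinearMap.apply ℝ (V) x).continuous.tendsto B).comp hlim
    exact (hφ.tendsto _).comp h1

/-- Rigidity: under a symmetry group without infinitesimal commuting rotation, the invariant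
points of a rotation orbit are isolated. -/
theorem rigid {ν : Measure (V)} [IsFiniteMeasureOnCompacts ν] {Γ : Set (Ed V)}
    (hΓu : ∀ g ∈ Γ, g ∈ unitary (Ed V))
    (hΓ : ∀ ω : Ed V, star ω = -ω → (∀ g ∈ Γ, g * ω = ω * g) → ω = 0)
    (hν : ∀ g ∈ Γ, Inv ν g) {R : ℕ → Ed V} (hR : ∀ j, R j ∈ unitary (Ed V))
    (hRΓ : ∀ j, ∀ g ∈ Γ, ∀ φ : V → ℝ, Continuous φ → HasCompactSupport φ →
      ∫ x, φ (g (R j x)) ∂ν = ∫ x, φ (R j x) ∂ν)
    (hlim : ∀ φ : V → ℝ, Continuous φ → HasCompactSupport φ →
      Tendsto (fun j => ∫ x, φ (R j x) ∂ν) atTop (𝓝 (∫ x, φ x ∂ν)))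
    (hne : ∀ j, ¬ Inv ν (R j)) : False := by
  classical
  set K : Set (Ed V) := {k | k ∈ unitary (Ed V) ∧ Inv ν k} with hK
  have hKc : IsCompact K := by
    refine unit_compact.of_isClosed_subset ?_ fun k hk => hk.1
    refine IsSeqClosed.isClosed ?_
    intro u a hu hua
    have ha : a ∈ unitary (Ed V) := unit_compact.isClosed.mem_of_tendsto hua
      (Eventually.of_forall fun j => (hu j).1)
    refine ⟨ha, fun φ hφ hc => ?_⟩
    have h1 := act_tendsto (ν := ν) (fun j => (hu j).1) hua hφ hc
    have h2 : Tendsto (fun j => ∫ x, φ (u j x) ∂ν) atTop (𝓝 (∫ x, φ x ∂ν)) :=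
      tendsto_const_nhds.congr fun j => ((hu j).2 φ hφ hc).symm
    exact tendsto_nhds_unique h1 h2
  have hK1 : (1 : Ed V) ∈ K := ⟨one_mem _, Inv.one ν⟩
  have hKmul : ∀ a ∈ K, ∀ b ∈ K, a * b ∈ K := fun a ha b hb =>
    ⟨mul_mem ha.1 hb.1, ha.2.mul ha.1 hb.2⟩
  have hKstar : ∀ a ∈ K, star a ∈ K := fun a ha => ⟨Unitary.star_mem ha.1, ha.2.star ha.1⟩
  have hmax : ∀ j, ∃ k ∈ K, ∀ k' ∈ K, trc (R j * k') ≤ trc (R j * k) := by
    intro j
    obtain ⟨k, hk, h⟩ := hKc.exists_isMaxOn ⟨1, hK1⟩
      ((trc_continuous.comp (continuous_const.mul continuous_id)).continuousOn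
        (s := K) : ContinuousOn (fun k => trc (R j * k)) K)
    exact ⟨k, hk, fun k' hk' => h hk'⟩
  choose k hkK hkmax using hmax
  set A : ℕ → Ed V := fun j => R j * k j with hA
  have hAu : ∀ j, A j ∈ unitary (Ed V) := fun j => mul_mem (hR j) (hkK j).1
  have hAmax : ∀ j, ∀ b ∈ K, trc (A j * b) ≤ trc (A j) := by
    intro j b hb
    have := hkmax j (k j * b) (hKmul _ (hkK j) _ hb)
    rwa [← mul_assoc] at this
  have hAR : ∀ j, ∀ φ : V → ℝ, Continuous φ → HasCompactSupport φ →
      ∫ x, φ (A j x) ∂ν = ∫ x, φ (R j x) ∂ν := by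
    intro j φ hφ hc
    exact (hkK j).2 (fun x => φ (R j x)) (hφ.comp (R j).continuous) (comp_compact (hR j) hc)
  have hAne : ∀ j, A j ≠ 1 := by
    intro j h1
    apply hne j
    intro φ hφ hc
    rw [← hAR j φ hφ hc, h1]
    rfl
  -- a convergent subsequence
  obtain ⟨B, hB, s₁, hs₁, hlim₁⟩ := unit_compact.tendsto_subseq hAu
  have hBK : B ∈ K := by
    refine ⟨hB, fun φ hφ hc => ?_⟩
    have h1 := act_tendsto (ν := ν) (fun j => hAu (s₁ j)) hlim₁ hφ hc
    have h2 := (hlim φ hφ hc).comp hs₁.tendsto_atTop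
    refine tendsto_nhds_unique h1 (h2.congr fun j => ?_)
    exact (hAR (s₁ j) φ hφ hc).symm
  have hB1 : B = 1 := by
    have h1 : trc (1 : Ed V) ≤ trc B := by
      have l1 : Tendsto (fun j => trc (A (s₁ j) * star B)) atTop (𝓝 (trc (B * star B))) :=
        (trc_continuous.tendsto _).comp (hlim₁.mul_const _)
      have l2 : Tendsto (fun j => trc (A (s₁ j))) atTop (𝓝 (trc B)) :=
        (trc_continuous.tendsto _).comp hlim₁
      have := le_of_tendsto_of_tendsto' l1 l2 fun j => hAmax (s₁ j) (star B) (hKstar _ hBK)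
      rwa [Unitary.mul_star_self_of_mem hB] at this
    have h2 : star (B - 1) * (B - 1) = (1 + 1) - (B + star B) := by
      rw [star_sub, star_one, sub_mul, mul_sub, mul_sub, Unitary.star_mul_self_of_mem hB]
      simp only [mul_one, one_mul]
      abel
    have h3 : trc (star (B - 1) * (B - 1)) ≤ 0 := by
      rw [h2, trc_sub, trc_add, trc_add, trc_star]
      linarith
    exact sub_eq_zero.1 (eq_zero_of_trc h3)
  rw [hB1] at hlim₁
  set e₁ : ℕ → ℝ := fun j => ‖A (s₁ j) - 1‖ with he₁
  have he₁pos : ∀ j, 0 < e₁ j := fun j => norm_pos_iff.2 (sub_ne_zero.2 (hAne _))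
  have hW : ∀ j, (e₁ j)⁻¹ • (A (s₁ j) - 1) ∈ Metric.closedBall (0 : Ed V) 1 := by
    intro j
    rw [mem_closedBall_zero_iff, norm_smul, norm_inv, Real.norm_of_nonneg (he₁pos j).le,
      inv_mul_cancel₀ (he₁pos j).ne']
  obtain ⟨ω, -, s₂, hs₂, hlim₂⟩ := (isCompact_closedBall (0 : Ed V) 1).tendsto_subseq hW
  -- pass to the final subsequence
  set C : ℕ → Ed V := fun j => A (s₁ (s₂ j)) with hC
  set e : ℕ → ℝ := fun j => ‖C j - 1‖ with he
  have hepos : ∀ j, 0 < e j := fun j => he₁pos (s₂ j)
  set W : ℕ → Ed V := fun j => (e j)⁻¹ • (C j - 1) with hWdef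
  have hWlim : Tendsto W atTop (𝓝 ω) := hlim₂
  have hClim : Tendsto C atTop (𝓝 1) := hlim₁.comp hs₂.tendsto_atTop
  have helim : Tendsto e atTop (𝓝 0) := by
    have := (hClim.sub_const 1).norm
    rwa [sub_self, norm_zero] at this
  have hCu : ∀ j, C j ∈ unitary (Ed V) := fun j => hAu _
  have hCmax : ∀ j, ∀ b ∈ K, trc (C j * b) ≤ trc (C j) := fun j => hAmax _
  have hCW : ∀ j, C j = 1 + e j • W j := by
    intro j
    rw [hWdef]
    simp only
    rw [smul_smul, mul_inv_cancel₀ (hepos j).ne', one_smul]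
    abel
  have hWn : ∀ j, ‖W j‖ = 1 := by
    intro j
    rw [hWdef]
    simp only
    rw [norm_smul, norm_inv, Real.norm_of_nonneg (hepos j).le]
    exact inv_mul_cancel₀ (hepos j).ne'
  have hωn : ‖ω‖ = 1 := tendsto_nhds_unique hWlim.norm (by simp only [hWn]; exact tendsto_const_nhds)
  have hskew : star ω = -ω := by
    have h1 : ∀ j, star (W j) + W j + e j • (star (W j) * W j) = 0 := by
      intro j
      have h2 : star (C j) * C j = 1 := Unitary.star_mul_self_of_mem (hCu j)
      rw [hCW j] at h2
      have h3 : star (1 + e j • W j) * (1 + e j • W j) =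
          1 + e j • (star (W j) + W j + e j • (star (W j) * W j)) := by
        rw [star_add, star_one, star_smul, star_trivial]
        simp only [add_mul, mul_add, one_mul, mul_one, smul_add, smul_mul_assoc, mul_smul_comm]
        abel
      rw [h3] at h2
      have h4 : e j • (star (W j) + W j + e j • (star (W j) * W j)) = 0 := by
        have := congrArg (fun z => z - 1) h2
        simpa using this
      rcases smul_eq_zero.1 h4 with h5 | h5
      · exact absurd h5 (hepos j).ne'
      · exact h5
    have h2 : Tendsto (fun j => star (W j) + W j + e j • (star (W j) * W j)) atTop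
        (𝓝 (star ω + ω + (0 : ℝ) • (star ω * ω))) :=
      (hWlim.star.add hWlim).add (helim.smul (hWlim.star.mul hWlim))
    have h3 := tendsto_nhds_unique h2 (by simp only [h1]; exact tendsto_const_nhds)
    rw [zero_smul, add_zero] at h3
    exact eq_neg_of_add_eq_zero_left h3
  -- the main step
  have hcomm : ∀ g ∈ Γ, g * ω = ω * g := by
    intro g hg
    have hgu := hΓu g hg
    have hgs : g * star g = 1 := Unitary.mul_star_self_of_mem hgu
    have hgs' : star g * g = 1 := Unitary.star_mul_self_of_mem hgu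
    set η : Ed V := g * ω * star g - ω with hη
    have hηs : star η = -η := by
      rw [hη, star_sub, star_mul, star_mul, star_star, hskew]
      rw [neg_mul, mul_neg, mul_assoc]
      abel
    set c : ℕ → Ed V := fun j => star (C j) * g * C j * star g with hc
    have hcK : ∀ j, c j ∈ K := by
      intro j
      refine ⟨mul_mem (mul_mem (mul_mem (Unitary.star_mem (hCu j)) hgu) (hCu j))
        (Unitary.star_mem hgu), ?_⟩
      intro φ hφ hcs
      have hsg : Inv ν (star g) := (hν g hg).star hgu
      have u1 : star (C j) * g * C j ∈ unitary (Ed V) :=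
        mul_mem (mul_mem (Unitary.star_mem (hCu j)) hgu) (hCu j)
      have h1 := hsg (fun x => φ ((star (C j) * g * C j) x))
        (hφ.comp (star (C j) * g * C j).continuous) (comp_compact u1 hcs)
      have h2 : ∫ x, φ (c j x) ∂ν = ∫ x, φ ((star (C j) * g * C j) (star g x)) ∂ν := rfl
      rw [h2, h1]
      -- use the invariance of the rotated measure
      set φ' : V → ℝ := fun x => φ (star (C j) x) with hφ'
      have c1 : Continuous φ' := hφ.comp (star (C j)).continuous
      have c2 : HasCompactSupport φ' := comp_compact (Unitary.star_mem (hCu j)) hcs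
      have c3 : HasCompactSupport (fun x => φ' (g x)) := comp_compact hgu c2
      have h3 : ∫ x, φ' (g (C j x)) ∂ν = ∫ x, φ' (C j x) ∂ν := by
        have q1 := hAR (s₁ (s₂ j)) (fun x => φ' (g x)) (c1.comp g.continuous) c3
        have q2 := hAR (s₁ (s₂ j)) φ' c1 c2
        have q3 := hRΓ (s₁ (s₂ j)) g hg φ' c1 c2
        simp only [hC]
        rw [q1, q2, q3]
      have h4 : ∫ x, φ ((star (C j) * g * C j) x) ∂ν = ∫ x, φ' (g (C j x)) ∂ν := rfl
      rw [h4, h3]
      congr 1
      funext x
      simp only [hφ']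
      have : star (C j) (C j x) = x := by
        change (star (C j) * C j) x = x
        rw [Unitary.star_mul_self_of_mem (hCu j)]
        rfl
      rw [this]
    have hclim : Tendsto (fun j => (e j)⁻¹ • (c j - 1)) atTop (𝓝 η) := by
      have h1 : ∀ j, (e j)⁻¹ • (c j - 1) = star (C j) * (g * W j * star g - W j) := by
        intro j
        have h2 : c j - 1 = star (C j) * (g * C j * star g - C j) := by
          rw [mul_sub, Unitary.star_mul_self_of_mem (hCu j), hc]
          simp only [mul_assoc]
        have h3 : g * C j * star g - C j = e j • (g * W j * star g - W j) := by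
          rw [hCW j, mul_add, mul_one, add_mul, hgs]
          simp only [smul_sub, mul_smul_comm, smul_mul_assoc]
          abel
        rw [h2, h3, mul_smul_comm, smul_smul, inv_mul_cancel₀ (hepos j).ne', one_smul]
      simp only [h1]
      have h4 := hClim.star.mul (((tendsto_const_nhds (x := g)).mul hWlim).mul_const
        (star g) |>.sub hWlim)
      rw [star_one, one_mul] at h4
      exact h4
    -- first variation inequality
    have hfv : ∀ (d : ℕ → Ed V) (ζ : Ed V), (∀ j, d j ∈ K) →
        Tendsto (fun j => (e j)⁻¹ • (d j - 1)) atTop (𝓝 ζ) → ∀ i, trc (C i * ζ) ≤ 0 := by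
      intro d ζ hd hlim i
      have l1 : Tendsto (fun j => trc (C i * ((e j)⁻¹ • (d j - 1)))) atTop
          (𝓝 (trc (C i * ζ))) :=
        (trc_continuous.tendsto _).comp (hlim.const_mul _)
      refine le_of_tendsto' l1 fun j => ?_
      rw [mul_smul_comm, trc_smul, mul_sub, mul_one, trc_sub]
      have := hCmax i (d j) (hd j)
      exact mul_nonpos_of_nonneg_of_nonpos (inv_nonneg.2 (hepos j).le) (by linarith)
    have hfv0 : ∀ (d : ℕ → Ed V) (ζ : Ed V), star ζ = -ζ → (∀ j, d j ∈ K) →
        Tendsto (fun j => (e j)⁻¹ • (d j - 1)) atTop (𝓝 ζ) → trc (ω * ζ) = 0 := by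
      intro d ζ hζ hd hlim
      have h1 := hfv d ζ hd hlim
      have h2 := hfv (fun j => star (d j)) (-ζ) (fun j => hKstar _ (hd j)) (by
        have := hlim.star
        rw [hζ] at this
        refine this.congr fun j => ?_
        rw [star_smul, star_sub, star_one, star_trivial])
      have h3 : trc ζ = 0 := by
        have := trc_star ζ
        rw [hζ, trc_neg] at this
        linarith
      have h4 : ∀ i, trc (W i * ζ) = 0 := by
        intro i
        have a1 := h1 i
        have a2 := h2 i
        rw [mul_neg, trc_neg] at a2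
        have a3 : trc (C i * ζ) = 0 := by linarith
        rw [hCW i, add_mul, one_mul, trc_add, h3, zero_add, smul_mul_assoc, trc_smul] at a3
        rcases mul_eq_zero.1 a3 with h5 | h5
        · exact absurd h5 (hepos i).ne'
        · exact h5
      have l1 : Tendsto (fun i => trc (W i * ζ)) atTop (𝓝 (trc (ω * ζ))) :=
        (trc_continuous.tendsto _).comp (hWlim.mul_const _)
      exact tendsto_nhds_unique l1 (by simp only [h4]; exact tendsto_const_nhds)
    have t1 : trc (ω * η) = 0 := hfv0 c η hηs hcK hclim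
    have t2 : trc (ω * (star g * η * g)) = 0 := by
      refine hfv0 (fun j => star g * c j * g) (star g * η * g) ?_ ?_ ?_
      · rw [star_mul, star_mul, star_star, hηs, mul_assoc]
        simp only [neg_mul, mul_neg]
      · intro j
        have g1 : g ∈ K := ⟨hgu, hν g hg⟩
        exact hKmul _ (hKmul _ (hKstar _ g1) _ (hcK j)) _ g1
      · have := (hclim.const_mul (star g)).mul_const g
        refine this.congr fun j => ?_
        rw [mul_smul_comm, smul_mul_assoc, mul_sub, sub_mul, mul_one, hgs']
    have t3 : trc (g * ω * star g * η) = 0 := by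
      rw [← t2, show g * ω * star g * η = g * (ω * (star g * η)) by simp only [mul_assoc],
        trc_comm]
      simp only [mul_assoc]
    have t4 : trc (star η * η) ≤ 0 := by
      have : trc (η * η) = 0 := by
        conv_lhs => rw [hη]
        rw [← hη, sub_mul, trc_sub, t3, t1, sub_zero]
      rw [hηs, neg_mul, trc_neg, this, neg_zero]
    have t5 : η = 0 := eq_zero_of_trc t4
    have t6 : g * ω * star g = ω := sub_eq_zero.1 t5
    calc g * ω = g * ω * (star g * g) := by rw [hgs', mul_one]
      _ = (g * ω * star g) * g := by simp only [mul_assoc]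
      _ = ω * g := by rw [t6]
  have h0 := hΓ ω hskew hcomm
  rw [h0, norm_zero] at hωn
  exact zero_ne_one hωn

end Vale.Agent.P218.H67
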