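import Vale.Agent.P218.H67.Cluster

open MeasureTheory Set Filter Topology

namespace Vale.Agent.P218.H67

section Abstract

variable {V : Type} [NormedAddCommGroup V] [InnerProductSpace ℝ V] [FiniteDimensional ℝ V]

/-- a linear isometry as a bounded operator -/
noncomputable def toC (R : V ≃ₗᵢ[ℝ] V) : Ed V := (R.toContinuousLinearEquiv : V →L[ℝ] V)

lemma toC_apply (R : V ≃ₗᵢ[ℝ] V) (x : V) : toC R x = R x := rfl

lemma toC_mem (R : V ≃ₗᵢ[ℝ] V) : toC R ∈ unitary (Ed V) := by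
  have h1 : star (toC R) * toC R = 1 := by
    ext x
    refine ext_inner_left ℝ fun y => ?_
    change inner ℝ y ((star (toC R)) (toC R x)) = inner ℝ y x
    rw [ContinuousLinearMap.star_eq_adjoint, ContinuousLinearMap.adjoint_inner_right]
    exact R.inner_map_map y x
  rw [Unitary.mem_iff]
  refine ⟨h1, ?_⟩
  ext x
  obtain ⟨z, rfl⟩ := R.surjective x
  have h2 : (star (toC R)) (R z) = z := by
    have := congrArg (fun A : Ed V => A z) h1
    exact this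
  change toC R ((star (toC R)) (R z)) = R z
  rw [h2]
  rfl

lemma exists_toC {B : Ed V} (hB : B ∈ unitary (Ed V)) : ∃ R : V ≃ₗᵢ[ℝ] V, toC R = B := by
  refine ⟨Unitary.linearIsometryEquiv ⟨B, hB⟩, ?_⟩
  ext x
  rfl

variable [MeasurableSpace V] [BorelSpace V]

lemma iso_subseq (R : ℕ → V ≃ₗᵢ[ℝ] V) : ∃ (S : V ≃ₗᵢ[ℝ] V) (s : ℕ → ℕ), StrictMono s ∧
    ∀ (θ : Measure V) [IsFiniteMeasureOnCompacts θ] (φ : V → ℝ), Continuous φ →
      HasCompactSupport φ →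
      Tendsto (fun j => ∫ x, φ (R (s j) x) ∂θ) atTop (𝓝 (∫ x, φ (S x) ∂θ)) := by
  obtain ⟨B, hB, s, hs, hlim⟩ := unit_compact.tendsto_subseq fun j => toC_mem (R j)
  obtain ⟨S, hS⟩ := exists_toC hB
  refine ⟨S, s, hs, fun θ _ φ hφ hc => ?_⟩
  have := act_tendsto (ν := θ) (fun j => toC_mem (R (s j))) hlim hφ hc
  rw [← hS] at this
  exact this

/-- Rigidity, in terms of linear isometries. -/
theorem rigidIso {ν : Measure V} [IsFiniteMeasureOnCompacts ν] {Γ : Set (V ≃ₗᵢ[ℝ] V)}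
    (hΓ : ∀ ω : V →L[ℝ] V, (∀ x, inner ℝ (ω x) x = 0) → (∀ g ∈ Γ, ∀ x, g (ω x) = ω (g x)) →
      ω = 0)
    (hν : ∀ g ∈ Γ, ∀ φ : V → ℝ, Continuous φ → HasCompactSupport φ →
      ∫ x, φ (g x) ∂ν = ∫ x, φ x ∂ν)
    {R : ℕ → V ≃ₗᵢ[ℝ] V}
    (hRΓ : ∀ j, ∀ g ∈ Γ, ∀ φ : V → ℝ, Continuous φ → HasCompactSupport φ →
      ∫ x, φ (g (R j x)) ∂ν = ∫ x, φ (R j x) ∂ν)
    (hlim : ∀ φ : V → ℝ, Continuous φ → HasCompactSupport φ →
      Tendsto (fun j => ∫ x, φ (R j x) ∂ν) atTop (𝓝 (∫ x, φ x ∂ν)))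
    (hne : ∀ j, ¬ ∀ φ : V → ℝ, Continuous φ → HasCompactSupport φ →
      ∫ x, φ (R j x) ∂ν = ∫ x, φ x ∂ν) : False := by
  refine rigid (ν := ν) (Γ := toC '' Γ) (R := fun j => toC (R j)) ?_ ?_ ?_
    (fun j => toC_mem _) ?_ hlim hne
  · rintro _ ⟨g, -, rfl⟩
    exact toC_mem g
  · intro ω hω hcomm
    refine hΓ ω (fun x => ?_) fun g hg x => ?_
    · have h1 : inner ℝ (ω x) x = inner ℝ x ((star ω) x) := by
        rw [ContinuousLinearMap.star_eq_adjoint, ContinuousLinearMap.adjoint_inner_right]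
      rw [hω] at h1
      have h2 : inner ℝ x ((-ω) x) = -inner ℝ (ω x) x := by
        rw [neg_apply, inner_neg_right, real_inner_comm]
      linarith
    · have := congrArg (fun A : Ed V => A x) (hcomm _ ⟨g, hg, rfl⟩)
      exact this
  · rintro _ ⟨g, hg, rfl⟩ φ hφ hc
    exact hν g hg φ hφ hc
  · rintro j _ ⟨g, hg, rfl⟩ φ hφ hc
    exact hRΓ j g hg φ hφ hc

end Abstract

section

variable {E : Type} [NormedAddCommGroup E] [InnerProductSpace ℝ E] [FiniteDimensional ℝ E]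
    [MeasurableSpace E] [BorelSpace E]
    {m : ℕ} {t₀ : ℝ} {μ : ℝ → Measure (E)}
    {P : ℝ → E → (E →L[ℝ] E)} {H : ℝ → E → E}

lemma tangent_inv (ht₀ : 0 < t₀) (x₀ : E) {g : E ≃ₗᵢ[ℝ] E}
    (hinv : ∀ t ∈ Ico 0 t₀, (μ t).map (fun x => x₀ + g (x - x₀)) = μ t)
    {ν : ℝ → Measure (E)} (hν : IsTangentFlow m μ x₀ t₀ ν) {φ : E → ℝ}
    (hφ : Continuous φ) (hc : HasCompactSupport φ) :
    ∫ y, φ (g y) ∂(ν (-1)) = ∫ y, φ y ∂(ν (-1)) := by
  obtain ⟨-, l, hl, hv⟩ := hν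
  have hv1 := hv (-1) (by norm_num)
  have hφg : Continuous (fun y => φ (g y)) := hφ.comp g.continuous
  have hcg : HasCompactSupport (fun y => φ (g y)) :=
    hc.comp_isClosedEmbedding g.toHomeomorph.isClosedEmbedding
  refine tendsto_nhds_unique (hv1 _ hφg hcg) ((hv1 φ hφ hc).congr' ?_)
  filter_upwards [ev_scale ht₀ hl] with i hi
  have hpos : 0 < 1 / (l i) ^ 2 := by have := hi.1; positivity
  have e : t₀ + (-1) / (l i) ^ 2 = t₀ - 1 / (l i) ^ 2 := by ring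
  have ht : t₀ + (-1) / (l i) ^ 2 ∈ Ico 0 t₀ := ⟨by rw [e]; linarith [hi.2], by rw [e]; linarith⟩
  have hinv' := hinv _ ht
  simp only [rescale]
  rw [integral_smul_measure, integral_smul_measure,
    integral_map (by fun_prop) hφ.aestronglyMeasurable,
    integral_map (by fun_prop) hφg.aestronglyMeasurable]
  congr 1
  conv_lhs => rw [← hinv']
  have hm : Measurable (fun x : E => x₀ + g (x - x₀)) := by fun_prop
  have hcont : Continuous (fun x : E => φ (l i • (x - x₀))) := by fun_prop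
  rw [integral_map hm.aemeasurable hcont.aestronglyMeasurable]
  congr 1
  funext x
  congr 1
  rw [add_sub_cancel_left, map_smul]

end

end Vale.Agent.P218.H67
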