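import Vale.Agent.P218.H67.Dense

open MeasureTheory Set Filter Topology

namespace Vale.Agent.P218.H67

variable {E : Type} [NormedAddCommGroup E] [InnerProductSpace ℝ E] [FiniteDimensional ℝ E]
    [MeasurableSpace E] [BorelSpace E]

lemma exists_tendsto_of_cauchy {ι : Type} {F : Filter ι} [F.NeBot] {f : ι → ℝ}
    (h : ∀ ε > 0, ∃ v, ∀ᶠ i in F, |f i - v| ≤ ε) : ∃ v, Tendsto f F (𝓝 v) := by
  have hc : Cauchy (map f F) := by
    rw [Metric.cauchy_iff]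
    refine ⟨inferInstance, fun ε hε => ?_⟩
    obtain ⟨v, hv⟩ := h (ε / 3) (by positivity)
    refine ⟨Metric.closedBall v (ε / 3), ?_, ?_⟩
    · rw [mem_map]
      filter_upwards [hv] with i hi
      rwa [mem_preimage, Metric.mem_closedBall, Real.dist_eq]
    · intro a ha b hb
      rw [Metric.mem_closedBall] at ha hb
      have := dist_triangle_right a b v
      linarith
  obtain ⟨v, hv⟩ := CompleteSpace.complete hc
  exact ⟨v, hv⟩

lemma vague_unique {ι : Type} {F : Filter ι} [F.NeBot] {ρ : ι → Measure (E)}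
    {ν ν' : Measure (E)} [IsFiniteMeasureOnCompacts ν] [IsFiniteMeasureOnCompacts ν']
    (h : VagueTendsto ρ F ν) (h' : VagueTendsto ρ F ν') : ν = ν' := by
  refine MeasureTheory.Measure.ext_of_integral_eq_on_compactlySupported fun f => ?_
  exact tendsto_nhds_unique (h f f.continuous f.hasCompactSupport)
    (h' f f.continuous f.hasCompactSupport)

section

variable {m : ℕ} {t₀ : ℝ} {μ : ℝ → Measure (E)}
    {P : ℝ → E → (E →L[ℝ] E)} {H : ℝ → E → E}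

/-- normalising constant -/
noncomputable def cm (m : ℕ) : ℝ := (4 * Real.pi * (-(-1))) ^ ((m : ℝ) / 2)

lemma cm_pos (m : ℕ) : 0 < cm m := by
  unfold cm
  norm_num
  positivity

lemma phi_eq (m : ℕ) (μ : ℝ → Measure (E)) (x₀ : E) (t₀ : ℝ) {l : ℝ}
    (hl : 0 < l) {φ : E → ℝ} (hφ : Continuous φ) :
    ∫ y, φ y ∂(rescale m μ x₀ t₀ l (-1)) =
      cm m * gg m μ x₀ t₀ (ww (-1) φ) (t₀ - 1 / l ^ 2) := by
  rw [integral_rescale m μ x₀ t₀ hl (by norm_num) hφ]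
  unfold cm
  congr 2
  ring

lemma ww_le {φ : E → ℝ} {ε : ℝ} (h : ∀ y, |φ y| ≤ ε * gw y) (y : E) :
    |ww (-1) φ y| ≤ ε := by
  unfold ww
  rw [neg_neg, Real.sqrt_one, one_smul, abs_div, abs_of_pos (gw_pos y), div_le_iff₀ (gw_pos y)]
  exact h y

lemma ww_bdd {φ : E → ℝ} (hφ : Continuous φ) (hc : HasCompactSupport φ) :
    ∃ c, ∀ y, |ww (-1) φ y| ≤ c :=
  (ww_continuous hφ).bounded_above_of_compact_support (ww_compact (by norm_num) hc)

lemma phi_sub_le (hμ : IsBrakkeFlow m t₀ μ P H) (hfin : ∀ t ∈ Ico 0 t₀, μ t univ < ⊤)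
    (x₀ : E) {l : ℝ} (hl : 0 < l) (hl2 : 1 / l ^ 2 ≤ t₀) {φ φ' : E → ℝ}
    (h1 : Continuous φ) (c1 : HasCompactSupport φ) (h2 : Continuous φ')
    (c2 : HasCompactSupport φ') {ε : ℝ} (hε : ∀ y, |φ y - φ' y| ≤ ε * gw y) :
    |∫ y, φ y ∂(rescale m μ x₀ t₀ l (-1)) - ∫ y, φ' y ∂(rescale m μ x₀ t₀ l (-1))| ≤
      cm m * (ε * gauss m μ x₀ t₀ 0) := by
  have hpos : 0 < 1 / l ^ 2 := by positivity
  have ht : t₀ - 1 / l ^ 2 ∈ Ico 0 t₀ := ⟨by linarith, by linarith⟩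
  have : IsFiniteMeasure (μ (t₀ - 1 / l ^ 2)) := ⟨hfin _ ht⟩
  rw [phi_eq m μ x₀ t₀ hl h1, phi_eq m μ x₀ t₀ hl h2, ← mul_sub, abs_mul, abs_of_pos (cm_pos m)]
  refine mul_le_mul_of_nonneg_left ?_ (cm_pos m).le
  obtain ⟨b1, hb1⟩ := ww_bdd h1 c1
  obtain ⟨b2, hb2⟩ := ww_bdd h2 c2
  have hε0 : 0 ≤ ε := by
    have h3 := (abs_nonneg _).trans (hε 0)
    by_contra hcon
    have := mul_neg_of_neg_of_pos (not_le.1 hcon) (gw_pos (0 : E))
    linarith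
  have h3 := gg_sub_le (m := m) (μ := μ) (x₀ := x₀) ht.2 (ww_continuous (s := -1) h1)
    (ww_continuous (s := -1) h2) hb1 hb2 (ε := ε) (fun y => by
      have e : ww (-1) φ y - ww (-1) φ' y = ww (-1) (fun y => φ y - φ' y) y := by
        unfold ww
        ring
      rw [e]
      exact ww_le hε y)
  refine h3.trans (mul_le_mul_of_nonneg_left ?_ hε0)
  exact gauss_anti hμ hfin x₀ le_rfl ht.1 ht.2

lemma ev_scale (ht₀ : 0 < t₀) {ι : Type} {F : Filter ι} {l : ι → ℝ} (hl : Tendsto l F atTop) :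
    ∀ᶠ i in F, 0 < l i ∧ 1 / (l i) ^ 2 ≤ t₀ := by
  have hlim : Tendsto (fun i => 1 / (l i) ^ 2) F (𝓝 0) :=
    (Tendsto.div_atTop tendsto_const_nhds (tendsto_pow_atTop (by norm_num))).comp hl
  filter_upwards [hl.eventually_gt_atTop 0, hlim.eventually_lt_const ht₀] with i h1 h2
  exact ⟨h1, h2.le⟩

/-- slow variation -/
lemma phi_slow (hμ : IsBrakkeFlow m t₀ μ P H) (hfin : ∀ t ∈ Ico 0 t₀, μ t univ < ⊤)
    (x₀ : E) (ht₀ : 0 < t₀) {φ : E → ℝ} (hφ : Continuous φ) (hc : HasCompactSupport φ)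
    {ι : Type} {F : Filter ι} {l l' : ι → ℝ} (hl : Tendsto l F atTop)
    (h : ∀ᶠ i in F, l i ≤ l' i ∧ l' i ≤ 2 * l i) :
    Tendsto (fun i => ∫ y, φ y ∂(rescale m μ x₀ t₀ (l' i) (-1)) -
      ∫ y, φ y ∂(rescale m μ x₀ t₀ (l i) (-1))) F (𝓝 0) := by
  rw [Metric.tendsto_nhds]
  intro ε hε
  obtain ⟨τ₁, hτ₁, hτ₁t, hac⟩ := ac hμ hfin x₀ ht₀ (ww_continuous (s := -1) hφ)
    (ww_compact (by norm_num) hc) (show (1 : ℝ) ≤ 4 by norm_num) (ε / (2 * cm m))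
    (by have := cm_pos m; positivity)
  have hlim : Tendsto (fun i => 1 / (l i) ^ 2) F (𝓝 0) :=
    (Tendsto.div_atTop tendsto_const_nhds (tendsto_pow_atTop (by norm_num))).comp hl
  filter_upwards [hl.eventually_gt_atTop 0, hlim.eventually_lt_const hτ₁, h] with i h1 h2 h3
  have h1' : 0 < l' i := h1.trans_le h3.1
  rw [Real.dist_eq, sub_zero, phi_eq m μ x₀ t₀ h1 hφ, phi_eq m μ x₀ t₀ h1' hφ, ← mul_sub, abs_mul,
    abs_of_pos (cm_pos m)]
  have h4 := hac (1 / (l i) ^ 2) (1 / (l' i) ^ 2) (by positivity)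
    (by
      have := h3.1
      gcongr) (by
      have h5 : (l' i) ^ 2 ≤ 4 * (l i) ^ 2 := by nlinarith
      rw [mul_one_div, div_le_div_iff₀ (by positivity) (by positivity)]
      linarith) h2.le
  have hcm := cm_pos m
  calc cm m * |gg m μ x₀ t₀ (ww (-1) φ) (t₀ - 1 / l' i ^ 2) -
        gg m μ x₀ t₀ (ww (-1) φ) (t₀ - 1 / l i ^ 2)| ≤ cm m * (ε / (2 * cm m)) := by gcongr
    _ = ε / 2 := by field_simp
    _ < ε := by linarith

/-- if the integrals of a dense family converge, all do -/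
lemma conv_of_dense (hμ : IsBrakkeFlow m t₀ μ P H) (hfin : ∀ t ∈ Ico 0 t₀, μ t univ < ⊤)
    (x₀ : E) (ht₀ : 0 < t₀) {D : ℕ → E → ℝ}
    (hD : ∀ k, Continuous (D k) ∧ HasCompactSupport (D k))
    (hdense : ∀ φ : E → ℝ, Continuous φ → HasCompactSupport φ → ∀ ε > 0,
      ∃ k, ∀ y, |φ y - D k y| ≤ ε * gw y)
    {ι : Type} {F : Filter ι} [F.NeBot] {l : ι → ℝ} (hl : Tendsto l F atTop)
    (h : ∀ k, ∃ v, Tendsto (fun i => ∫ y, D k y ∂(rescale m μ x₀ t₀ (l i) (-1))) F (𝓝 v))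
    {φ : E → ℝ} (hφ : Continuous φ) (hc : HasCompactSupport φ) :
    ∃ v, Tendsto (fun i => ∫ y, φ y ∂(rescale m μ x₀ t₀ (l i) (-1))) F (𝓝 v) := by
  refine exists_tendsto_of_cauchy fun ε hε => ?_
  set G0 := gauss m μ x₀ t₀ 0 with hG0
  have hG0n : 0 ≤ G0 := gauss_nonneg ht₀
  have hcm := cm_pos m
  obtain ⟨k, hk⟩ := hdense φ hφ hc (ε / (2 * cm m * (G0 + 1))) (by positivity)
  obtain ⟨v, hv⟩ := h k
  refine ⟨v, ?_⟩
  have hv' : ∀ᶠ i in F, |∫ y, D k y ∂(rescale m μ x₀ t₀ (l i) (-1)) - v| < ε / 2 := by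
    have := (hv.sub_const v).abs
    rw [sub_self, abs_zero] at this
    exact this.eventually_lt_const (by positivity)
  filter_upwards [ev_scale ht₀ hl, hv'] with i h1 h2
  have h3 := phi_sub_le hμ hfin x₀ h1.1 h1.2 hφ hc (hD k).1 (hD k).2 hk
  have h4 : cm m * (ε / (2 * cm m * (G0 + 1)) * G0) ≤ ε / 2 := by
    calc cm m * (ε / (2 * cm m * (G0 + 1)) * G0) ≤
        cm m * (ε / (2 * cm m * (G0 + 1)) * (G0 + 1)) := by gcongr; linarith
      _ = ε / 2 := by field_simp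
  have h5 : ∫ y, φ y ∂(rescale m μ x₀ t₀ (l i) (-1)) - v =
      (∫ y, φ y ∂(rescale m μ x₀ t₀ (l i) (-1)) - ∫ y, D k y ∂(rescale m μ x₀ t₀ (l i) (-1))) +
      (∫ y, D k y ∂(rescale m μ x₀ t₀ (l i) (-1)) - v) := by ring
  rw [h5]
  refine (abs_add_le _ _).trans ?_
  linarith

lemma rescale_finite (hμ : IsBrakkeFlow m t₀ μ P H) (x₀ : E) {l : ℝ} (hl : 0 < l)
    (hl2 : 1 / l ^ 2 ≤ t₀) : IsFiniteMeasureOnCompacts (rescale m μ x₀ t₀ l (-1)) := by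
  have hpos : 0 < 1 / l ^ 2 := by positivity
  have e : t₀ + (-1) / l ^ 2 = t₀ - 1 / l ^ 2 := by ring
  have hr := hμ.radon (t₀ + (-1) / l ^ 2) ⟨by rw [e]; linarith, by rw [e]; linarith⟩
  constructor
  intro K hK
  have hm : Measurable (fun x : E => l • (x - x₀)) := by fun_prop
  unfold rescale
  rw [Measure.smul_apply, Measure.map_apply hm hK.measurableSet, smul_eq_mul]
  refine ENNReal.mul_lt_top ENNReal.ofReal_lt_top ?_
  have h1 : (fun x : E => l • (x - x₀)) =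
      (Homeomorph.smulOfNeZero l hl.ne') ∘ (Homeomorph.subRight x₀) := rfl
  have h2 : IsCompact ((fun x : E => l • (x - x₀)) ⁻¹' K) := by
    rw [h1]
    exact ((Homeomorph.smulOfNeZero l hl.ne').isClosedEmbedding.comp
      (Homeomorph.subRight x₀).isClosedEmbedding).isCompact_preimage hK
  exact h2.measure_lt_top

/-- limits along a sequence of scales are slices of tangent flows -/
lemma exists_tangent (hμ : IsBrakkeFlow m t₀ μ P H) (hfin : ∀ t ∈ Ico 0 t₀, μ t univ < ⊤)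
    (x₀ : E) (ht₀ : 0 < t₀) {ι : Type} {F : Filter ι} [F.NeBot] {l : ι → ℝ}
    (hl : Tendsto l F atTop)
    (h : ∀ φ : E → ℝ, Continuous φ → HasCompactSupport φ →
      ∃ v, Tendsto (fun i => ∫ y, φ y ∂(rescale m μ x₀ t₀ (l i) (-1))) F (𝓝 v)) :
    ∃ ν : Measure (E), IsFiniteMeasureOnCompacts ν ∧
      VagueTendsto (fun i => rescale m μ x₀ t₀ (l i) (-1)) F ν ∧
      ∀ s < 0, IsFiniteMeasureOnCompacts (selfSim m ν s) ∧
        VagueTendsto (fun i => rescale m μ x₀ t₀ (l i) s) F (selfSim m ν s) := by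
  obtain ⟨ν, hν, hv⟩ := exists_limit (F := F) (by
    filter_upwards [ev_scale ht₀ hl] with i hi
    exact rescale_finite hμ x₀ hi.1 hi.2) h
  exact ⟨ν, hν, hv, fun s hs => ⟨selfSim_finite m ν hs, vague_all hμ hfin x₀ ht₀ hl hv hs⟩⟩

lemma selfSim_neg_one (m : ℕ) (ν : Measure (E)) : selfSim m ν (-1) = ν := by
  unfold selfSim
  rw [neg_neg, Real.sqrt_one, one_pow, ENNReal.ofReal_one, one_smul]
  simp

lemma unique_of_conv (hμ : IsBrakkeFlow m t₀ μ P H) (hfin : ∀ t ∈ Ico 0 t₀, μ t univ < ⊤)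
    (x₀ : E) (ht₀ : 0 < t₀)
    (h : ∀ φ : E → ℝ, Continuous φ → HasCompactSupport φ →
      ∃ v, Tendsto (fun l : ℝ => ∫ y, φ y ∂(rescale m μ x₀ t₀ l (-1))) atTop (𝓝 v)) :
    UniqueTangentFlow m μ x₀ t₀ := by
  obtain ⟨ν, hν, hv, hall⟩ := exists_tangent hμ hfin x₀ ht₀ (F := atTop) (l := fun l : ℝ => l)
    tendsto_id h
  refine ⟨selfSim m ν, ⟨fun s hs => (hall s hs).1, fun n => (n : ℝ), tendsto_natCast_atTop_atTop,
    fun s hs φ hφ hc => ((hall s hs).2 φ hφ hc).comp tendsto_natCast_atTop_atTop⟩,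
    fun s hs => (hall s hs).2, ?_⟩
  rintro ν' ⟨hf, l, hl, hconv⟩ s hs
  have := hf s hs
  have := (hall s hs).1
  exact vague_unique (hconv s hs) (fun φ hφ hc => ((hall s hs).2 φ hφ hc).comp hl)

/-- dyadic scale below `l` -/
noncomputable def dy (l : ℝ) : ℕ := Nat.log 2 ⌊l⌋₊

lemma dy_le {l : ℝ} (hl : 1 ≤ l) : (2 : ℝ) ^ dy l ≤ l ∧ l ≤ 2 * (2 : ℝ) ^ dy l := by
  have h1 : ⌊l⌋₊ ≠ 0 := by
    have := Nat.floor_pos.2 hl
    omega
  constructor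
  · have h2 : 2 ^ dy l ≤ ⌊l⌋₊ := Nat.pow_log_le_self 2 h1
    have h3 : ((2 ^ dy l : ℕ) : ℝ) ≤ l := (Nat.cast_le.2 h2).trans (Nat.floor_le (by linarith))
    exact_mod_cast h3
  · have h2 : ⌊l⌋₊ < 2 ^ (dy l + 1) := Nat.lt_pow_succ_log_self (by norm_num) _
    have h3 : ⌊l⌋₊ + 1 ≤ 2 ^ (dy l + 1) := h2
    have h4 : l < (⌊l⌋₊ : ℝ) + 1 := Nat.lt_floor_add_one l
    have h5 : ((⌊l⌋₊ + 1 : ℕ) : ℝ) ≤ ((2 ^ (dy l + 1) : ℕ) : ℝ) := Nat.cast_le.2 h3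
    push_cast at h5
    rw [pow_succ] at h5
    linarith

lemma dy_tendsto : Tendsto dy atTop atTop := by
  rw [tendsto_atTop]
  intro n
  filter_upwards [eventually_ge_atTop ((2 : ℝ) ^ n)] with l hl
  unfold dy
  have h0 : (0 : ℝ) < 2 ^ n := by positivity
  have h1 : 2 ^ n ≤ ⌊l⌋₊ := by
    rw [Nat.le_floor_iff (by linarith)]
    exact_mod_cast hl
  exact Nat.le_log_of_pow_le (by norm_num) h1

lemma conv_of_dyadic (hμ : IsBrakkeFlow m t₀ μ P H) (hfin : ∀ t ∈ Ico 0 t₀, μ t univ < ⊤)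
    (x₀ : E) (ht₀ : 0 < t₀) {φ : E → ℝ} (hφ : Continuous φ) (hc : HasCompactSupport φ)
    {v : ℝ} (h : Tendsto (fun n : ℕ => ∫ y, φ y ∂(rescale m μ x₀ t₀ ((2 : ℝ) ^ n) (-1))) atTop
      (𝓝 v)) :
    Tendsto (fun l : ℝ => ∫ y, φ y ∂(rescale m μ x₀ t₀ l (-1))) atTop (𝓝 v) := by
  have h2 : Tendsto (fun l : ℝ => (2 : ℝ) ^ dy l) atTop atTop :=
    (tendsto_pow_atTop_atTop_of_one_lt (by norm_num)).comp dy_tendsto
  have h1 := phi_slow hμ hfin x₀ ht₀ hφ hc (F := atTop) (l := fun l : ℝ => (2 : ℝ) ^ dy l)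
    (l' := fun l => l) h2 (by
      filter_upwards [eventually_ge_atTop (1 : ℝ)] with l hl
      exact dy_le hl)
  have h3 := h1.add (h.comp dy_tendsto)
  rw [zero_add] at h3
  refine h3.congr fun l => ?_
  simp

end

end Vale.Agent.P218.H67
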