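import Vale.Agent.P218.H67.Diss

open MeasureTheory Set Filter Topology

namespace Vale.Agent.P218.H67

variable {E : Type} [NormedAddCommGroup E] [InnerProductSpace ℝ E] [FiniteDimensional ℝ E]
    [MeasurableSpace E] [BorelSpace E]
    {m : ℕ} {t₀ : ℝ} {μ : ℝ → Measure (E)}
    {P : ℝ → E → (E →L[ℝ] E)} {H : ℝ → E → E}

/-- the elementary inequality behind the Lojasiewicz argument -/
lemma loj_alg {x y D κ θ : ℝ} (hy : 0 ≤ y) (hxy : y ≤ x) (hx : x ≤ D) (hκ : 0 < κ) (hθ : 0 < θ)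
    (hθ2 : θ ≤ 1 / 2) (h : κ * y ^ (2 - 2 * θ) ≤ x - y) :
    √(x - y) ≤ 2 * (√(1 / κ) + max 1 D) / θ * (x ^ θ - y ^ θ) := by
  rcases eq_or_lt_of_le hxy with he | hlt
  · rw [he]
    simp
  have hx0 : 0 < x := by linarith
  have hd : 0 < x - y := by linarith
  set d := x - y with hdd
  have hD1 : 1 ≤ max 1 D := le_max_left _ _
  have hdD : d ≤ max 1 D := (by linarith : d ≤ D).trans (le_max_right _ _)
  set K := 2 * (√(1 / κ) + max 1 D) with hK
  have hK0 : 0 < K := by positivity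
  have hsd : 0 < √d := Real.sqrt_pos.2 hd
  have h1θ : 0 ≤ 1 - θ := by linarith
  -- the power bound
  have key : x ^ (1 - θ) ≤ K * √d := by
    have h2 : (2 : ℝ) ^ (1 - θ) ≤ 2 := by
      calc (2 : ℝ) ^ (1 - θ) ≤ 2 ^ (1 : ℝ) :=
            Real.rpow_le_rpow_of_exponent_le (by norm_num) (by linarith)
        _ = 2 := Real.rpow_one 2
    rcases le_total d y with hc | hc
    · have h3 : x ^ (1 - θ) ≤ 2 * y ^ (1 - θ) := by
        calc x ^ (1 - θ) ≤ (2 * y) ^ (1 - θ) :=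
              Real.rpow_le_rpow hx0.le (by linarith) h1θ
          _ = 2 ^ (1 - θ) * y ^ (1 - θ) := Real.mul_rpow (by norm_num) hy
          _ ≤ 2 * y ^ (1 - θ) := by gcongr
      have h4 : y ^ (1 - θ) ≤ √(1 / κ) * √d := by
        rw [← Real.sqrt_mul (by positivity)]
        refine Real.le_sqrt_of_sq_le ?_
        have h5 : (y ^ (1 - θ)) ^ 2 = y ^ (2 - 2 * θ) := by
          rw [← Real.rpow_natCast, ← Real.rpow_mul hy]
          congr 1
          push_cast
          ring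
        rw [h5, one_div, inv_mul_eq_div, le_div_iff₀ hκ, mul_comm]
        exact h
      calc x ^ (1 - θ) ≤ 2 * (√(1 / κ) * √d) := h3.trans (by gcongr)
        _ ≤ K * √d := by
          have : 0 ≤ max 1 D * √d := by positivity
          rw [hK]
          nlinarith
    · have h3 : x ^ (1 - θ) ≤ 2 * d ^ (1 - θ) := by
        calc x ^ (1 - θ) ≤ (2 * d) ^ (1 - θ) :=
              Real.rpow_le_rpow hx0.le (by linarith) h1θ
          _ = 2 ^ (1 - θ) * d ^ (1 - θ) := Real.mul_rpow (by norm_num) hd.le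
          _ ≤ 2 * d ^ (1 - θ) := by gcongr
      have h4 : d ^ (1 - θ) ≤ max 1 D * √d := by
        have e1 : d ^ (1 - θ) = d ^ (1 / 2 - θ) * √d := by
          rw [Real.sqrt_eq_rpow, ← Real.rpow_add hd]
          congr 1
          ring
        have e2 : d ^ (1 / 2 - θ) ≤ max 1 D := by
          calc d ^ (1 / 2 - θ) ≤ (max 1 D) ^ (1 / 2 - θ) :=
                Real.rpow_le_rpow hd.le hdD (by linarith)
            _ ≤ (max 1 D) ^ (1 : ℝ) := Real.rpow_le_rpow_of_exponent_le hD1 (by linarith)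
            _ = max 1 D := Real.rpow_one _
        rw [e1]
        gcongr
      calc x ^ (1 - θ) ≤ 2 * (max 1 D * √d) := h3.trans (by gcongr)
        _ ≤ K * √d := by
          have : 0 ≤ √(1 / κ) * √d := by positivity
          rw [hK]
          nlinarith
  -- Bernoulli
  have hber : (y / x) ^ θ ≤ 1 - θ * (d / x) := by
    have h1 := _root_.rpow_one_add_le_one_add_mul_self (s := -(d / x)) (p := θ)
      (by
        have : d / x ≤ 1 := by
          rw [div_le_one hx0]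
          linarith
        linarith) hθ.le (by linarith)
    have e : 1 + -(d / x) = y / x := by
      rw [hdd]
      field_simp
      ring
    rw [e] at h1
    linarith
  rw [Real.div_rpow hy hx0.le, div_le_iff₀ (Real.rpow_pos_of_pos hx0 θ)] at hber
  have hgap : θ * (d / x) * x ^ θ ≤ x ^ θ - y ^ θ := by linarith
  have hxx : x ^ (1 - θ) * x ^ θ = x := by
    rw [← Real.rpow_add hx0, show 1 - θ + θ = 1 by ring, Real.rpow_one]
  have hxt : 0 < x ^ θ := Real.rpow_pos_of_pos hx0 θ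
  have hfin : √d ≤ K * (d / x) * x ^ θ := by
    have h1 : x ≤ K * √d * x ^ θ := by
      calc x = x ^ (1 - θ) * x ^ θ := hxx.symm
        _ ≤ K * √d * x ^ θ := by gcongr
    have h2 : √d * √d = d := Real.mul_self_sqrt hd.le
    have h3 : K * (d / x) * x ^ θ = K * d * x ^ θ / x := by ring
    rw [h3, le_div_iff₀ hx0]
    calc √d * x ≤ √d * (K * √d * x ^ θ) := by gcongr
      _ = K * (√d * √d) * x ^ θ := by ring
      _ = K * d * x ^ θ := by rw [h2]
  calc √d ≤ K * (d / x) * x ^ θ := hfin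
    _ = K / θ * (θ * (d / x) * x ^ θ) := by field_simp
    _ ≤ K / θ * (x ^ θ - y ^ θ) := by gcongr

lemma lint_inv {a b : ℝ} (hab : a ≤ b) (hb : b < t₀) :
    ∫⁻ t in Ioc a b, ENNReal.ofReal (1 / (t₀ - t)) =
      ENNReal.ofReal (Real.log (t₀ - a) - Real.log (t₀ - b)) := by
  have hint : IntervalIntegrable (fun t : ℝ => 1 / (t₀ - t)) volume a b :=
    (inv_cont hab hb).intervalIntegrable
  have hnn : 0 ≤ᵐ[volume.restrict (Ioc a b)] fun t : ℝ => 1 / (t₀ - t) := by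
    filter_upwards [ae_restrict_mem measurableSet_Ioc] with t ht
    have : 0 < t₀ - t := by linarith [ht.2]
    simp only [Pi.zero_apply]
    positivity
  rw [← ofReal_integral_eq_lintegral_ofReal hint.1 hnn, ← intervalIntegral.integral_of_le hab]
  congr 1
  have hd : ∀ t ∈ uIcc a b, HasDerivAt (fun s => -Real.log (t₀ - s)) (1 / (t₀ - t)) t := by
    intro t ht
    rw [uIcc_of_le hab] at ht
    have hpos : 0 < t₀ - t := by linarith [ht.2]
    have h1 : HasDerivAt (fun s : ℝ => t₀ - s) (-1) t := by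
      simpa using (hasDerivAt_id t).const_sub t₀
    have h2 := (h1.log hpos.ne').neg
    have e3 : -(-1 / (t₀ - t)) = 1 / (t₀ - t) := by ring
    rw [e3] at h2
    exact h2
  rw [intervalIntegral.integral_eq_sub_of_hasDerivAt hd hint]
  ring

lemma block_dissip (hμ : IsBrakkeFlow m t₀ μ P H) (hfin : ∀ t ∈ Ico 0 t₀, μ t univ < ⊤)
    (x₀ : E) {a b C p Θ : ℝ} (ha : 0 ≤ a) (hab : a ≤ b) (hb : b < t₀) (hC : 0 < C)
    (hp : 0 ≤ p) (hΘ : Θ ≤ gauss m μ x₀ t₀ b)
    (h : ∀ᵐ t ∂(volume.restrict (Ioc a b)), ENNReal.ofReal ((gauss m μ x₀ t₀ t - Θ) ^ p) ≤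
      ENNReal.ofReal C * dissip m μ P H x₀ t₀ t) :
    (Real.log (t₀ - a) - Real.log (t₀ - b)) * (gauss m μ x₀ t₀ b - Θ) ^ p ≤
      2 * C * (gauss m μ x₀ t₀ a - gauss m μ x₀ t₀ b) := by
  have hlog : 0 ≤ Real.log (t₀ - a) - Real.log (t₀ - b) := by
    have := Real.log_le_log (show 0 < t₀ - b by linarith) (show t₀ - b ≤ t₀ - a by linarith)
    linarith
  have hG : gauss m μ x₀ t₀ b ≤ gauss m μ x₀ t₀ a := gauss_anti hμ hfin x₀ ha hab hb
  have h1 : ENNReal.ofReal (Real.log (t₀ - a) - Real.log (t₀ - b)) *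
      ENNReal.ofReal ((gauss m μ x₀ t₀ b - Θ) ^ p) ≤
      ENNReal.ofReal C * ENNReal.ofReal (2 * (gauss m μ x₀ t₀ a - gauss m μ x₀ t₀ b)) := by
    calc _ = ∫⁻ t in Ioc a b, ENNReal.ofReal ((gauss m μ x₀ t₀ b - Θ) ^ p) *
          ENNReal.ofReal (1 / (t₀ - t)) := by
          rw [lintegral_const_mul' _ _ ENNReal.ofReal_ne_top, lint_inv hab hb, mul_comm]
      _ ≤ ∫⁻ t in Ioc a b, ENNReal.ofReal C *
          (ENNReal.ofReal (1 / (t₀ - t)) * dissip m μ P H x₀ t₀ t) := by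
          refine lintegral_mono_ae ?_
          filter_upwards [h, ae_restrict_mem measurableSet_Ioc] with t ht htt
          have h2 : gauss m μ x₀ t₀ b ≤ gauss m μ x₀ t₀ t :=
            gauss_anti hμ hfin x₀ (ha.trans htt.1.le) htt.2 hb
          have h3 : ENNReal.ofReal ((gauss m μ x₀ t₀ b - Θ) ^ p) ≤
              ENNReal.ofReal ((gauss m μ x₀ t₀ t - Θ) ^ p) :=
            ENNReal.ofReal_le_ofReal (Real.rpow_le_rpow (by linarith) (by linarith) hp)
          calc _ ≤ (ENNReal.ofReal C * dissip m μ P H x₀ t₀ t) *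
                ENNReal.ofReal (1 / (t₀ - t)) := mul_le_mul_left (h3.trans ht) _
            _ = _ := by ring
      _ = ENNReal.ofReal C * ∫⁻ t in Ioc a b,
          ENNReal.ofReal (1 / (t₀ - t)) * dissip m μ P H x₀ t₀ t :=
          lintegral_const_mul' _ _ ENNReal.ofReal_ne_top
      _ ≤ _ := mul_le_mul_right (dissip_int hμ hfin x₀ ha hab hb) _
  rw [← ENNReal.ofReal_mul hlog, ← ENNReal.ofReal_mul hC.le,
    ENNReal.ofReal_le_ofReal_iff (by
      have : 0 ≤ gauss m μ x₀ t₀ a - gauss m μ x₀ t₀ b := by linarith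
      positivity)] at h1
  linarith

/-- dyadic times -/
noncomputable def dt (t₀ τ : ℝ) (j : ℕ) : ℝ := t₀ - τ / 2 ^ j

lemma dt_lt {τ : ℝ} (hτ : 0 < τ) (j : ℕ) : dt t₀ τ j < t₀ := by
  unfold dt
  have : 0 < τ / 2 ^ j := by positivity
  linarith

lemma dt_mono {τ : ℝ} (hτ : 0 < τ) : Monotone (dt t₀ τ) := by
  refine monotone_nat_of_le_succ fun j => ?_
  unfold dt
  rw [pow_succ]
  have : τ / (2 ^ j * 2) ≤ τ / 2 ^ j := by
    rw [div_le_div_iff₀ (by positivity) (by positivity)]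
    have : (0 : ℝ) < 2 ^ j := by positivity
    nlinarith
  linarith

lemma dt_zero {τ : ℝ} : dt t₀ τ 0 = t₀ - τ := by
  unfold dt
  simp

lemma dt_mem {τ : ℝ} (hτ : 0 < τ) (hτ' : τ ≤ t₀) (j : ℕ) : dt t₀ τ j ∈ Ico 0 t₀ := by
  refine ⟨?_, dt_lt hτ j⟩
  have := dt_mono (t₀ := t₀) hτ (Nat.zero_le j)
  rw [dt_zero] at this
  linarith

lemma dt_log {τ : ℝ} (hτ : 0 < τ) (j : ℕ) :
    Real.log (t₀ - dt t₀ τ j) - Real.log (t₀ - dt t₀ τ (j + 1)) = Real.log 2 := by
  unfold dt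
  rw [sub_sub_cancel, sub_sub_cancel, ← Real.log_div (by positivity) (by positivity)]
  congr 1
  field_simp
  ring

lemma dt_tendsto (t₀ τ : ℝ) : Tendsto (dt t₀ τ) atTop (𝓝 t₀) := by
  have h1 : Tendsto (fun j : ℕ => τ / (2 : ℝ) ^ j) atTop (𝓝 0) :=
    Tendsto.div_atTop tendsto_const_nhds (tendsto_pow_atTop_atTop_of_one_lt (by norm_num))
  have h2 := h1.const_sub t₀
  rw [sub_zero] at h2
  exact h2

/-- the coordinates of the slice at time `t` -/
noncomputable def Ph (m : ℕ) (μ : ℝ → Measure (E)) (x₀ : E) (t₀ : ℝ) (φ : E → ℝ)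
    (t : ℝ) : ℝ := ∫ y, φ y ∂(rescale m μ x₀ t₀ (√(t₀ - t))⁻¹ (-1))

lemma Ph_eq {x₀ : E} {φ : E → ℝ} (hφ : Continuous φ) {t : ℝ} (ht : t < t₀) :
    Ph m μ x₀ t₀ φ t = cm m * gg m μ x₀ t₀ (ww (-1) φ) t := by
  have hτ : 0 < t₀ - t := by linarith
  have hs : 0 < √(t₀ - t) := Real.sqrt_pos.2 hτ
  unfold Ph
  rw [phi_eq m μ x₀ t₀ (inv_pos.2 hs) hφ]
  congr 2
  rw [inv_pow, Real.sq_sqrt hτ.le]
  field_simp
  ring

end Vale.Agent.P218.H67
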