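import Vale.Agent.P218.H67.Loj

open MeasureTheory Set Filter Topology

namespace Vale.Agent.P218.H67

variable {E : Type} [NormedAddCommGroup E] [InnerProductSpace ℝ E] [FiniteDimensional ℝ E]
    [MeasurableSpace E] [BorelSpace E]
    {m : ℕ} {t₀ : ℝ} {μ : ℝ → Measure (E)}
    {P : ℝ → E → (E →L[ℝ] E)} {H : ℝ → E → E}

/-- control of the slices in terms of the sum of the square roots -/
lemma ph_control (hμ : IsBrakkeFlow m t₀ μ P H) (hfin : ∀ t ∈ Ico 0 t₀, μ t univ < ⊤)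
    (x₀ : E) (ht₀ : 0 < t₀) {φ : E → ℝ} (hφ : Continuous φ) (hc : HasCompactSupport φ)
    {ε : ℝ} (hε : 0 < ε) :
    ∃ η > 0, ∀ η' : ℝ, 0 < η' → η' ≤ η → ∀ τ, 0 < τ → τ ≤ η' → τ ≤ t₀ → ∀ J : ℕ,
      ∑ i ∈ Finset.range J, √((gauss m μ x₀ t₀ (dt t₀ τ i) - gauss m μ x₀ t₀ (dt t₀ τ (i + 1))) *
        Real.log 2) ≤ η' →
      ∀ t ∈ Icc (dt t₀ τ 0) (dt t₀ τ (J + 1)),
        |Ph m μ x₀ t₀ φ t - Ph m μ x₀ t₀ φ (dt t₀ τ 0)| ≤ ε := by
  set G : ℝ → ℝ := gauss m μ x₀ t₀ with hG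
  have hG0n : 0 ≤ G 0 := gauss_nonneg ht₀
  have hGanti : ∀ s t, 0 ≤ s → s ≤ t → t < t₀ → G t ≤ G s := fun s t h1 h2 h3 =>
    gauss_anti hμ hfin x₀ h1 h2 h3
  have hcm := cm_pos m
  have hlog2 : 0 < Real.log 2 := Real.log_pos (by norm_num)
  obtain ⟨ψ, hψ, hψc, happ⟩ := exists_approx (ww_continuous (s := -1) hφ)
    (ww_compact (by norm_num) hc) (ε := ε / (8 * cm m * (G 0 + 1))) (by positivity)
  obtain ⟨c₀, hb⟩ := hψ.continuous.bounded_above_of_compact_support hψc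
  obtain ⟨L, hL⟩ := (hψ.continuous_fderiv (by norm_num)).bounded_above_of_compact_support
    (hψc.fderiv (𝕜 := ℝ))
  obtain ⟨c₁, hb₁⟩ := ww_bdd hφ hc
  have hc0 : 0 ≤ c₀ := (norm_nonneg _).trans (hb 0)
  set M : ℝ := 1 + L ^ 2 / 2 * G 0 with hM
  have hM0 : 0 < M := by positivity
  set ζ : ℝ := min (ε / (8 * cm m * (3 * c₀ + 1))) ((ε / (8 * cm m * M)) ^ 2 / Real.log 2) with hζ
  have hζ0 : 0 < ζ := by positivity
  obtain ⟨τ₁, hτ₁, hτ₁t, hg⟩ := gauss_tendsto hμ hfin x₀ ht₀ ζ hζ0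
  refine ⟨min τ₁ (ε / (8 * cm m * M)), by positivity, ?_⟩
  intro η' hη' hη'le τ hτ hτη hτt J hsum t ht
  have hη1 : η' ≤ τ₁ := hη'le.trans (min_le_left _ _)
  have hη2 : η' ≤ ε / (8 * cm m * M) := hη'le.trans (min_le_right _ _)
  set a : ℕ → ℝ := dt t₀ τ with ha
  have hamem : ∀ j, a j ∈ Ico 0 t₀ := dt_mem hτ hτt
  have hamono : Monotone a := dt_mono hτ
  have ha0 : a 0 = t₀ - τ := dt_zero
  have htt : t < t₀ := lt_of_le_of_lt ht.2 (hamem _).2
  have ht0 : 0 ≤ t := (hamem 0).1.trans ht.1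
  set r : ℕ → ℝ := fun i => √((G (a i) - G (a (i + 1))) * Real.log 2) with hr
  have hrn : ∀ i, 0 ≤ r i := fun i => Real.sqrt_nonneg _
  -- the drop after the first time is small
  have hdrop : ∀ s, a 0 ≤ s → s < t₀ → G (a 0) - G s ≤ ζ := by
    intro s h1 h2
    have h3 := hg τ (t₀ - s) (by linarith) (by rw [ha0] at h1; linarith) (hτη.trans hη1)
    rw [ha0]
    rw [sub_sub_cancel] at h3
    exact h3
  -- chain of dyadic times
  have hchain : ∀ n, |gg m μ x₀ t₀ ψ (a n) - gg m μ x₀ t₀ ψ (a 0)| ≤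
      3 * c₀ * (G (a 0) - G (a n)) + M * ∑ i ∈ Finset.range n, r i := by
    intro n
    induction n with
    | zero => simp
    | succ n ih =>
      have h1 := kstep hμ hfin x₀ hψ hb hL (hamem n).1 (hamono (Nat.le_succ n)) (hamem (n + 1)).2
      rw [dt_log hτ n] at h1
      have h1' : |gg m μ x₀ t₀ ψ (a (n + 1)) - gg m μ x₀ t₀ ψ (a n)| ≤
        3 * c₀ * (G (a n) - G (a (n + 1))) + M * r n := h1
      have e : gg m μ x₀ t₀ ψ (a (n + 1)) - gg m μ x₀ t₀ ψ (a 0) =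
          (gg m μ x₀ t₀ ψ (a n) - gg m μ x₀ t₀ ψ (a 0)) +
          (gg m μ x₀ t₀ ψ (a (n + 1)) - gg m μ x₀ t₀ ψ (a n)) := by ring
      rw [e, Finset.sum_range_succ]
      refine (abs_add_le _ _).trans ?_
      linarith
  -- locate the block
  classical
  set n := Nat.findGreatest (fun n => a n ≤ t) J with hn
  have hn1 : a n ≤ t := by
    have := Nat.findGreatest_spec (P := fun n => a n ≤ t) (Nat.zero_le J) ht.1
    exact this
  have hnJ : n ≤ J := Nat.findGreatest_le J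
  have hn2 : t ≤ a (n + 1) := by
    rcases Nat.eq_or_lt_of_le hnJ with h | h
    · rw [h]
      exact ht.2
    · have := Nat.findGreatest_is_greatest (P := fun n => a n ≤ t) (n := J) (k := n + 1)
        (by rw [← hn]; exact Nat.lt_succ_self n) h
      exact (not_le.1 this).le
  have hk : |gg m μ x₀ t₀ ψ t - gg m μ x₀ t₀ ψ (a n)| ≤ 3 * c₀ * (G (a n) - G t) +
      M * √((G (a n) - G t) * (Real.log (t₀ - a n) - Real.log (t₀ - t))) :=
    kstep hμ hfin x₀ hψ hb hL (hamem n).1 hn1 htt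
  have hlogle : Real.log (t₀ - a n) - Real.log (t₀ - t) ≤ Real.log 2 := by
    have h1 := dt_log (t₀ := t₀) hτ n
    have h2 : Real.log (t₀ - a (n + 1)) ≤ Real.log (t₀ - t) :=
      Real.log_le_log (by linarith [(hamem (n + 1)).2]) (by linarith)
    rw [← ha] at h1
    linarith
  have hlogn : 0 ≤ Real.log (t₀ - a n) - Real.log (t₀ - t) := by
    have : Real.log (t₀ - t) ≤ Real.log (t₀ - a n) :=
      Real.log_le_log (by linarith) (by linarith)
    linarith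
  have hGn : G (a n) - G t ≤ ζ := by
    have h1 := hdrop t ht.1 htt
    have h2 : G (a n) ≤ G (a 0) := hGanti _ _ (hamem 0).1 (hamono (Nat.zero_le n)) (hamem n).2
    linarith
  have hGn0 : 0 ≤ G (a n) - G t := by
    have := hGanti _ _ (hamem n).1 hn1 htt
    linarith
  have hlast : M * √((G (a n) - G t) * (Real.log (t₀ - a n) - Real.log (t₀ - t))) ≤
      ε / (8 * cm m) := by
    have h1 : √((G (a n) - G t) * (Real.log (t₀ - a n) - Real.log (t₀ - t))) ≤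
        ε / (8 * cm m * M) := by
      refine Real.sqrt_le_iff.2 ⟨by positivity, ?_⟩
      calc (G (a n) - G t) * (Real.log (t₀ - a n) - Real.log (t₀ - t)) ≤ ζ * Real.log 2 :=
            mul_le_mul hGn hlogle hlogn hζ0.le
        _ ≤ (ε / (8 * cm m * M)) ^ 2 / Real.log 2 * Real.log 2 :=
            mul_le_mul_of_nonneg_right (min_le_right _ _) hlog2.le
        _ = _ := by field_simp
    calc _ ≤ M * (ε / (8 * cm m * M)) := mul_le_mul_of_nonneg_left h1 hM0.le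
      _ = _ := by field_simp
  have hsumn : M * ∑ i ∈ Finset.range n, r i ≤ ε / (8 * cm m) := by
    have h1 : ∑ i ∈ Finset.range n, r i ≤ ∑ i ∈ Finset.range J, r i :=
      Finset.sum_le_sum_of_subset_of_nonneg (Finset.range_subset_range.2 hnJ)
        fun i _ _ => hrn i
    have h2 : ∑ i ∈ Finset.range n, r i ≤ ε / (8 * cm m * M) := (h1.trans hsum).trans hη2
    calc _ ≤ M * (ε / (8 * cm m * M)) := mul_le_mul_of_nonneg_left h2 hM0.le
      _ = _ := by field_simp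
  have hfirst : 3 * c₀ * (G (a 0) - G t) ≤ ε / (8 * cm m) := by
    have h1 := (hdrop t ht.1 htt).trans (min_le_left _ _)
    calc _ ≤ (3 * c₀ + 1) * (ε / (8 * cm m * (3 * c₀ + 1))) := by
          have h2 : 0 ≤ G (a 0) - G t := by
            have := hGanti _ _ (hamem 0).1 ht.1 htt
            linarith
          exact mul_le_mul (by linarith) h1 h2 (by positivity)
      _ = _ := by field_simp
  have hmid : |gg m μ x₀ t₀ ψ t - gg m μ x₀ t₀ ψ (a 0)| ≤ 3 * (ε / (8 * cm m)) := by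
    have e : gg m μ x₀ t₀ ψ t - gg m μ x₀ t₀ ψ (a 0) =
        (gg m μ x₀ t₀ ψ (a n) - gg m μ x₀ t₀ ψ (a 0)) +
        (gg m μ x₀ t₀ ψ t - gg m μ x₀ t₀ ψ (a n)) := by ring
    rw [e]
    refine (abs_add_le _ _).trans ?_
    have := hchain n
    linarith
  have happr : ∀ s ∈ Ico 0 t₀, |gg m μ x₀ t₀ (ww (-1) φ) s - gg m μ x₀ t₀ ψ s| ≤
      ε / (8 * cm m) := by
    intro s hs
    have : IsFiniteMeasure (μ s) := ⟨hfin _ hs⟩
    have d1 := gg_sub_le (m := m) (μ := μ) (x₀ := x₀) hs.2 (ww_continuous (s := -1) hφ)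
      hψ.continuous hb₁ hb (ε := ε / (8 * cm m * (G 0 + 1)))
      (fun y => by rw [abs_sub_comm]; exact happ y)
    refine d1.trans ?_
    calc _ ≤ ε / (8 * cm m * (G 0 + 1)) * (G 0 + 1) := by
          have := hGanti 0 _ le_rfl hs.1 hs.2
          refine mul_le_mul_of_nonneg_left ?_ (by positivity)
          have h2 : gauss m μ x₀ t₀ s ≤ G 0 := this
          linarith
      _ = _ := by field_simp
  rw [Ph_eq hφ htt, Ph_eq hφ (hamem 0).2, ← mul_sub, abs_mul, abs_of_pos hcm]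
  have d1 := happr t ⟨ht0, htt⟩
  have d2 := happr (a 0) (hamem 0)
  have e : gg m μ x₀ t₀ (ww (-1) φ) t - gg m μ x₀ t₀ (ww (-1) φ) (a 0) =
      (gg m μ x₀ t₀ (ww (-1) φ) t - gg m μ x₀ t₀ ψ t) +
      (gg m μ x₀ t₀ ψ t - gg m μ x₀ t₀ ψ (a 0)) -
      (gg m μ x₀ t₀ (ww (-1) φ) (a 0) - gg m μ x₀ t₀ ψ (a 0)) := by ring
  have d3 : |gg m μ x₀ t₀ (ww (-1) φ) t - gg m μ x₀ t₀ (ww (-1) φ) (a 0)| ≤
      5 * (ε / (8 * cm m)) := by
    rw [e]
    refine (abs_sub _ _).trans ?_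
    have := abs_add_le (gg m μ x₀ t₀ (ww (-1) φ) t - gg m μ x₀ t₀ ψ t)
      (gg m μ x₀ t₀ ψ t - gg m μ x₀ t₀ ψ (a 0))
    linarith
  calc _ ≤ cm m * (5 * (ε / (8 * cm m))) := mul_le_mul_of_nonneg_left d3 hcm.le
    _ = 5 / 8 * ε := by field_simp
    _ ≤ ε := by linarith

/-- The Lojasiewicz criterion. -/
lemma crit_loj (hμ : IsBrakkeFlow m t₀ μ P H) (hfin : ∀ t ∈ Ico 0 t₀, μ t univ < ⊤)
    (x₀ : E) (ht₀ : 0 < t₀) {ν₀ : ℝ → Measure (E)} (hν₀ : IsTangentFlow m μ x₀ t₀ ν₀)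
    (S : Finset (E → ℝ)) (hS : ∀ φ ∈ S, Continuous φ ∧ HasCompactSupport φ) {δ : ℝ}
    (hδ : 0 < δ) {C θ t₁ Θ : ℝ} (hC : 0 < C) (hθ : 0 < θ) (hθ2 : θ ≤ 1 / 2) (ht₁ : t₁ < t₀)
    (hΘ : Tendsto (gauss m μ x₀ t₀) (𝓝[<] t₀) (𝓝 Θ))
    (h : ∀ᵐ t ∂(volume.restrict (Ioo t₁ t₀)),
      (∀ φ ∈ S, |Ph m μ x₀ t₀ φ t - ∫ y, φ y ∂(ν₀ (-1))| < δ) →
      ENNReal.ofReal ((gauss m μ x₀ t₀ t - Θ) ^ (2 - 2 * θ)) ≤
        ENNReal.ofReal C * dissip m μ P H x₀ t₀ t) :
    UniqueTangentFlow m μ x₀ t₀ := by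
  set G : ℝ → ℝ := gauss m μ x₀ t₀ with hG
  have hGanti : ∀ s t, 0 ≤ s → s ≤ t → t < t₀ → G t ≤ G s := fun s t h1 h2 h3 =>
    gauss_anti hμ hfin x₀ h1 h2 h3
  have hGΘ : ∀ s ∈ Ico 0 t₀, Θ ≤ G s := by
    intro s hs
    refine le_of_tendsto hΘ ?_
    filter_upwards [Ioo_mem_nhdsLT hs.2] with t ht
    exact hGanti _ _ hs.1 ht.1.le ht.2
  have hlog2 : 0 < Real.log 2 := Real.log_pos (by norm_num)
  have hlog21 : Real.log 2 ≤ 1 := by
    have := Real.log_two_lt_d9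
    linarith
  set κ : ℝ := Real.log 2 / (2 * C) with hκ
  have hκ0 : 0 < κ := by positivity
  set C₃ : ℝ := 2 * (√(1 / κ) + max 1 (G 0 - Θ)) / θ with hC₃
  have hC₃0 : 0 < C₃ := by positivity
  -- uniform control on the finite set
  have hev : ∀ᶠ η in 𝓝[>] (0 : ℝ), ∀ φ ∈ S, ∀ τ, 0 < τ → τ ≤ η → τ ≤ t₀ → ∀ J : ℕ,
      ∑ i ∈ Finset.range J, √((G (dt t₀ τ i) - G (dt t₀ τ (i + 1))) * Real.log 2) ≤ η →
      ∀ t ∈ Icc (dt t₀ τ 0) (dt t₀ τ (J + 1)),
        |Ph m μ x₀ t₀ φ t - Ph m μ x₀ t₀ φ (dt t₀ τ 0)| ≤ δ / 2 := by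
    rw [Filter.eventually_all_finset]
    intro φ hφS
    obtain ⟨η, hη, hall⟩ := ph_control hμ hfin x₀ ht₀ (hS φ hφS).1 (hS φ hφS).2
      (ε := δ / 2) (by positivity)
    filter_upwards [Ioc_mem_nhdsGT hη] with η' hη'
    exact hall η' hη'.1 hη'.2
  obtain ⟨η, hηS, hη0⟩ := (hev.and self_mem_nhdsWithin).exists
  have hη0 : 0 < η := hη0
  -- choose the starting scale
  obtain ⟨-, l, hl, hv⟩ := hν₀
  have hv1 := hv (-1) (by norm_num)
  have hlim : Tendsto (fun i => 1 / (l i) ^ 2) atTop (𝓝 0) :=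
    (Tendsto.div_atTop tendsto_const_nhds (tendsto_pow_atTop (by norm_num))).comp hl
  have hPhl : ∀ i, 0 < l i → ∀ φ, Ph m μ x₀ t₀ φ (t₀ - 1 / (l i) ^ 2) =
      ∫ y, φ y ∂(rescale m μ x₀ t₀ (l i) (-1)) := by
    intro i hi φ
    unfold Ph
    rw [sub_sub_cancel, one_div, Real.sqrt_inv, Real.sqrt_sq hi.le, inv_inv]
  have hclose : ∀ᶠ i in atTop, ∀ φ ∈ S,
      |∫ y, φ y ∂(rescale m μ x₀ t₀ (l i) (-1)) - ∫ y, φ y ∂(ν₀ (-1))| < δ / 2 := by
    rw [Filter.eventually_all_finset]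
    intro φ hφS
    have h1 := ((hv1 φ (hS φ hφS).1 (hS φ hφS).2).sub_const (∫ y, φ y ∂(ν₀ (-1)))).abs
    rw [sub_self, abs_zero] at h1
    exact h1.eventually_lt_const (by positivity)
  have hlt : Tendsto (fun i => t₀ - 1 / (l i) ^ 2) atTop (𝓝[<] t₀) := by
    rw [tendsto_nhdsWithin_iff]
    refine ⟨?_, ?_⟩
    · have := hlim.const_sub t₀
      rwa [sub_zero] at this
    · filter_upwards [hl.eventually_gt_atTop 0] with i hi
      have : 0 < 1 / (l i) ^ 2 := by positivity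
      rw [mem_Iio]
      linarith
  have hsmall : ∀ᶠ i in atTop, C₃ * (G (t₀ - 1 / (l i) ^ 2) - Θ) ^ θ < η := by
    have h1 := (hΘ.comp hlt).sub_const Θ
    rw [sub_self] at h1
    have h2 := (h1.rpow_const (p := θ) (Or.inr hθ.le)).const_mul C₃
    rw [Real.zero_rpow hθ.ne', mul_zero] at h2
    exact h2.eventually_lt_const hη0
  obtain ⟨i, hi1, hi2, hi3, hi4, hi5, hi6⟩ := ((ev_scale ht₀ hl).and
    ((hlim.eventually_lt_const hη0).and ((hlim.eventually_lt_const (sub_pos.2 ht₁)).and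
    (hclose.and (hsmall.and (hl.eventually_gt_atTop 0)))))).exists
  set τ : ℝ := 1 / (l i) ^ 2 with hτdef
  have hτ : 0 < τ := by positivity
  have hτt : τ ≤ t₀ := hi1.2
  set a : ℕ → ℝ := dt t₀ τ with ha
  have hamem : ∀ j, a j ∈ Ico 0 t₀ := dt_mem hτ hτt
  have hamono : Monotone a := dt_mono hτ
  have ha0 : a 0 = t₀ - τ := dt_zero
  set e : ℕ → ℝ := fun j => G (a j) - Θ with he
  have he0 : ∀ j, 0 ≤ e j := fun j => by
    have := hGΘ (a j) (hamem j)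
    simp only [he]
    linarith
  have hestep : ∀ j, e (j + 1) ≤ e j := fun j => by
    have := hGanti _ _ (hamem j).1 (hamono (Nat.le_succ j)) (hamem (j + 1)).2
    simp only [he]
    linarith
  have hetop : ∀ j, e j ≤ G 0 - Θ := fun j => by
    have := hGanti _ _ le_rfl (hamem j).1 (hamem j).2
    simp only [he]
    linarith
  set r : ℕ → ℝ := fun j => √((G (a j) - G (a (j + 1))) * Real.log 2) with hr
  have hrn : ∀ j, 0 ≤ r j := fun j => Real.sqrt_nonneg _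
  have hbound : ∀ J, C₃ * (e 0 ^ θ - e J ^ θ) ≤ η := by
    intro J
    have h1 : 0 ≤ e J ^ θ := Real.rpow_nonneg (he0 J) θ
    have h2 : C₃ * (e 0) ^ θ < η := by
      have : e 0 = G (t₀ - τ) - Θ := by simp only [he, ha0]
      rw [this]
      exact hi5
    have h3 : C₃ * (e 0 ^ θ - e J ^ θ) ≤ C₃ * (e 0) ^ θ :=
      mul_le_mul_of_nonneg_left (by linarith) hC₃0.le
    linarith
  have hmain : ∀ J, ∑ j ∈ Finset.range J, r j ≤ C₃ * (e 0 ^ θ - e J ^ θ) := by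
    intro J
    induction J with
    | zero => simp
    | succ J ih =>
      have hle : ∑ j ∈ Finset.range J, r j ≤ η := ih.trans (hbound J)
      have hcl : ∀ t ∈ Ioc (a J) (a (J + 1)), ∀ φ ∈ S,
          |Ph m μ x₀ t₀ φ t - ∫ y, φ y ∂(ν₀ (-1))| < δ := by
        intro t ht φ hφS
        have h1 := hηS φ hφS τ hτ hi2.le hτt J hle t ⟨(hamono (Nat.zero_le J)).trans ht.1.le, ht.2⟩
        have h2 := hi4 φ hφS
        rw [← hPhl i hi6 φ, ← hτdef] at h2
        have h3 : dt t₀ τ 0 = t₀ - τ := dt_zero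
        rw [h3] at h1
        have h4 := abs_add_le (Ph m μ x₀ t₀ φ t - Ph m μ x₀ t₀ φ (t₀ - τ))
          (Ph m μ x₀ t₀ φ (t₀ - τ) - ∫ y, φ y ∂(ν₀ (-1)))
        rw [sub_add_sub_cancel] at h4
        linarith
      have hsub : Ioc (a J) (a (J + 1)) ⊆ Ioo t₁ t₀ := by
        intro t ht
        have h1 : a 0 ≤ a J := hamono (Nat.zero_le J)
        exact ⟨by linarith [ht.1], lt_of_le_of_lt ht.2 (hamem _).2⟩
      have hloc := ae_restrict_of_ae_restrict_of_subset hsub h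
      have hdis := block_dissip hμ hfin x₀ (C := C) (p := 2 - 2 * θ) (Θ := Θ) (hamem J).1
        (hamono (Nat.le_succ J)) (hamem (J + 1)).2 hC (by linarith) (hGΘ _ (hamem _)) (by
          filter_upwards [hloc, ae_restrict_mem measurableSet_Ioc] with t ht htt
          exact ht (hcl t htt))
      have hlogJ : Real.log (t₀ - a J) - Real.log (t₀ - a (J + 1)) = Real.log 2 := dt_log hτ J
      rw [hlogJ] at hdis
      have hκe : κ * (e (J + 1)) ^ (2 - 2 * θ) ≤ e J - e (J + 1) := by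
        have h1 : Real.log 2 * (e (J + 1)) ^ (2 - 2 * θ) ≤ 2 * C * (e J - e (J + 1)) := by
          have e1 : e J - e (J + 1) = G (a J) - G (a (J + 1)) := by simp only [he]; ring
          rw [e1]
          exact hdis
        rw [hκ, div_mul_eq_mul_div, div_le_iff₀ (by positivity)]
        linarith
      have hsq := loj_alg (he0 (J + 1)) (hestep J) (hetop J) hκ0 hθ hθ2 hκe
      have hrJ : r J ≤ √(e J - e (J + 1)) := by
        refine Real.sqrt_le_sqrt ?_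
        have e1 : e J - e (J + 1) = G (a J) - G (a (J + 1)) := by simp only [he]; ring
        rw [e1]
        have h1 : 0 ≤ G (a J) - G (a (J + 1)) := by
          rw [← e1]
          linarith [hestep J]
        nlinarith
      rw [Finset.sum_range_succ]
      have e2 : C₃ * (e 0 ^ θ - e (J + 1) ^ θ) =
          C₃ * (e 0 ^ θ - e J ^ θ) + C₃ * (e J ^ θ - e (J + 1) ^ θ) := by ring
      rw [e2]
      exact add_le_add ih (hrJ.trans hsq)
  have hsum : Summable r := summable_of_sum_range_le hrn fun J => (hmain J).trans (hbound J)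
  refine crit_sum hμ hfin x₀ ht₀ hamono hamem (dt_tendsto t₀ τ) ?_
  refine hsum.congr fun j => ?_
  simp only [hr]
  have hlogJ : Real.log (t₀ - a j) - Real.log (t₀ - a (j + 1)) = Real.log 2 := dt_log hτ j
  rw [hlogJ]

end Vale.Agent.P218.H67
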