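import Vale.Agent.P218.H67.RateD
import Vale.Agent.P218.H67.Def2

open MeasureTheory Set Filter Topology

namespace Vale.Agent.P218.H67

variable {E : Type} [NormedAddCommGroup E] [InnerProductSpace ℝ E] [FiniteDimensional ℝ E]
    [MeasurableSpace E] [BorelSpace E]
    {m : ℕ} {t₀ : ℝ} {μ : ℝ → Measure (E)}
    {P : ℝ → E → (E →L[ℝ] E)} {H : ℝ → E → E}

lemma exists_tangentFlow (hμ : IsBrakkeFlow m t₀ μ P H) (hfin : ∀ t ∈ Ico 0 t₀, μ t univ < ⊤)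
    (x₀ : E) (ht₀ : 0 < t₀) : ∃ ν₀, IsTangentFlow m μ x₀ t₀ ν₀ := by
  obtain ⟨D, hD, hdense⟩ := exists_dense E
  obtain ⟨K, hK, hKev⟩ := xs_compact hμ hfin x₀ ht₀ hD
  obtain ⟨p, -, hp⟩ := hK.exists_mapClusterPt (tendsto_principal.2 hKev)
  obtain ⟨ν, hν⟩ := cluster_good hμ hfin x₀ ht₀ hD hdense hp
  exact ⟨_, hν.tan⟩

lemma hfin_of (hμ : IsBrakkeFlow m t₀ μ P H) (hmass : μ 0 univ < ⊤) :
    ∀ t ∈ Ico 0 t₀, μ t univ < ⊤ := fun _ ht => (mass_le hμ hmass ht).trans_lt hmass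

theorem main1 (hμ : IsBrakkeFlow m t₀ μ P H) (hmass : μ 0 univ < ⊤) (ht₀ : 0 < t₀) (x₀ : E)
    {ν₀ : ℝ → Measure (E)} (hν₀ : IsTangentFlow m μ x₀ t₀ ν₀) {S : Finset (E → ℝ)} {δ : ℝ}
    (hS : IsNbhd S δ) (h : (tangentsNear m μ x₀ t₀ ν₀ S δ).Countable) :
    UniqueTangentFlow m μ x₀ t₀ :=
  crit_countable hμ (hfin_of hμ hmass) x₀ ht₀ hν₀ S hS.2 hS.1 h

theorem main2 (hμ : IsBrakkeFlow m t₀ μ P H) (hmass : μ 0 univ < ⊤) (ht₀ : 0 < t₀) (x₀ : E)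
    {ν₀ : ℝ → Measure (E)} (hν₀ : IsTangentFlow m μ x₀ t₀ ν₀)
    (h : LojasiewiczNear m μ P H x₀ t₀ ν₀) : UniqueTangentFlow m μ x₀ t₀ := by
  obtain ⟨S, δ, hS, C, θ, t₁, Θ, hC, hθ, hθ2, ht₁, hΘ, hL⟩ := h
  exact crit_loj hμ (hfin_of hμ hmass) x₀ ht₀ hν₀ S hS.2 hS.1 hC hθ hθ2 ht₁ hΘ hL

theorem main3 (hμ : IsBrakkeFlow m t₀ μ P H) (hmass : μ 0 univ < ⊤) (ht₀ : 0 < t₀) (x₀ : E)
    {Θ C ε : ℝ} (hε : 0 < ε) (hΘ : Tendsto (gauss m μ x₀ t₀) (𝓝[<] t₀) (𝓝 Θ))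
    (h : ∀ᶠ t in 𝓝[<] t₀, gauss m μ x₀ t₀ t - Θ ≤
      C * (Real.log (1 / (t₀ - t))) ^ (-(1 + ε))) :
    UniqueTangentFlow m μ x₀ t₀ :=
  crit_rate hμ (hfin_of hμ hmass) x₀ ht₀ hε hΘ h

theorem main4 (hμ : IsBrakkeFlow m t₀ μ P H) (hmass : μ 0 univ < ⊤) (ht₀ : 0 < t₀) (x₀ : E)
    {Γ : Set (E ≃ₗᵢ[ℝ] E)} (hΓ : NoRotation Γ) (hinv : ∀ g ∈ Γ, InvariantUnder μ x₀ t₀ g)
    {ν₀ : ℝ → Measure (E)} (hν₀ : IsTangentFlow m μ x₀ t₀ ν₀) {S : Finset (E → ℝ)} {δ : ℝ}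
    (hS : IsNbhd S δ) (h : CountablyManyShapes (tangentsNear m μ x₀ t₀ ν₀ S δ)) :
    UniqueTangentFlow m μ x₀ t₀ := by
  obtain ⟨θ, hθ, horb⟩ := h
  exact crit_symm hμ (hfin_of hμ hmass) x₀ ht₀ hΓ hinv hν₀ S hS.2 hS.1 θ hθ horb

lemma noRotation_mirrors (hE : Module.finrank ℝ E = 3) {u v : E}
    (huv : LinearIndependent ℝ ![u, v]) :
    NoRotation ({(ℝ ∙ u)ᗮ.reflection, (ℝ ∙ v)ᗮ.reflection} : Set (E ≃ₗᵢ[ℝ] E)) := by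
  intro ω hω hcomm
  exact skew_zero hE huv hω (hcomm _ (Or.inl rfl)) (hcomm _ (Or.inr rfl))

end Vale.Agent.P218.H67
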