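import Vale.Agent.P218.H67.Cut

open MeasureTheory Set Filter Topology

namespace Vale.Agent.P218.H67

variable {E : Type} [NormedAddCommGroup E] [InnerProductSpace ℝ E] [FiniteDimensional ℝ E]
    [MeasurableSpace E] [BorelSpace E]

/-- argument of the shrinking-ball barrier -/
noncomputable def barg (m : ℕ) (R t : ℝ) (x : E) : ℝ := 1 - (‖x‖ ^ 2 + 2 * m * t) / R ^ 2

/-- the shrinking-ball barrier -/
noncomputable def bar (m : ℕ) (R t : ℝ) (x : E) : ℝ := jj (barg m R t x)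

/-- its gradient -/
noncomputable def bvf (m : ℕ) (R t : ℝ) (x : E) : E :=
  (-(6 / R ^ 2) * max 0 (barg m R t x) ^ 2) • x

lemma barg_hasFDerivAt (m : ℕ) (R t : ℝ) (x : E) :
    HasFDerivAt (barg m R t) ((-(2 / R ^ 2)) • innerSL ℝ x) x := by
  have h1 : HasFDerivAt (fun z : E => ‖z‖ ^ 2) (2 • innerSL ℝ x) x :=
    (hasStrictFDerivAt_norm_sq x).hasFDerivAt
  have h3 := (h1.const_mul (-(1 / R ^ 2))).const_add (1 - 2 * m * t / R ^ 2)
  have e1 : barg m R t = fun z : E => (1 - 2 * m * t / R ^ 2) + (-(1 / R ^ 2)) * ‖z‖ ^ 2 := by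
    funext z
    unfold barg
    ring
  have e2 : (-(2 / R ^ 2)) • innerSL ℝ x = (-(1 / R ^ 2)) • (2 • innerSL ℝ x) := by
    rw [← Nat.cast_smul_eq_nsmul ℝ, smul_smul]
    congr 1
    push_cast
    ring
  rw [e1, e2]
  exact h3

lemma barg_time (m : ℕ) (R t : ℝ) (x : E) :
    HasDerivAt (fun s => barg m R s x) (-(2 * m / R ^ 2)) t := by
  have h1 := (((hasDerivAt_id t).const_mul (2 * (m : ℝ))).const_add (‖x‖ ^ 2)).div_const (R ^ 2)
  have h2 := h1.const_sub 1
  simpa [barg, mul_one] using h2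

lemma bar_fderiv (m : ℕ) (R t : ℝ) (x v : E) :
    fderiv ℝ (bar m R t) x v = inner ℝ v (bvf m R t x) := by
  have h := (jj_hasDerivAt (barg m R t x)).comp_hasFDerivAt x (barg_hasFDerivAt m R t x)
  have h2 : fderiv ℝ (bar m R t) x = _ := h.fderiv
  rw [h2]
  unfold bvf
  rw [inner_smul_right]
  simp only [smul_apply, innerSL_apply_apply, smul_eq_mul]
  rw [real_inner_comm]
  ring

lemma bar_deriv (m : ℕ) (R t : ℝ) (x : E) :
    deriv (fun s => bar m R s x) t = -(6 * m / R ^ 2) * max 0 (barg m R t x) ^ 2 := by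
  have h := (jj_hasDerivAt (barg m R t x)).comp t (barg_time m R t x)
  have h2 : deriv (fun s => bar m R s x) t = _ := h.deriv
  rw [h2]
  ring

lemma max_sq_contDiff : ContDiff ℝ 1 (fun u : ℝ => max 0 u ^ 2) := by
  have h1 : ∀ u : ℝ, HasDerivAt (fun u : ℝ => max 0 u ^ 2) (2 * max 0 u) u := by
    intro u
    have := max_pow_hasDerivAt 1 le_rfl u
    norm_num at this ⊢
    convert this using 1
  rw [contDiff_one_iff_deriv]
  refine ⟨fun u => (h1 u).differentiableAt, ?_⟩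
  rw [show deriv (fun u : ℝ => max 0 u ^ 2) = fun u => 2 * max 0 u from
    funext fun u => (h1 u).deriv]
  fun_prop

lemma barg_contDiff (m : ℕ) (R t : ℝ) (n : WithTop ℕ∞) : ContDiff ℝ n (barg (E := E) m R t) := by
  unfold barg
  exact contDiff_const.sub (((contDiff_norm_sq ℝ).add contDiff_const).div_const _)

lemma bvf_contDiff (m : ℕ) (R t : ℝ) : ContDiff ℝ 1 (bvf (E := E) m R t) := by
  unfold bvf
  exact (contDiff_const.mul (max_sq_contDiff.comp (barg_contDiff m R t 1))).smul contDiff_id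

lemma bvf_divP {m : ℕ} (R t : ℝ) (x : E) {P : E →L[ℝ] E} (hP : IsPlane m P) :
    divP P (bvf m R t) x = -(6 / R ^ 2) * (m * max 0 (barg m R t x) ^ 2 -
      4 / R ^ 2 * max 0 (barg m R t x) * inner ℝ x (P x)) := by
  have h1 : ∀ u : ℝ, HasDerivAt (fun u : ℝ => max 0 u ^ 2) (2 * max 0 u) u := by
    intro u
    have := max_pow_hasDerivAt 1 le_rfl u
    norm_num at this ⊢
    convert this using 1
  have h2 := ((h1 (barg m R t x)).comp_hasFDerivAt x (barg_hasFDerivAt m R t x)).const_mul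
    (-(6 / R ^ 2))
  have h3 := h2.smul (hasFDerivAt_id x)
  have h4 : fderiv ℝ (bvf m R t) x = _ := h3.fderiv
  have h5 : ((P.comp (fderiv ℝ (bvf m R t) x) : E →L[ℝ] E) : E →ₗ[ℝ] E) =
      (-(6 / R ^ 2) * max 0 (barg m R t x) ^ 2) • (P : E →ₗ[ℝ] E) +
      (24 / R ^ 4 * max 0 (barg m R t x)) •
        ((innerSL ℝ x : E →L[ℝ] ℝ) : E →ₗ[ℝ] ℝ).smulRight (P x) := by
    ext v
    rw [h4]
    simp
    ring_nf
    rw [smul_smul]
    congr 1
    ring
  unfold divP
  rw [h5, map_add, map_smul, map_smul, hP.trace, LinearMap.trace_smulRight]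
  simp only [smul_eq_mul, ContinuousLinearMap.coe_coe, innerSL_apply_apply]
  ring

lemma bar_eq_zero {m : ℕ} {R t : ℝ} (hR : 0 < R) {r : ℝ} (hr : R ^ 2 - 2 * m * t ≤ r ^ 2)
    (hr0 : 0 ≤ r) {x : E} (hx : x ∉ Metric.closedBall (0 : E) r) :
    max 0 (barg m R t x) = 0 := by
  rw [mem_closedBall_zero_iff, not_le] at hx
  apply max_eq_left
  unfold barg
  rw [sub_nonpos, one_le_div (by positivity)]
  nlinarith

lemma bar_isTest (m : ℕ) {R : ℝ} (hR : 0 < R) (t₀ : ℝ) : IsTest t₀ (bar (E := E) m R) where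
  nonneg := fun t _ x => jj_nonneg _
  smooth := by
    refine (jj_contDiff.comp ?_).contDiffOn
    exact contDiff_const.sub
      (((contDiff_snd.norm_sq ℝ).add (contDiff_const.mul contDiff_fst)).div_const _)
  supp := by
    intro a b _
    refine ⟨Metric.closedBall 0 (√(R ^ 2 + 2 * m * |a|)), isCompact_closedBall _ _, ?_⟩
    intro t ht x hx
    have h1 : R ^ 2 - 2 * m * t ≤ √(R ^ 2 + 2 * m * |a|) ^ 2 := by
      rw [Real.sq_sqrt (by positivity)]
      have h2 : -t ≤ |a| := by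
        have := neg_abs_le a
        linarith [ht.1]
      have h3 : (0 : ℝ) ≤ 2 * m := by positivity
      nlinarith
    unfold bar jj
    rw [bar_eq_zero hR h1 (Real.sqrt_nonneg _) hx]
    norm_num

lemma bar_rate {m : ℕ} {t₀ : ℝ} {μ : ℝ → Measure (E)}
    {P : ℝ → E → (E →L[ℝ] E)} {H : ℝ → E → E}
    (hμ : IsBrakkeFlow m t₀ μ P H) {R : ℝ} (hR : 0 < R) :
    ∀ᵐ t ∂(volume.restrict (Ioo 0 t₀)), rate μ H (bar m R) t ≤ 0 := by
  filter_upwards [hμ.meas, hμ.plane, hμ.sq, hμ.first, ae_restrict_mem measurableSet_Ioo]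
    with t hmeas hplane hsq hfirst ht
  have hrad := hμ.radon t ⟨ht.1.le, ht.2⟩
  set K : Set (E) := Metric.closedBall 0 R with hK
  have hKc : IsCompact K := isCompact_closedBall _ _
  have hm0 : (0 : ℝ) ≤ m := Nat.cast_nonneg m
  have hr : R ^ 2 - 2 * m * t ≤ R ^ 2 := by
    have : 0 ≤ 2 * (m : ℝ) * t := by
      have := ht.1.le
      positivity
    linarith
  set u : E → ℝ := fun x => max 0 (barg m R t x) with hu
  have hu0 : ∀ x ∉ K, u x = 0 := fun x hx => bar_eq_zero hR hr hR.le hx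
  have hun : ∀ x, 0 ≤ u x := fun x => le_max_left _ _
  have hu1 : ∀ x, u x ≤ 1 := by
    intro x
    refine max_le zero_le_one ?_
    unfold barg
    have : 0 ≤ (‖x‖ ^ 2 + 2 * m * t) / R ^ 2 := by
      have := ht.1.le
      positivity
    linarith
  have cu : Continuous u := continuous_const.max (barg_contDiff m R t 0).continuous
  have hxK : ∀ x ∈ K, ‖x‖ ≤ R := fun x hx => mem_closedBall_zero_iff.1 hx
  set I1 : E → ℝ := fun x => -(‖H t x‖ ^ 2 * u x ^ 3) + -(6 * m / R ^ 2) * u x ^ 2 with hI1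
  set J1 : E → ℝ := fun x => divP (P t x) (bvf m R t) x with hJ1
  set J2 : E → ℝ := fun x => inner ℝ (H t x) (bvf m R t x) with hJ2
  have nH : ∀ x, ‖H t x‖ ≤ 1 + ‖H t x‖ ^ 2 := fun x => by nlinarith [sq_nonneg (‖H t x‖ - 1)]
  have n1 : ∀ x, (1 : ℝ) ≤ 1 + ‖H t x‖ ^ 2 := fun x => by nlinarith [sq_nonneg (‖H t x‖)]
  have n2 : ∀ x, ‖H t x‖ ^ 2 ≤ 1 + ‖H t x‖ ^ 2 := fun x => by linarith
  have iI1 : Integrable I1 (μ t) := by
    refine integrable_of_bound hKc (hsq K hKc) ?_ (1 + 6 * m / R ^ 2) ?_ ?_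
    · have mH2 : AEStronglyMeasurable (fun x => ‖H t x‖ ^ 2) (μ t) := hmeas.2.norm.pow 2
      exact (mH2.mul (cu.pow 3).aestronglyMeasurable).neg.add
        ((cu.pow 2).aestronglyMeasurable.const_mul _)
    · refine Eventually.of_forall fun x _ => ?_
      have q1 : u x ^ 3 ≤ 1 := pow_le_one₀ (hun x) (hu1 x)
      have q2 : u x ^ 2 ≤ 1 := pow_le_one₀ (hun x) (hu1 x)
      have q3 := hun x
      calc |I1 x| ≤ ‖H t x‖ ^ 2 * u x ^ 3 + 6 * m / R ^ 2 * u x ^ 2 := by
            refine (abs_add_le _ _).trans (le_of_eq ?_)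
            rw [abs_neg, neg_mul, abs_neg, abs_of_nonneg (by positivity),
              abs_of_nonneg (by positivity)]
        _ ≤ (1 + ‖H t x‖ ^ 2) * 1 + 6 * m / R ^ 2 * (1 + ‖H t x‖ ^ 2) := by
            refine add_le_add (mul_le_mul (n2 x) q1 (by positivity) (by positivity)) ?_
            gcongr
            exact q2.trans (n1 x)
        _ = _ := by ring
    · refine Eventually.of_forall fun x hx => ?_
      simp only [hI1, hu0 x hx]
      simp
  have eJ1 : ∀ᵐ x ∂(μ t), J1 x = -(6 / R ^ 2) * (m * u x ^ 2 -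
      4 / R ^ 2 * u x * inner ℝ x (P t x x)) := by
    filter_upwards [hplane] with x hx
    exact bvf_divP R t x hx.1
  have mPx : AEStronglyMeasurable (fun x => P t x x) (μ t) :=
    isBoundedBilinearMap_apply.continuous.comp_aestronglyMeasurable
      (hmeas.1.prodMk continuous_id.aestronglyMeasurable)
  have iJ1 : Integrable J1 (μ t) := by
    refine integrable_of_bound hKc (hsq K hKc) ?_ (6 / R ^ 2 * (m + 4)) ?_ ?_
    · have h1 : AEStronglyMeasurable (fun x => -(6 / R ^ 2) * (m * u x ^ 2 -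
          4 / R ^ 2 * u x * inner ℝ x (P t x x))) (μ t) :=
        (((cu.pow 2).aestronglyMeasurable.const_mul _).sub
          ((cu.aestronglyMeasurable.const_mul _).mul
            (continuous_id.aestronglyMeasurable.inner mPx))).const_mul _
      exact h1.congr (by filter_upwards [eJ1] with x hx; exact hx.symm)
    · filter_upwards [eJ1, hplane] with x hx hpl hxK'
      rw [hx, abs_mul, abs_neg, abs_of_pos (by positivity)]
      have q2 : u x ^ 2 ≤ 1 := pow_le_one₀ (hun x) (hu1 x)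
      have q3 := hun x
      have q4 : |inner ℝ x (P t x x)| ≤ R ^ 2 := by
        refine (abs_real_inner_le_norm _ _).trans ?_
        rw [sq]
        exact mul_le_mul (hxK x hxK') ((hpl.1.norm_le _).trans (hxK x hxK')) (norm_nonneg _) hR.le
      have q5 : |(m : ℝ) * u x ^ 2 - 4 / R ^ 2 * u x * inner ℝ x (P t x x)| ≤ (m : ℝ) + 4 := by
        refine (norm_sub_le ((m : ℝ) * u x ^ 2)
          (4 / R ^ 2 * u x * inner ℝ x (P t x x))).trans (add_le_add ?_ ?_)
        · rw [Real.norm_of_nonneg (by positivity)]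
          exact mul_le_of_le_one_right hm0 q2
        · rw [norm_mul, Real.norm_of_nonneg (by positivity), Real.norm_eq_abs]
          calc 4 / R ^ 2 * u x * |inner ℝ x (P t x x)| ≤ 4 / R ^ 2 * 1 * R ^ 2 := by
                gcongr
                exact hu1 x
            _ = 4 := by field_simp
      calc _ ≤ 6 / R ^ 2 * (m + 4) := by gcongr
        _ ≤ _ := le_mul_of_one_le_right (by positivity) (n1 x)
    · filter_upwards [eJ1] with x hx hxK'
      rw [hx, hu0 x hxK']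
      ring
  have iJ2 : Integrable J2 (μ t) := by
    refine integrable_of_bound hKc (hsq K hKc) ?_ (6 / R ^ 2 * R) ?_ ?_
    · exact hmeas.2.inner (bvf_contDiff m R t).continuous.aestronglyMeasurable
    · refine Eventually.of_forall fun x hx => ?_
      have q2 : u x ^ 2 ≤ 1 := pow_le_one₀ (hun x) (hu1 x)
      have q0 : ‖bvf m R t x‖ ≤ 6 / R ^ 2 * R := by
        unfold bvf
        rw [norm_smul, norm_mul, norm_neg, Real.norm_of_nonneg (by positivity),
          Real.norm_of_nonneg (by positivity)]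
        calc 6 / R ^ 2 * max 0 (barg m R t x) ^ 2 * ‖x‖ ≤ 6 / R ^ 2 * 1 * R := by
              gcongr
              exact hxK x hx
          _ = _ := by ring
      calc |J2 x| ≤ ‖H t x‖ * ‖bvf m R t x‖ := abs_real_inner_le_norm _ _
        _ ≤ (1 + ‖H t x‖ ^ 2) * (6 / R ^ 2 * R) := by
            gcongr
            exact nH x
        _ = _ := by ring
    · refine Eventually.of_forall fun x hx => ?_
      have : max 0 (barg m R t x) = 0 := hu0 x hx
      simp only [hJ2, bvf, this]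
      simp
  have key : rate μ H (bar m R) t = ∫ x, (I1 x - J1 x) ∂(μ t) := by
    have h1 : rate μ H (bar m R) t = ∫ x, (I1 x + J2 x) ∂(μ t) := by
      unfold rate
      congr 1
      funext x
      rw [bar_fderiv, bar_deriv]
      simp only [hI1, hJ2, hu, bar, jj]
      ring
    have h2 : ∫ x, (I1 x + J2 x) ∂(μ t) = ∫ x, I1 x ∂(μ t) + ∫ x, J2 x ∂(μ t) :=
      integral_add iI1 iJ2
    have h3 : ∫ x, (I1 x - J1 x) ∂(μ t) = ∫ x, I1 x ∂(μ t) - ∫ x, J1 x ∂(μ t) :=
      integral_sub iI1 iJ1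
    have hcpt : HasCompactSupport (bvf (E := E) m R t) := by
      refine HasCompactSupport.intro hKc fun x hx => ?_
      have : max 0 (barg m R t x) = 0 := hu0 x hx
      simp [bvf, this]
    have h4 : ∫ x, J1 x ∂(μ t) = -∫ x, J2 x ∂(μ t) := hfirst _ (bvf_contDiff m R t) hcpt
    rw [h1, h2, h3, h4]
    ring
  rw [key]
  refine integral_nonpos_of_ae ?_
  filter_upwards [eJ1, hplane] with x hx hpl
  have q1 : inner ℝ x (P t x x) = ‖P t x x‖ ^ 2 := by
    rw [← real_inner_self_eq_norm_sq, hpl.1.symm, hpl.1.idem]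
  simp only [Pi.zero_apply, hI1]
  rw [hx, q1]
  have q3 := hun x
  have q4 : 0 ≤ ‖H t x‖ ^ 2 * u x ^ 3 := by positivity
  have q5 : 0 ≤ 6 / R ^ 2 * (4 / R ^ 2 * u x * ‖P t x x‖ ^ 2) := by positivity
  have e : -(‖H t x‖ ^ 2 * u x ^ 3) + -(6 * m / R ^ 2) * u x ^ 2 -
      -(6 / R ^ 2) * (m * u x ^ 2 - 4 / R ^ 2 * u x * ‖P t x x‖ ^ 2) =
      -(‖H t x‖ ^ 2 * u x ^ 3) - 6 / R ^ 2 * (4 / R ^ 2 * u x * ‖P t x x‖ ^ 2) := by ring
  rw [e]
  linarith

lemma bar_le {m : ℕ} {t₀ : ℝ} {μ : ℝ → Measure (E)}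
    {P : ℝ → E → (E →L[ℝ] E)} {H : ℝ → E → E}
    (hμ : IsBrakkeFlow m t₀ μ P H) {R : ℝ} (hR : 0 < R) {t : ℝ} (ht : t ∈ Ico 0 t₀) :
    ∫ x, bar m R t x ∂(μ t) ≤ ∫ x, bar m R 0 x ∂(μ 0) := by
  obtain ⟨h1, h2⟩ := hμ.brakke (bar m R) (bar_isTest m hR t₀) 0 t le_rfl ht.1 ht.2
  have h3 : ∫ s in (0 : ℝ)..t, rate μ H (bar m R) s ≤ 0 := by
    rw [intervalIntegral.integral_of_le ht.1]
    refine setIntegral_nonpos_of_ae_restrict ?_
    have hsub : Ioc 0 t ⊆ Ioo 0 t₀ := fun s hs => ⟨hs.1, lt_of_le_of_lt hs.2 ht.2⟩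
    exact ae_restrict_of_ae_restrict_of_subset hsub (bar_rate hμ hR)
  linarith

/-- the total mass is bounded by the initial mass -/
lemma mass_le {m : ℕ} {t₀ : ℝ} {μ : ℝ → Measure (E)}
    {P : ℝ → E → (E →L[ℝ] E)} {H : ℝ → E → E}
    (hμ : IsBrakkeFlow m t₀ μ P H) (hfin : μ 0 univ < ⊤) {t : ℝ} (ht : t ∈ Ico 0 t₀) :
    μ t univ ≤ μ 0 univ := by
  have hrad := hμ.radon t ht
  have h0 : IsFiniteMeasure (μ 0) := ⟨hfin⟩
  have hcont : ∀ (R s : ℝ), Continuous (bar (E := E) m R s) := fun R s =>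
    jj_contDiff.continuous.comp (barg_contDiff m R s 0).continuous
  have h1 : ∀ n : ℕ, ∫⁻ x, ENNReal.ofReal (bar m ((n : ℝ) + 1) t x) ∂(μ t) ≤ μ 0 univ := by
    intro n
    have hR : (0 : ℝ) < (n : ℝ) + 1 := by positivity
    have hcs : HasCompactSupport (bar (E := E) m ((n : ℝ) + 1) t) := by
      obtain ⟨K, hK, h⟩ := (bar_isTest (E := E) m hR t₀).supp t t ht.2
      exact HasCompactSupport.intro hK fun x hx => h t ⟨le_rfl, le_rfl⟩ x hx
    have hint : Integrable (bar m ((n : ℝ) + 1) t) (μ t) :=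
      (hcont _ _).integrable_of_hasCompactSupport hcs
    rw [← ofReal_integral_eq_lintegral_ofReal hint (Eventually.of_forall fun x => jj_nonneg _)]
    refine (ENNReal.ofReal_le_ofReal (bar_le hμ hR ht)).trans ?_
    have h2 : ∫ x, bar m ((n : ℝ) + 1) 0 x ∂(μ 0) ≤ ∫ _, (1 : ℝ) ∂(μ 0) := by
      refine integral_mono_of_nonneg (Eventually.of_forall fun x => jj_nonneg _)
        (integrable_const _) (Eventually.of_forall fun x => ?_)
      change jj (barg m ((n : ℝ) + 1) 0 x) ≤ 1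
      unfold jj barg
      have h1 : 0 ≤ (‖x‖ ^ 2 + 2 * m * 0) / ((n : ℝ) + 1) ^ 2 := by positivity
      exact pow_le_one₀ (le_max_left _ _) (max_le zero_le_one (by linarith))
    refine (ENNReal.ofReal_le_ofReal h2).trans ?_
    rw [integral_const, smul_eq_mul, mul_one, Measure.real, ENNReal.ofReal_toReal hfin.ne]
  have h2 : ∀ x : E, Tendsto (fun n : ℕ => ENNReal.ofReal (bar m ((n : ℝ) + 1) t x)) atTop
      (𝓝 1) := by
    intro x
    have h3 : Tendsto (fun n : ℕ => (‖x‖ ^ 2 + 2 * m * t) / ((n : ℝ) + 1) ^ 2) atTop (𝓝 0) := by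
      refine Tendsto.div_atTop tendsto_const_nhds ?_
      exact (tendsto_pow_atTop (by norm_num)).comp
        (tendsto_atTop_add_const_right _ _ tendsto_natCast_atTop_atTop)
    have h4 : Tendsto (fun n : ℕ => bar m ((n : ℝ) + 1) t x) atTop (𝓝 (jj (1 - 0))) :=
      (jj_contDiff.continuous.tendsto _).comp (tendsto_const_nhds.sub h3)
    have h5 : jj (1 - 0) = 1 := by unfold jj; norm_num
    rw [h5] at h4
    simpa using ENNReal.tendsto_ofReal h4
  calc μ t univ = ∫⁻ _, 1 ∂(μ t) := by simp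
    _ = ∫⁻ x, liminf (fun n : ℕ => ENNReal.ofReal (bar m ((n : ℝ) + 1) t x)) atTop ∂(μ t) := by
        congr 1
        funext x
        exact (h2 x).liminf_eq.symm
    _ ≤ liminf (fun n : ℕ => ∫⁻ x, ENNReal.ofReal (bar m ((n : ℝ) + 1) t x) ∂(μ t)) atTop :=
        lintegral_liminf_le fun n => ((hcont _ _).measurable).ennreal_ofReal
    _ ≤ μ 0 univ := liminf_le_of_frequently_le' (Frequently.of_forall h1)

end Vale.Agent.P218.H67
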