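import Vale.Agent.P218.H67.Slice

open MeasureTheory Set Filter Topology

namespace Vale.Agent.P218.H67

variable {E : Type} [NormedAddCommGroup E] [InnerProductSpace ℝ E] [FiniteDimensional ℝ E]
    [MeasurableSpace E] [BorelSpace E]

/-- the vector field used in the first variation -/
noncomputable def vf (m : ℕ) (x₀ : E) (t₀ : ℝ) (Q : E → ℝ) (t : ℝ) (x : E) : E :=
  (-(kap m t₀ t / (2 * √(t₀ - t)))) • (Q (sim x₀ t₀ t x) • sim x₀ t₀ t x)

lemma sim_contDiff (x₀ : E) (t₀ t : ℝ) (n : WithTop ℕ∞) : ContDiff ℝ n (sim x₀ t₀ t) := by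
  unfold sim
  exact (contDiff_id.sub contDiff_const).const_smul _

lemma sim_continuous (x₀ : E) (t₀ t : ℝ) : Continuous (sim x₀ t₀ t) :=
  (sim_contDiff x₀ t₀ t 0).continuous

lemma vf_contDiff (m : ℕ) (x₀ : E) (t₀ : ℝ) {Q : E → ℝ} (hQ : ContDiff ℝ 2 Q) (t : ℝ) :
    ContDiff ℝ 1 (vf m x₀ t₀ Q t) := by
  unfold vf
  have h1 : ContDiff ℝ 1 (fun x => Q (sim x₀ t₀ t x)) :=
    (hQ.of_le (by norm_num)).comp (sim_contDiff x₀ t₀ t 1)
  exact (h1.smul (sim_contDiff x₀ t₀ t 1)).const_smul _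

lemma sim_notMem (x₀ : E) {t₀ t : ℝ} (h : t < t₀) {R : ℝ} {x : E}
    (hx : x ∉ Metric.closedBall x₀ (√(t₀ - t) * R)) :
    sim x₀ t₀ t x ∉ Metric.closedBall (0 : E) R := by
  intro h1
  apply hx
  have hτ : 0 < t₀ - t := by linarith
  have hs : 0 < √(t₀ - t) := Real.sqrt_pos.2 hτ
  rw [mem_closedBall_zero_iff] at h1
  have h2 : ‖x - x₀‖ = √(t₀ - t) * ‖sim x₀ t₀ t x‖ := by
    unfold sim
    rw [norm_smul, norm_inv, Real.norm_of_nonneg hs.le]
    field_simp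
  rw [Metric.mem_closedBall, dist_eq_norm, h2]
  gcongr

lemma sim_mem (x₀ : E) {t₀ t : ℝ} (h : t < t₀) {R : ℝ} {x : E}
    (hx : x ∈ Metric.closedBall x₀ (√(t₀ - t) * R)) :
    ‖sim x₀ t₀ t x‖ ≤ R := by
  have hτ : 0 < t₀ - t := by linarith
  have hs : 0 < √(t₀ - t) := Real.sqrt_pos.2 hτ
  rw [Metric.mem_closedBall, dist_eq_norm] at hx
  unfold sim
  rw [norm_smul, norm_inv, Real.norm_of_nonneg hs.le, inv_mul_le_iff₀ hs]
  exact hx

lemma vf_compact (m : ℕ) (x₀ : E) {t₀ t : ℝ} (h : t < t₀) {Q : E → ℝ}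
    (hc : HasCompactSupport Q) : HasCompactSupport (vf m x₀ t₀ Q t) := by
  obtain ⟨R, hR⟩ := hc.isCompact.isBounded.subset_closedBall (0 : E)
  refine HasCompactSupport.intro (isCompact_closedBall x₀ (√(t₀ - t) * R)) ?_
  intro x hx
  have : Q (sim x₀ t₀ t x) = 0 := by
    by_contra hne
    exact sim_notMem x₀ h hx (hR (subset_tsupport _ (by simpa using hne)))
  simp [vf, this]

lemma divP_vf {m : ℕ} (x₀ x : E) {t₀ t : ℝ} (h : t < t₀) {Q : E → ℝ}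
    (hQ : Differentiable ℝ Q) {P : E →L[ℝ] E} (hP : IsPlane m P) :
    divP P (vf m x₀ t₀ Q t) x = -(kap m t₀ t / (2 * (t₀ - t))) *
      (fderiv ℝ Q (sim x₀ t₀ t x) (P (sim x₀ t₀ t x)) + Q (sim x₀ t₀ t x) * m) := by
  have hτ : 0 < t₀ - t := by linarith
  have hs : 0 < √(t₀ - t) := Real.sqrt_pos.2 hτ
  set y := sim x₀ t₀ t x with hy
  have h1 := (hQ y).hasFDerivAt.comp x (sim_hasFDerivAt x₀ x t₀ t)
  have h2 := (h1.smul (sim_hasFDerivAt x₀ x t₀ t)).const_smul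
    (-(kap m t₀ t / (2 * √(t₀ - t))))
  have h3 : fderiv ℝ (vf m x₀ t₀ Q t) x = _ := h2.fderiv
  have h4 : ∀ v, fderiv ℝ (vf m x₀ t₀ Q t) x v =
      (-(kap m t₀ t / (2 * (t₀ - t)))) • (Q y • v + fderiv ℝ Q y v • y) := by
    intro v
    rw [h3]
    have e : -(kap m t₀ t / (2 * √(t₀ - t))) * (√(t₀ - t))⁻¹ =
        -(kap m t₀ t / (2 * (t₀ - t))) := by
      have : √(t₀ - t) * √(t₀ - t) = t₀ - t := Real.mul_self_sqrt hτ.le
      field_simp
      rw [Real.sq_sqrt hτ.le]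
    rw [← e, mul_smul]
    simp only [Function.comp_apply, smul_apply,
      add_apply, ContinuousLinearMap.smulRight_apply,
      ContinuousLinearMap.comp_apply, ContinuousLinearMap.id_apply, map_smul, smul_eq_mul, ← hy]
    congr 1
    rw [smul_add, smul_comm, smul_smul, smul_smul]
  have h5 : ((P.comp (fderiv ℝ (vf m x₀ t₀ Q t) x) : E →L[ℝ] E) : E →ₗ[ℝ] E) =
      (-(kap m t₀ t / (2 * (t₀ - t)))) • (Q y • (P : E →ₗ[ℝ] E) +
        ((fderiv ℝ Q y : E →L[ℝ] ℝ) : E →ₗ[ℝ] ℝ).smulRight (P y)) := by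
    ext v i
    simp [h4]
  unfold divP
  rw [h5, map_smul, map_add, map_smul, hP.trace, LinearMap.trace_smulRight]
  simp only [smul_eq_mul, ContinuousLinearMap.coe_coe]
  ring

lemma integrable_of_bound {ν : Measure (E)} [IsFiniteMeasureOnCompacts ν] {K : Set (E)}
    (hK : IsCompact K) {H : E → E} (hH : IntegrableOn (fun x => ‖H x‖ ^ 2) K ν)
    {g : E → ℝ} (hg : AEStronglyMeasurable g ν) (C : ℝ)
    (hb : ∀ᵐ x ∂ν, x ∈ K → |g x| ≤ C * (1 + ‖H x‖ ^ 2)) (h0 : ∀ᵐ x ∂ν, x ∉ K → g x = 0) :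
    Integrable g ν := by
  have h1 : IntegrableOn g K ν := by
    have h2 : IntegrableOn (fun x => C * (1 + ‖H x‖ ^ 2)) K ν := by
      have h3 : IntegrableOn (fun _ : E => (1 : ℝ)) K ν :=
        integrableOn_const (hK.measure_lt_top.ne)
      exact (h3.add hH).const_mul C
    refine Integrable.mono' h2 hg.restrict ?_
    rw [ae_restrict_iff' hK.measurableSet]
    filter_upwards [hb] with x hx hxK
    exact hx hxK
  rw [← integrable_indicator_iff hK.measurableSet] at h1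
  refine h1.congr ?_
  filter_upwards [h0] with x hx
  by_cases hxK : x ∈ K
  · simp [hxK]
  · simp [hxK, hx hxK]

/-- The integrand of Brakke's inequality for the self-similar test functions. -/
lemma rate_tst (m : ℕ) (μ : ℝ → Measure (E)) (H : ℝ → E → E) (x₀ : E) {t₀ t : ℝ}
    (h : t < t₀) {Q : E → ℝ} (hQ : Differentiable ℝ Q) :
    rate μ H (tst m x₀ t₀ Q) t = ∫ x, (-(‖H t x‖ ^ 2 * (kap m t₀ t * Q (sim x₀ t₀ t x))) +
      kap m t₀ t * ((√(t₀ - t))⁻¹ * fderiv ℝ Q (sim x₀ t₀ t x) (H t x)) +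
      kap m t₀ t * ((1 / (2 * (t₀ - t))) * (m * Q (sim x₀ t₀ t x) +
        fderiv ℝ Q (sim x₀ t₀ t x) (sim x₀ t₀ t x)))) ∂(μ t) := by
  unfold rate
  congr 1
  funext x
  rw [tst_fderiv m x₀ x t₀ t hQ, tst_deriv m x₀ x h hQ]
  rfl

end Vale.Agent.P218.H67
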