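import Vale.Agent.P218.H67.Crit

open MeasureTheory Set Filter Topology

namespace Vale.Agent.P218.H67

variable {E : Type} [NormedAddCommGroup E] [InnerProductSpace ℝ E] [FiniteDimensional ℝ E]
    [MeasurableSpace E] [BorelSpace E]
    {m : ℕ} {t₀ : ℝ} {μ : ℝ → Measure (E)}
    {P : ℝ → E → (E →L[ℝ] E)} {H : ℝ → E → E}

/-- optimised form of the key estimate -/
lemma kstep (hμ : IsBrakkeFlow m t₀ μ P H) (hfin : ∀ t ∈ Ico 0 t₀, μ t univ < ⊤) (x₀ : E)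
    {ψ : E → ℝ} {c₀ L : ℝ} (hs : ContDiff ℝ 2 ψ) (hb : ∀ y, |ψ y| ≤ c₀)
    (hL : ∀ y, ‖fderiv ℝ ψ y‖ ≤ L) {a b : ℝ} (ha : 0 ≤ a)
    (hab : a ≤ b) (hbt : b < t₀) :
    |gg m μ x₀ t₀ ψ b - gg m μ x₀ t₀ ψ a| ≤
      3 * c₀ * (gauss m μ x₀ t₀ a - gauss m μ x₀ t₀ b) +
      (1 + L ^ 2 / 2 * gauss m μ x₀ t₀ 0) *
        √((gauss m μ x₀ t₀ a - gauss m μ x₀ t₀ b) *
          (Real.log (t₀ - a) - Real.log (t₀ - b))) := by
  set δ := gauss m μ x₀ t₀ a - gauss m μ x₀ t₀ b with hδ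
  set Λ := Real.log (t₀ - a) - Real.log (t₀ - b) with hΛ
  set G0 := gauss m μ x₀ t₀ 0 with hG0
  have ht₀ : 0 < t₀ := by linarith
  have hδ0 : 0 ≤ δ := by
    have := gauss_anti hμ hfin x₀ ha hab hbt
    linarith
  have hΛ0 : 0 ≤ Λ := by
    have : Real.log (t₀ - b) ≤ Real.log (t₀ - a) := Real.log_le_log (by linarith) (by linarith)
    linarith
  have hG : gauss m μ x₀ t₀ a ≤ G0 := gauss_anti hμ hfin x₀ le_rfl ha (by linarith)
  have hGa : 0 ≤ gauss m μ x₀ t₀ a := gauss_nonneg (by linarith)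
  have hG0n : 0 ≤ G0 := hGa.trans hG
  have key : ∀ e : ℝ, 0 < e → |gg m μ x₀ t₀ ψ b - gg m μ x₀ t₀ ψ a| ≤
      3 * c₀ * δ + (1 + L ^ 2 / 2 * G0) * √((δ + e) * (Λ + e)) := by
    intro e he
    have hK : 0 < √((Λ + e) / (δ + e)) := Real.sqrt_pos.2 (by positivity)
    have h1 := keyest' hμ hfin x₀ hs hb hL hK ha hab hbt
    have e1 : √((Λ + e) / (δ + e)) * (δ + e) = √((δ + e) * (Λ + e)) := by
      rw [← Real.sqrt_sq (show 0 ≤ δ + e by positivity), ← Real.sqrt_mul (by positivity),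
        Real.sqrt_sq (show 0 ≤ δ + e by positivity)]
      congr 1
      field_simp
    have e2 : (Λ + e) / √((Λ + e) / (δ + e)) = √((δ + e) * (Λ + e)) := by
      rw [div_eq_iff hK.ne', ← Real.sqrt_mul (by positivity)]
      have : (δ + e) * (Λ + e) * ((Λ + e) / (δ + e)) = (Λ + e) ^ 2 := by field_simp
      rw [this, Real.sqrt_sq (by positivity)]
    set K := √((Λ + e) / (δ + e)) with hKdef
    have h2 : K * δ ≤ √((δ + e) * (Λ + e)) := by
      rw [← e1]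
      gcongr
      linarith
    have h3 : L ^ 2 / (2 * K) * gauss m μ x₀ t₀ a * Λ ≤ L ^ 2 / 2 * G0 * √((δ + e) * (Λ + e)) := by
      calc L ^ 2 / (2 * K) * gauss m μ x₀ t₀ a * Λ ≤ L ^ 2 / (2 * K) * G0 * (Λ + e) := by
            gcongr
            linarith
        _ = L ^ 2 / 2 * G0 * ((Λ + e) / K) := by field_simp
        _ = _ := by rw [e2]
    calc _ ≤ (K + 3 * c₀) * δ + L ^ 2 / (2 * K) * gauss m μ x₀ t₀ a * Λ := h1
      _ ≤ 3 * c₀ * δ + (√((δ + e) * (Λ + e)) + L ^ 2 / 2 * G0 * √((δ + e) * (Λ + e))) := by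
          linarith
      _ = _ := by ring
  have hlim : Tendsto (fun e : ℝ => 3 * c₀ * δ + (1 + L ^ 2 / 2 * G0) * √((δ + e) * (Λ + e)))
      (𝓝[>] 0) (𝓝 (3 * c₀ * δ + (1 + L ^ 2 / 2 * G0) * √((δ + 0) * (Λ + 0)))) := by
    refine Tendsto.mono_left ?_ nhdsWithin_le_nhds
    have : Continuous (fun e : ℝ => 3 * c₀ * δ + (1 + L ^ 2 / 2 * G0) * √((δ + e) * (Λ + e))) := by
      fun_prop
    exact this.tendsto 0
  rw [add_zero, add_zero] at hlim
  refine ge_of_tendsto hlim ?_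
  filter_upwards [self_mem_nhdsWithin] with e he
  exact key e he

/-- Summability of the square roots gives uniqueness. -/
lemma crit_sum (hμ : IsBrakkeFlow m t₀ μ P H) (hfin : ∀ t ∈ Ico 0 t₀, μ t univ < ⊤)
    (x₀ : E) (ht₀ : 0 < t₀) {a : ℕ → ℝ} (ha : Monotone a) (ha0 : ∀ k, a k ∈ Ico 0 t₀)
    (halim : Tendsto a atTop (𝓝 t₀))
    (hsum : Summable fun k => √((gauss m μ x₀ t₀ (a k) - gauss m μ x₀ t₀ (a (k + 1))) *
      (Real.log (t₀ - a k) - Real.log (t₀ - a (k + 1))))) :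
    UniqueTangentFlow m μ x₀ t₀ := by
  set G : ℝ → ℝ := gauss m μ x₀ t₀ with hG
  set r : ℕ → ℝ := fun k => √((G (a k) - G (a (k + 1))) *
      (Real.log (t₀ - a k) - Real.log (t₀ - a (k + 1)))) with hr
  have hG0n : 0 ≤ G 0 := gauss_nonneg ht₀
  have hGanti : ∀ s t, 0 ≤ s → s ≤ t → t < t₀ → G t ≤ G s := fun s t h1 h2 h3 =>
    gauss_anti hμ hfin x₀ h1 h2 h3
  have hGn : ∀ k, 0 ≤ G (a k) := fun k => gauss_nonneg (ha0 k).2
  -- the increments of the density are summable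
  have hsumG : Summable fun k => G (a k) - G (a (k + 1)) := by
    refine summable_of_sum_range_le (c := G (a 0)) (fun k => ?_) fun n => ?_
    · have := hGanti (a k) (a (k + 1)) (ha0 k).1 (ha (Nat.le_succ k)) (ha0 _).2
      linarith
    · rw [Finset.sum_range_sub']
      linarith [hGn n]
  refine unique_of_conv hμ hfin x₀ ht₀ fun φ hφ hc => ?_
  refine exists_tendsto_of_cauchy fun ε hε => ?_
  have hcm := cm_pos m
  -- approximate the weight-free function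
  obtain ⟨ψ, hψ, hψc, happ⟩ := exists_approx (ww_continuous (s := -1) hφ)
    (ww_compact (by norm_num) hc) (ε := ε / (8 * cm m * (G 0 + 1))) (by positivity)
  obtain ⟨c₀, hb⟩ := hψ.continuous.bounded_above_of_compact_support hψc
  obtain ⟨L, hL⟩ := (hψ.continuous_fderiv (by norm_num)).bounded_above_of_compact_support
    (hψc.fderiv (𝕜 := ℝ))
  obtain ⟨c₁, hb₁⟩ := ww_bdd hφ hc
  have hc0 : 0 ≤ c₀ := (norm_nonneg _).trans (hb 0)
  set M : ℝ := 1 + L ^ 2 / 2 * G 0 with hM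
  have hM0 : 0 < M := by positivity
  set R : ℕ → ℝ := fun k => 3 * c₀ * (G (a k) - G (a (k + 1))) + M * r k with hR
  have hRsum : Summable R := (hsumG.mul_left _).add (hsum.mul_left _)
  have hRn : ∀ k, 0 ≤ R k := by
    intro k
    have := hGanti (a k) (a (k + 1)) (ha0 k).1 (ha (Nat.le_succ k)) (ha0 _).2
    have h2 : 0 ≤ G (a k) - G (a (k + 1)) := by linarith
    have h3 : 0 ≤ r k := Real.sqrt_nonneg _
    positivity
  -- tail is small
  have htail : ∃ k₀, ∀ n ≥ k₀, ∑ i ∈ Finset.Ico k₀ n, R i ≤ ε / (8 * cm m) := by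
    have h1 := hRsum.hasSum.tendsto_sum_nat
    have h2 : ∀ᶠ k in atTop, |∑ i ∈ Finset.range k, R i - ∑' i, R i| < ε / (16 * cm m) := by
      have := (h1.sub_const (∑' i, R i)).abs
      rw [sub_self, abs_zero] at this
      exact this.eventually_lt_const (by positivity)
    obtain ⟨k₀, hk₀⟩ := eventually_atTop.1 h2
    refine ⟨k₀, fun n hn => ?_⟩
    rw [Finset.sum_Ico_eq_sub _ hn]
    have b1 := abs_lt.1 (hk₀ n hn)
    have b2 := abs_lt.1 (hk₀ k₀ le_rfl)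
    have : ε / (8 * cm m) = ε / (16 * cm m) + ε / (16 * cm m) := by ring
    linarith [b1.2, b2.1]
  obtain ⟨k₀, hk₀⟩ := htail
  -- control between `a k₀` and any later time
  have hstep : ∀ k, ∀ t ∈ Icc (a k) (a (k + 1)),
      |gg m μ x₀ t₀ ψ t - gg m μ x₀ t₀ ψ (a k)| ≤ R k := by
    intro k t ht
    have htt : t < t₀ := lt_of_le_of_lt ht.2 (ha0 _).2
    refine (kstep hμ hfin x₀ hψ hb hL (ha0 k).1 ht.1 htt).trans ?_
    have g1 : G (a (k + 1)) ≤ G t := hGanti _ _ ((ha0 k).1.trans ht.1) ht.2 (ha0 _).2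
    have g2 : G t ≤ G (a k) := hGanti _ _ (ha0 k).1 ht.1 htt
    have l1 : Real.log (t₀ - a (k + 1)) ≤ Real.log (t₀ - t) :=
      Real.log_le_log (by linarith [(ha0 (k + 1)).2]) (by linarith [ht.2])
    have l2 : Real.log (t₀ - t) ≤ Real.log (t₀ - a k) :=
      Real.log_le_log (by linarith) (by linarith [ht.1])
    have r1 : √((G (a k) - G t) * (Real.log (t₀ - a k) - Real.log (t₀ - t))) ≤ r k := by
      refine Real.sqrt_le_sqrt ?_
      exact mul_le_mul (by linarith) (by linarith) (by linarith) (by linarith)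
    have r2 : 3 * c₀ * (G (a k) - G t) ≤ 3 * c₀ * (G (a k) - G (a (k + 1))) := by
      refine mul_le_mul_of_nonneg_left (by linarith) (by positivity)
    exact add_le_add r2 (mul_le_mul_of_nonneg_left r1 hM0.le)
  have hchain : ∀ n ≥ k₀, |gg m μ x₀ t₀ ψ (a n) - gg m μ x₀ t₀ ψ (a k₀)| ≤
      ∑ i ∈ Finset.Ico k₀ n, R i := by
    intro n hn
    induction n, hn using Nat.le_induction with
    | base => simp
    | succ n hn ih =>
      rw [Finset.sum_Ico_succ_top hn]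
      have h1 := hstep n (a (n + 1)) ⟨ha (Nat.le_succ n), le_rfl⟩
      have e : gg m μ x₀ t₀ ψ (a (n + 1)) - gg m μ x₀ t₀ ψ (a k₀) =
          (gg m μ x₀ t₀ ψ (a n) - gg m μ x₀ t₀ ψ (a k₀)) +
          (gg m μ x₀ t₀ ψ (a (n + 1)) - gg m μ x₀ t₀ ψ (a n)) := by ring
      rw [e]
      exact (abs_add_le _ _).trans (add_le_add ih h1)
  have hall : ∀ t, a k₀ ≤ t → t < t₀ →
      |gg m μ x₀ t₀ ψ t - gg m μ x₀ t₀ ψ (a k₀)| ≤ ε / (4 * cm m) := by
    intro t ht1 ht2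
    -- find the block containing `t`
    have hex : ∃ n, t ≤ a (n + 1) := by
      have h1 := (halim.comp (tendsto_add_atTop_nat 1)).eventually_const_lt ht2
      obtain ⟨n, hn⟩ := h1.exists
      exact ⟨n, le_of_lt hn⟩
    classical
    have hex' : ∃ n, k₀ ≤ n ∧ t ≤ a (n + 1) := by
      obtain ⟨n, hn⟩ := hex
      exact ⟨max n k₀, le_max_right _ _, hn.trans (ha (by omega))⟩
    set n := Nat.find hex' with hn
    have hn1 : k₀ ≤ n := (Nat.find_spec hex').1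
    have hn2 : t ≤ a (n + 1) := (Nat.find_spec hex').2
    have hn3 : a n ≤ t := by
      rcases Nat.eq_or_lt_of_le hn1 with h | h
      · rw [← h]
        exact ht1
      · by_contra hcon
        rw [not_le] at hcon
        have h5 : n - 1 < n := by omega
        have h6 := Nat.find_min hex' (m := n - 1) (by rw [← hn]; exact h5)
        apply h6
        refine ⟨by omega, ?_⟩
        rw [show n - 1 + 1 = n by omega]
        exact hcon.le
    have h1 := hstep n t ⟨hn3, hn2⟩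
    have h2 := hchain n hn1
    have h3 := hk₀ (n + 1) (by omega)
    rw [Finset.sum_Ico_succ_top hn1] at h3
    have e : gg m μ x₀ t₀ ψ t - gg m μ x₀ t₀ ψ (a k₀) =
        (gg m μ x₀ t₀ ψ (a n) - gg m μ x₀ t₀ ψ (a k₀)) +
        (gg m μ x₀ t₀ ψ t - gg m μ x₀ t₀ ψ (a n)) := by ring
    rw [e]
    have h4 := abs_add_le (gg m μ x₀ t₀ ψ (a n) - gg m μ x₀ t₀ ψ (a k₀))
      (gg m μ x₀ t₀ ψ t - gg m μ x₀ t₀ ψ (a n))
    have h5 : ε / (8 * cm m) ≤ ε / (4 * cm m) := by gcongr; norm_num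
    linarith
  refine ⟨cm m * gg m μ x₀ t₀ ψ (a k₀), ?_⟩
  have hlim : Tendsto (fun l : ℝ => 1 / l ^ 2) atTop (𝓝 0) :=
    Tendsto.div_atTop tendsto_const_nhds (tendsto_pow_atTop (by norm_num))
  have hgap : 0 < t₀ - a k₀ := by linarith [(ha0 k₀).2]
  filter_upwards [ev_scale ht₀ (tendsto_id (α := ℝ)), hlim.eventually_lt_const hgap] with l hl1 hl2
  simp only [id] at hl1
  have hpos : 0 < 1 / l ^ 2 := by
    have := hl1.1
    positivity
  have ht : t₀ - 1 / l ^ 2 ∈ Ico 0 t₀ := ⟨by linarith [hl1.2], by linarith⟩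
  have : IsFiniteMeasure (μ (t₀ - 1 / l ^ 2)) := ⟨hfin _ ht⟩
  rw [phi_eq m μ x₀ t₀ hl1.1 hφ, ← mul_sub, abs_mul, abs_of_pos hcm]
  have d1 := gg_sub_le (m := m) (μ := μ) (x₀ := x₀) ht.2 (ww_continuous (s := -1) hφ)
    hψ.continuous hb₁ hb (ε := ε / (8 * cm m * (G 0 + 1)))
    (fun y => by rw [abs_sub_comm]; exact happ y)
  have d2 : ε / (8 * cm m * (G 0 + 1)) * gauss m μ x₀ t₀ (t₀ - 1 / l ^ 2) ≤ ε / (8 * cm m) := by
    calc _ ≤ ε / (8 * cm m * (G 0 + 1)) * (G 0 + 1) := by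
          have := hGanti 0 _ le_rfl ht.1 ht.2
          gcongr
          linarith
      _ = ε / (8 * cm m) := by field_simp
  have d3 := hall (t₀ - 1 / l ^ 2) (by linarith) ht.2
  have e : gg m μ x₀ t₀ (ww (-1) φ) (t₀ - 1 / l ^ 2) - gg m μ x₀ t₀ ψ (a k₀) =
      (gg m μ x₀ t₀ (ww (-1) φ) (t₀ - 1 / l ^ 2) - gg m μ x₀ t₀ ψ (t₀ - 1 / l ^ 2)) +
      (gg m μ x₀ t₀ ψ (t₀ - 1 / l ^ 2) - gg m μ x₀ t₀ ψ (a k₀)) := by ring
  have d4 := abs_add_le
    (gg m μ x₀ t₀ (ww (-1) φ) (t₀ - 1 / l ^ 2) - gg m μ x₀ t₀ ψ (t₀ - 1 / l ^ 2))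
    (gg m μ x₀ t₀ ψ (t₀ - 1 / l ^ 2) - gg m μ x₀ t₀ ψ (a k₀))
  rw [← e] at d4
  calc cm m * |gg m μ x₀ t₀ (ww (-1) φ) (t₀ - 1 / l ^ 2) - gg m μ x₀ t₀ ψ (a k₀)|
      ≤ cm m * (ε / (8 * cm m) + ε / (4 * cm m)) := by
        gcongr
        linarith
    _ = 3 / 8 * ε := by
        field_simp
        norm_num
    _ ≤ ε := by linarith

end Vale.Agent.P218.H67
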