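import Vale.Agent.P218.H67.Loj2

open MeasureTheory Set Filter Topology

namespace Vale.Agent.P218.H67

variable {E : Type} [NormedAddCommGroup E] [InnerProductSpace ℝ E] [FiniteDimensional ℝ E]
    [MeasurableSpace E] [BorelSpace E]
    {m : ℕ} {t₀ : ℝ} {μ : ℝ → Measure (E)}
    {P : ℝ → E → (E →L[ℝ] E)} {H : ℝ → E → E}

/-- A logarithmic rate of convergence of the density ratio gives uniqueness. -/
lemma crit_rate (hμ : IsBrakkeFlow m t₀ μ P H) (hfin : ∀ t ∈ Ico 0 t₀, μ t univ < ⊤)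
    (x₀ : E) (ht₀ : 0 < t₀) {Θ C ε : ℝ} (hε : 0 < ε)
    (hΘ : Tendsto (gauss m μ x₀ t₀) (𝓝[<] t₀) (𝓝 Θ))
    (h : ∀ᶠ t in 𝓝[<] t₀, gauss m μ x₀ t₀ t - Θ ≤
      C * (Real.log (1 / (t₀ - t))) ^ (-(1 + ε))) :
    UniqueTangentFlow m μ x₀ t₀ := by
  set G : ℝ → ℝ := gauss m μ x₀ t₀ with hG
  have hGanti : ∀ s t, 0 ≤ s → s ≤ t → t < t₀ → G t ≤ G s := fun s t h1 h2 h3 =>
    gauss_anti hμ hfin x₀ h1 h2 h3
  have hGΘ : ∀ s ∈ Ico 0 t₀, Θ ≤ G s := by
    intro s hs
    refine le_of_tendsto hΘ ?_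
    filter_upwards [Ioo_mem_nhdsLT hs.2] with t ht
    exact hGanti _ _ hs.1 ht.1.le ht.2
  obtain ⟨t₁, ht₁, hsub⟩ := (mem_nhdsLT_iff_exists_Ioo_subset' ht₀).1
    (h.and (Ioo_mem_nhdsLT ht₀))
  have ht₁' : t₁ < t₀ := ht₁
  -- starting index
  have hexp : Tendsto (fun k : ℕ => Real.exp (-((2 : ℝ) ^ k))) atTop (𝓝 0) :=
    Real.tendsto_exp_neg_atTop_nhds_zero.comp (tendsto_pow_atTop_atTop_of_one_lt (by norm_num))
  obtain ⟨k0, hk0⟩ := (hexp.eventually_lt_const (sub_pos.2 ht₁')).exists_forall_of_atTop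
  set a : ℕ → ℝ := fun k => t₀ - Real.exp (-((2 : ℝ) ^ (k + k0))) with ha
  have hain : ∀ k, a k ∈ Ioo t₁ t₀ := by
    intro k
    have h1 := hk0 (k + k0) (by omega)
    have h2 := Real.exp_pos (-((2 : ℝ) ^ (k + k0)))
    simp only [ha]
    exact ⟨by linarith, by linarith⟩
  have hamem : ∀ k, a k ∈ Ico 0 t₀ := fun k => by
    have := (hsub (hain k)).2
    exact ⟨this.1.le, this.2⟩
  have hamono : Monotone a := by
    refine monotone_nat_of_le_succ fun k => ?_
    simp only [ha]
    have h1 : (2 : ℝ) ^ (k + k0) ≤ 2 ^ (k + 1 + k0) :=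
      pow_le_pow_right₀ (by norm_num) (by omega)
    have h2 : Real.exp (-((2 : ℝ) ^ (k + 1 + k0))) ≤ Real.exp (-((2 : ℝ) ^ (k + k0))) :=
      Real.exp_le_exp.2 (by linarith)
    linarith
  have halim : Tendsto a atTop (𝓝 t₀) := by
    have h1 := (hexp.comp (tendsto_add_atTop_nat k0)).const_sub t₀
    rw [sub_zero] at h1
    exact h1
  have hlogk : ∀ k, Real.log (t₀ - a k) = -((2 : ℝ) ^ (k + k0)) := by
    intro k
    simp only [ha]
    rw [sub_sub_cancel, Real.log_exp]
  set q : ℝ := (2 : ℝ) ^ (-(ε / 2)) with hq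
  have hq0 : 0 < q := by positivity
  have hq1 : q < 1 := Real.rpow_lt_one_of_one_lt_of_neg (by norm_num) (by linarith)
  refine crit_sum hμ hfin x₀ ht₀ hamono hamem halim ?_
  have hgeo : Summable fun k : ℕ => √|C| * q ^ k0 * q ^ k :=
    (summable_geometric_of_lt_one hq0.le hq1).mul_left _
  refine Summable.of_nonneg_of_le (fun k => Real.sqrt_nonneg _) (fun k => ?_) hgeo
  rw [hlogk, hlogk]
  set X : ℝ := (2 : ℝ) ^ (k + k0) with hX
  have hX0 : 0 < X := by positivity
  have hX2 : (2 : ℝ) ^ (k + 1 + k0) = 2 * X := by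
    rw [hX, show k + 1 + k0 = k + k0 + 1 by omega, pow_succ]
    ring
  rw [hX2, show -X - -(2 * X) = X by ring]
  have h1 := (hsub (hain k)).1
  have h1' : G (a k) - Θ ≤ C * (Real.log (1 / (t₀ - a k))) ^ (-(1 + ε)) := h1
  rw [one_div, Real.log_inv, hlogk, neg_neg] at h1'
  have h2 : G (a k) - G (a (k + 1)) ≤ |C| * X ^ (-(1 + ε)) := by
    have h3 := hGΘ _ (hamem (k + 1))
    have h4 : C * X ^ (-(1 + ε)) ≤ |C| * X ^ (-(1 + ε)) := by
      have : 0 ≤ X ^ (-(1 + ε)) := Real.rpow_nonneg hX0.le _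
      exact mul_le_mul_of_nonneg_right (le_abs_self C) this
    linarith
  have h5 : X ^ (-(1 + ε)) * X = X ^ (-ε) := by
    rw [← Real.rpow_add_one hX0.ne']
    congr 1
    ring
  have h6 : X ^ (-ε) = (q ^ (k + k0)) ^ 2 := by
    have e1 : X = (2 : ℝ) ^ ((k + k0 : ℕ) : ℝ) := by rw [hX, Real.rpow_natCast]
    have e2 : (q ^ (k + k0)) ^ 2 = (2 : ℝ) ^ (-(ε / 2) * ((k + k0) * 2 : ℕ)) := by
      rw [← pow_mul, hq, Real.rpow_mul (by norm_num), Real.rpow_natCast]
    rw [e1, e2, ← Real.rpow_mul (by norm_num)]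
    congr 1
    push_cast
    ring
  calc √((G (a k) - G (a (k + 1))) * X) ≤ √(|C| * (q ^ (k + k0)) ^ 2) := by
        refine Real.sqrt_le_sqrt ?_
        calc (G (a k) - G (a (k + 1))) * X ≤ |C| * X ^ (-(1 + ε)) * X :=
              mul_le_mul_of_nonneg_right h2 hX0.le
          _ = |C| * (q ^ (k + k0)) ^ 2 := by rw [mul_assoc, h5, h6]
    _ = √|C| * q ^ (k + k0) := by
        rw [Real.sqrt_mul (abs_nonneg C), Real.sqrt_sq (by positivity)]
    _ = √|C| * q ^ k0 * q ^ k := by
        rw [pow_add]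
        ring

/-- In dimension three, a skew map commuting with two reflections in different planes is zero. -/
lemma skew_zero (hE : Module.finrank ℝ E = 3) {u v : E} (huv : LinearIndependent ℝ ![u, v])
    {ω : E →L[ℝ] E}
    (hω : ∀ x, inner ℝ (ω x) x = 0)
    (hu : ∀ x, (ℝ ∙ u)ᗮ.reflection (ω x) = ω ((ℝ ∙ u)ᗮ.reflection x))
    (hv : ∀ x, (ℝ ∙ v)ᗮ.reflection (ω x) = ω ((ℝ ∙ v)ᗮ.reflection x)) : ω = 0 := by
  -- polarised skewness
  have hpol : ∀ x y, inner ℝ (ω x) y = -inner ℝ x (ω y) := by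
    intro x y
    have h1 := hω (x + y)
    rw [map_add, inner_add_left, inner_add_right, inner_add_right, hω x, hω y] at h1
    rw [real_inner_comm (ω y) x]
    linarith
  have key : ∀ w : E, (∀ x, (ℝ ∙ w)ᗮ.reflection (ω x) = ω ((ℝ ∙ w)ᗮ.reflection x)) →
      ω w = 0 := by
    intro w hw
    have h1 := hw w
    rw [Submodule.reflection_orthogonalComplement_singleton_eq_neg, map_neg] at h1
    rw [Submodule.reflection_apply] at h1
    have h3 : (ℝ ∙ w)ᗮ.starProjection (ω w) = 0 := by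
      have h4 : (2 : ℝ) • (ℝ ∙ w)ᗮ.starProjection (ω w) = 0 := by
        rw [two_smul]
        rw [two_nsmul] at h1
        have := congrArg (fun z => z + ω w) h1
        simpa using this
      exact (smul_eq_zero.1 h4).resolve_left (by norm_num)
    have h2 : ω w ∈ (ℝ ∙ w) := by
      rw [← Submodule.orthogonal_orthogonal (ℝ ∙ w)]
      exact (Submodule.starProjection_apply_eq_zero_iff _).1 h3
    obtain ⟨c, hc⟩ := Submodule.mem_span_singleton.1 h2
    have h5 := hω w
    rw [← hc, inner_smul_left, real_inner_self_eq_norm_sq] at h5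
    rcases mul_eq_zero.1 h5 with h6 | h6
    · have : c = 0 := by simpa using h6
      rw [← hc, this, zero_smul]
    · have : w = 0 := by simpa using h6
      rw [this, map_zero]
  have hu0 := key u hu
  have hv0 := key v hv
  set W : Submodule ℝ (E) := Submodule.span ℝ (Set.range ![u, v]) with hW
  have hWdim : Module.finrank ℝ W = 2 := by
    have := finrank_span_eq_card huv
    simpa using this
  have hWz : ∀ x ∈ W, ω x = 0 := by
    intro x hx
    induction hx using Submodule.span_induction with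
    | mem x h =>
      obtain ⟨i, rfl⟩ := h
      fin_cases i
      · exact hu0
      · exact hv0
    | zero => exact map_zero _
    | add x y _ _ hx hy => rw [map_add, hx, hy, add_zero]
    | smul c x _ hx => rw [map_smul, hx, smul_zero]
  have hperp : ∀ x, ω x ∈ Wᗮ := by
    intro x
    rw [Submodule.mem_orthogonal']
    intro y hy
    rw [hpol, hWz y hy, inner_zero_right, neg_zero]
  have hdim : Module.finrank ℝ Wᗮ = 1 := by
    have h1 := Submodule.finrank_add_finrank_orthogonal W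
    rw [hWdim, hE] at h1
    omega
  obtain ⟨w, hw0, hw⟩ := finrank_eq_one_iff'.1 hdim
  have hww : ω (w : E) = 0 := by
    obtain ⟨c, hc⟩ := hw ⟨ω w, hperp w⟩
    have hc' : c • (w : E) = ω w := congrArg Subtype.val hc
    have h5 := hω (w : E)
    rw [← hc', inner_smul_left, real_inner_self_eq_norm_sq] at h5
    rcases mul_eq_zero.1 h5 with h6 | h6
    · have : c = 0 := by simpa using h6
      rw [← hc', this, zero_smul]
    · exfalso
      apply hw0
      have : (w : E) = 0 := by simpa using h6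
      exact Subtype.ext this
  ext1 x
  have hx : x = W.starProjection x + Wᗮ.starProjection x := by
    exact (Submodule.starProjection_add_starProjection_orthogonal (K := W) x).symm
  have h1 : ω (W.starProjection x) = 0 := hWz _ (Submodule.starProjection_apply_mem W x)
  have h2 : ω (Wᗮ.starProjection x) = 0 := by
    obtain ⟨c, hc⟩ := hw ⟨Wᗮ.starProjection x, Submodule.starProjection_apply_mem Wᗮ x⟩
    have hc' : c • (w : E) = Wᗮ.starProjection x := congrArg Subtype.val hc
    rw [← hc', map_smul, hww, smul_zero]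
  rw [hx, map_add, h1, h2, add_zero]
  rfl

end Vale.Agent.P218.H67
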