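import Vale.Agent.P218.H67.AC

open MeasureTheory Set Filter Topology

namespace Vale.Agent.P218.H67

variable {E : Type} [NormedAddCommGroup E] [InnerProductSpace ℝ E] [FiniteDimensional ℝ E]
    [MeasurableSpace E] [BorelSpace E]

/-- weight removal -/
noncomputable def ww (s : ℝ) (φ : E → ℝ) (y : E) : ℝ := φ (√(-s) • y) / gw y

lemma ww_continuous {s : ℝ} {φ : E → ℝ} (hφ : Continuous φ) : Continuous (ww s φ) := by
  unfold ww
  exact (hφ.comp (continuous_const_smul _)).div gw_contDiff.continuous fun y => (gw_pos y).ne'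

lemma ww_compact {s : ℝ} (hs : s < 0) {φ : E → ℝ} (hc : HasCompactSupport φ) :
    HasCompactSupport (ww s φ) := by
  have h1 : 0 < √(-s) := Real.sqrt_pos.2 (by linarith)
  obtain ⟨R, hR⟩ := hc.isCompact.isBounded.subset_closedBall (0 : E)
  refine HasCompactSupport.intro (isCompact_closedBall (0 : E) (R / √(-s))) fun y hy => ?_
  have h2 : φ (√(-s) • y) = 0 := by
    by_contra hne
    apply hy
    have h3 := hR (subset_tsupport _ (Function.mem_support.2 hne))
    rw [mem_closedBall_zero_iff, norm_smul, Real.norm_of_nonneg h1.le] at h3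
    rw [mem_closedBall_zero_iff, le_div_iff₀ h1, mul_comm]
    exact h3
  unfold ww
  rw [h2, zero_div]

lemma integral_rescale (m : ℕ) (μ : ℝ → Measure (E)) (x₀ : E) (t₀ : ℝ) {l s : ℝ}
    (hl : 0 < l) (hs : s < 0) {φ : E → ℝ} (hφ : Continuous φ) :
    ∫ y, φ y ∂(rescale m μ x₀ t₀ l s) =
      (4 * Real.pi * (-s)) ^ ((m : ℝ) / 2) * gg m μ x₀ t₀ (ww s φ) (t₀ + s / l ^ 2) := by
  unfold rescale gg
  rw [integral_smul_measure, integral_map (by fun_prop) hφ.aestronglyMeasurable,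
    ENNReal.toReal_ofReal (by positivity), smul_eq_mul, ← integral_const_mul, ← integral_const_mul]
  congr 1
  funext x
  have hsp : 0 < -s := by linarith
  have h1 : t₀ - (t₀ + s / l ^ 2) = -s / l ^ 2 := by ring
  have h2 : √(-s) • sim x₀ t₀ (t₀ + s / l ^ 2) x = l • (x - x₀) := by
    unfold sim
    rw [h1, Real.sqrt_div hsp.le, Real.sqrt_sq hl.le, smul_smul]
    congr 1
    have : √(-s) ≠ 0 := (Real.sqrt_pos.2 hsp).ne'
    field_simp
  have h3 : kap m t₀ (t₀ + s / l ^ 2) = (4 * Real.pi * (-s)) ^ (-(m : ℝ) / 2) * l ^ m := by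
    unfold kap
    rw [h1, show 4 * Real.pi * (-s / l ^ 2) = (4 * Real.pi * (-s)) / l ^ 2 by ring,
      Real.div_rpow (by positivity) (by positivity)]
    have h4 : (l ^ 2) ^ (-(m : ℝ) / 2) = (l ^ m)⁻¹ := by
      rw [← Real.rpow_natCast l 2, ← Real.rpow_mul hl.le, ← Real.rpow_natCast l m,
        ← Real.rpow_neg hl.le]
      congr 1
      push_cast
      ring
    rw [h4, div_inv_eq_mul]
  have h5 : (4 * Real.pi * (-s)) ^ ((m : ℝ) / 2) * (4 * Real.pi * (-s)) ^ (-(m : ℝ) / 2) = 1 := by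
    rw [← Real.rpow_add (by positivity), ← Real.rpow_zero (4 * Real.pi * (-s))]
    congr 1
    ring
  unfold ww
  rw [h2, h3]
  have hg := (gw_pos (sim x₀ t₀ (t₀ + s / l ^ 2) x)).ne'
  calc l ^ m * φ (l • (x - x₀)) =
      ((4 * Real.pi * (-s)) ^ ((m : ℝ) / 2) * (4 * Real.pi * (-s)) ^ (-(m : ℝ) / 2)) *
        (l ^ m * φ (l • (x - x₀))) := by rw [h5, one_mul]
    _ = _ := by
      rw [mul_div_assoc', mul_div_cancel_left₀ _ hg]
      ring

section

variable {m : ℕ} {t₀ : ℝ} {μ : ℝ → Measure (E)}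
    {P : ℝ → E → (E →L[ℝ] E)} {H : ℝ → E → E}

/-- comparison of the slices at different times, along the same scales -/
lemma slice_compare (hμ : IsBrakkeFlow m t₀ μ P H) (hfin : ∀ t ∈ Ico 0 t₀, μ t univ < ⊤)
    (x₀ : E) (ht₀ : 0 < t₀) {ψ : E → ℝ} (hψ : Continuous ψ) (hc : HasCompactSupport ψ)
    {s : ℝ} (hs : s < 0) {ι : Type} {F : Filter ι} {l : ι → ℝ} (hl : Tendsto l F atTop) :
    Tendsto (fun i => gg m μ x₀ t₀ ψ (t₀ + s / (l i) ^ 2) -
      gg m μ x₀ t₀ ψ (t₀ + (-1) / (l i) ^ 2)) F (𝓝 0) := by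
  rw [Metric.tendsto_nhds]
  intro ε hε
  set q := max (-s) (-s)⁻¹ with hq
  have hsp : 0 < -s := by linarith
  have hq1 : 1 ≤ q := by
    rcases le_total 1 (-s) with h | h
    · exact h.trans (le_max_left _ _)
    · exact (one_le_inv₀ hsp |>.2 h).trans (le_max_right _ _)
  obtain ⟨τ₁, hτ₁, hτ₁t, h⟩ := ac hμ hfin x₀ ht₀ hψ hc hq1 (ε / 2) (by positivity)
  have hlim : Tendsto (fun i => max 1 (-s) / (l i) ^ 2) F (𝓝 0) :=
    (Tendsto.div_atTop tendsto_const_nhds (tendsto_pow_atTop (by norm_num))).comp hl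
  have hev1 : ∀ᶠ i in F, max 1 (-s) / (l i) ^ 2 < τ₁ := hlim.eventually_lt_const hτ₁
  have hev2 : ∀ᶠ i in F, 0 < l i := hl.eventually_gt_atTop 0
  filter_upwards [hev1, hev2] with i h1 h2
  rw [Real.dist_eq, sub_zero]
  have e1 : t₀ + s / (l i) ^ 2 = t₀ - (-s) / (l i) ^ 2 := by ring
  have e2 : t₀ + (-1) / (l i) ^ 2 = t₀ - 1 / (l i) ^ 2 := by ring
  rw [e1, e2]
  have p1 : 0 < (l i) ^ 2 := by positivity
  have b1 : 1 / (l i) ^ 2 ≤ τ₁ := by
    refine le_trans ?_ h1.le
    gcongr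
    exact le_max_left _ _
  have b2 : (-s) / (l i) ^ 2 ≤ τ₁ := by
    refine le_trans ?_ h1.le
    gcongr
    exact le_max_right _ _
  rcases le_total (-s) 1 with hs1 | hs1
  · have := h (1 / (l i) ^ 2) ((-s) / (l i) ^ 2) (by positivity) (by gcongr) (by
      rw [mul_div_assoc']
      gcongr
      calc (1 : ℝ) = (-s)⁻¹ * (-s) := (inv_mul_cancel₀ hsp.ne').symm
        _ ≤ q * (-s) := by
          gcongr
          exact le_max_right _ _) b1
    linarith
  · have := h ((-s) / (l i) ^ 2) (1 / (l i) ^ 2) (by positivity) (by gcongr) (by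
      rw [mul_div_assoc', mul_one]
      gcongr
      exact le_max_left _ _) b2
    rw [abs_sub_comm]
    linarith

/-- The self-similar family generated by a measure at time `-1`. -/
noncomputable def selfSim (m : ℕ) (ν : Measure (E)) (s : ℝ) : Measure (E) :=
  ENNReal.ofReal (√(-s) ^ m) • ν.map (fun y => √(-s) • y)

lemma selfSim_finite (m : ℕ) (ν : Measure (E)) [IsFiniteMeasureOnCompacts ν] {s : ℝ}
    (hs : s < 0) : IsFiniteMeasureOnCompacts (selfSim m ν s) := by
  have h1 : 0 < √(-s) := Real.sqrt_pos.2 (by linarith)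
  constructor
  intro K hK
  have hm : Measurable (fun y : E => √(-s) • y) := by fun_prop
  unfold selfSim
  rw [Measure.smul_apply, Measure.map_apply hm hK.measurableSet, smul_eq_mul]
  refine ENNReal.mul_lt_top ENNReal.ofReal_lt_top ?_
  have h2 : IsCompact ((fun y : E => √(-s) • y) ⁻¹' K) :=
    (Homeomorph.smulOfNeZero (√(-s)) h1.ne').isClosedEmbedding.isCompact_preimage hK
  exact h2.measure_lt_top

lemma integral_selfSim (m : ℕ) (ν : Measure (E)) (s : ℝ) {φ : E → ℝ}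
    (hφ : Continuous φ) : ∫ y, φ y ∂(selfSim m ν s) = √(-s) ^ m * ∫ y, φ (√(-s) • y) ∂ν := by
  unfold selfSim
  rw [integral_smul_measure, integral_map (by fun_prop) hφ.aestronglyMeasurable,
    ENNReal.toReal_ofReal (by positivity), smul_eq_mul]

/-- convergence at time `-1` gives convergence at all times -/
lemma vague_all (hμ : IsBrakkeFlow m t₀ μ P H) (hfin : ∀ t ∈ Ico 0 t₀, μ t univ < ⊤)
    (x₀ : E) (ht₀ : 0 < t₀) {ι : Type} {F : Filter ι} {l : ι → ℝ} (hl : Tendsto l F atTop)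
    {ν : Measure (E)} (h : VagueTendsto (fun i => rescale m μ x₀ t₀ (l i) (-1)) F ν) {s : ℝ}
    (hs : s < 0) : VagueTendsto (fun i => rescale m μ x₀ t₀ (l i) s) F (selfSim m ν s) := by
  intro φ hφ hc
  have hsp : 0 < -s := by linarith
  have h1 : 0 < √(-s) := Real.sqrt_pos.2 hsp
  have hev2 : ∀ᶠ i in F, 0 < l i := hl.eventually_gt_atTop 0
  set φ' : E → ℝ := fun y => φ (√(-s) • y) with hφ'
  have hφ'c : Continuous φ' := hφ.comp (continuous_const_smul _)
  have hφ's : HasCompactSupport φ' :=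
    hc.comp_isClosedEmbedding (Homeomorph.smulOfNeZero (√(-s)) h1.ne').isClosedEmbedding
  have hww : ww (-1) φ' = ww s φ := by
    funext y
    simp only [ww, hφ', neg_neg, Real.sqrt_one, one_smul]
  have e0 : (4 * Real.pi * (-s)) ^ ((m : ℝ) / 2) =
      √(-s) ^ m * (4 * Real.pi * (-(-1))) ^ ((m : ℝ) / 2) := by
    rw [neg_neg, mul_one, Real.mul_rpow (by positivity) hsp.le, mul_comm]
    congr 1
    rw [Real.sqrt_eq_rpow, ← Real.rpow_natCast, ← Real.rpow_mul hsp.le]
    congr 1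
    ring
  have e1 : ∀ᶠ i in F, ∫ y, φ y ∂(rescale m μ x₀ t₀ (l i) s) =
      (4 * Real.pi * (-s)) ^ ((m : ℝ) / 2) * (gg m μ x₀ t₀ (ww s φ) (t₀ + s / (l i) ^ 2) -
        gg m μ x₀ t₀ (ww s φ) (t₀ + (-1) / (l i) ^ 2)) +
      √(-s) ^ m * ∫ y, φ' y ∂(rescale m μ x₀ t₀ (l i) (-1)) := by
    filter_upwards [hev2] with i hi
    rw [integral_rescale m μ x₀ t₀ hi hs hφ, integral_rescale m μ x₀ t₀ hi (by norm_num) hφ'c,
      hww, e0]
    ring
  have l1 := (slice_compare hμ hfin x₀ ht₀ (ww_continuous (s := s) hφ) (ww_compact hs hc) hs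
    hl).const_mul ((4 * Real.pi * (-s)) ^ ((m : ℝ) / 2))
  have l2 := (h φ' hφ'c hφ's).const_mul (√(-s) ^ m)
  have l3 := l1.add l2
  rw [mul_zero, zero_add] at l3
  rw [integral_selfSim m ν s hφ]
  exact l3.congr' (by filter_upwards [e1] with i hi; exact hi.symm)

/-- Riesz representation of limits. -/
lemma exists_limit {ι : Type} {F : Filter ι} [F.NeBot] {ρ : ι → Measure (E)}
    (hρ : ∀ᶠ i in F, IsFiniteMeasureOnCompacts (ρ i))
    (h : ∀ φ : E → ℝ, Continuous φ → HasCompactSupport φ →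
      ∃ v, Tendsto (fun i => ∫ y, φ y ∂(ρ i)) F (𝓝 v)) :
    ∃ ν : Measure (E), IsFiniteMeasureOnCompacts ν ∧ VagueTendsto ρ F ν := by
  choose! v hv using h
  have hv' : ∀ f : CompactlySupportedContinuousMap (E) ℝ,
      Tendsto (fun i => ∫ y, f y ∂(ρ i)) F (𝓝 (v f)) := fun f =>
    hv f f.continuous f.hasCompactSupport
  have hint : ∀ f : CompactlySupportedContinuousMap (E) ℝ, ∀ᶠ i in F,
      Integrable f (ρ i) := by
    intro f
    filter_upwards [hρ] with i hi
    exact f.continuous.integrable_of_hasCompactSupport f.hasCompactSupport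
  let Λ : CompactlySupportedContinuousMap (E) ℝ →ₗ[ℝ] ℝ :=
    { toFun := fun f => v f
      map_add' := by
        intro f g
        refine tendsto_nhds_unique (hv' (f + g)) (((hv' f).add (hv' g)).congr' ?_)
        filter_upwards [hint f, hint g] with i h1 h2
        rw [← integral_add h1 h2]
        rfl
      map_smul' := by
        intro c f
        refine tendsto_nhds_unique (hv' (c • f)) (((hv' f).const_mul c).congr' ?_)
        refine Eventually.of_forall fun i => ?_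
        change c * ∫ y, f y ∂(ρ i) = ∫ y, c * f y ∂(ρ i)
        rw [integral_const_mul] }
  have hΛ : ∀ f, 0 ≤ f → 0 ≤ Λ f := by
    intro f hf
    refine ge_of_tendsto' (hv' f) fun i => integral_nonneg fun x => hf x
  let Λ' : CompactlySupportedContinuousMap (E) ℝ →ₚ[ℝ] ℝ := PositiveLinearMap.mk₀ Λ hΛ
  refine ⟨RealRMK.rieszMeasure Λ', inferInstance, ?_⟩
  intro φ hφ hc
  have h1 := RealRMK.integral_rieszMeasure Λ' ⟨⟨φ, hφ⟩, hc⟩
  have h2 : ∫ x, φ x ∂(RealRMK.rieszMeasure Λ') = v φ := h1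
  rw [h2]
  exact hv φ hφ hc

end

end Vale.Agent.P218.H67
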