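import Vale.Agent.P218.H67.Basic

open MeasureTheory Set Filter Topology

namespace Vale.Agent.P218.H67

variable {E : Type} [NormedAddCommGroup E] [InnerProductSpace ℝ E] [FiniteDimensional ℝ E]
    [MeasurableSpace E] [BorelSpace E]

/-- Gaussian weight -/
noncomputable def gw (y : E) : ℝ := Real.exp (-(‖y‖ ^ 2) / 4)

lemma gw_pos (y : E) : 0 < gw y := Real.exp_pos _

lemma gw_le (y : E) : gw y ≤ 1 := by
  unfold gw
  apply Real.exp_le_one_iff.2
  have : 0 ≤ ‖y‖ ^ 2 := by positivity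
  linarith

lemma gw_contDiff : ContDiff ℝ 2 (gw (E := E)) := by
  unfold gw
  exact (((contDiff_norm_sq ℝ).neg).div_const 4).exp

lemma gw_hasFDerivAt (y : E) :
    HasFDerivAt (gw (E := E)) ((gw y) • (-(1 / 2 : ℝ)) • innerSL ℝ y) y := by
  have h1 : HasFDerivAt (fun z : E => ‖z‖ ^ 2) (2 • innerSL ℝ y) y :=
    (hasStrictFDerivAt_norm_sq y).hasFDerivAt
  have h2 : HasFDerivAt (fun z : E => -(‖z‖ ^ 2) / 4) ((-(1 / 2 : ℝ)) • innerSL ℝ y) y := by
    have h3 := h1.const_mul (-(1 / 4 : ℝ))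
    have e1 : (fun z : E => -(‖z‖ ^ 2) / 4) = fun z => (-(1 / 4 : ℝ)) * ‖z‖ ^ 2 := by
      funext z
      ring
    have e2 : (-(1 / 2 : ℝ)) • innerSL ℝ y = (-(1 / 4 : ℝ)) • (2 • innerSL ℝ y) := by
      rw [← Nat.cast_smul_eq_nsmul ℝ, smul_smul]
      norm_num
    rw [e1, e2]
    exact h3
  exact h2.exp

lemma young {A c D w : ℝ} (hA : 0 ≤ A) (hc : 0 ≤ c)
    (h : D ^ 2 ≤ 4 * c * A) : D * w ≤ c + A * w ^ 2 := by
  have h1 : (D * w) ^ 2 ≤ (c + A * w ^ 2) ^ 2 := by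
    have h2 : D ^ 2 * w ^ 2 ≤ 4 * c * A * w ^ 2 := by gcongr
    nlinarith [sq_nonneg (c - A * w ^ 2)]
  have h3 : 0 ≤ c + A * w ^ 2 := by positivity
  exact (abs_le_of_sq_le_sq' h1 h3).2

lemma IsPlane.symm {m : ℕ} {P : E →L[ℝ] E} (h : IsPlane m P) (x y : E) :
    inner ℝ (P x) y = inner ℝ x (P y) := by
  obtain ⟨V, -, rfl⟩ := h
  exact (Submodule.inner_starProjection_left_eq_right V x y)

lemma IsPlane.idem {m : ℕ} {P : E →L[ℝ] E} (h : IsPlane m P) (x : E) :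
    P (P x) = P x := by
  obtain ⟨V, -, rfl⟩ := h
  exact Submodule.starProjection_eq_self_iff.2 (Submodule.starProjection_apply_mem V x)

lemma IsPlane.norm_le {m : ℕ} {P : E →L[ℝ] E} (h : IsPlane m P) (x : E) :
    ‖P x‖ ≤ ‖x‖ := by
  obtain ⟨V, -, rfl⟩ := h
  exact Submodule.norm_starProjection_apply_le V x

lemma IsPlane.trace {m : ℕ} {P : E →L[ℝ] E} (h : IsPlane m P) :
    LinearMap.trace ℝ (E) (P : E →ₗ[ℝ] E) = m := by
  obtain ⟨V, hV, rfl⟩ := h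
  have : LinearMap.IsProj V ((V.starProjection : E →L[ℝ] E) : E →ₗ[ℝ] E) := by
    constructor
    · intro x
      exact Submodule.starProjection_apply_mem V x
    · intro x hx
      exact Submodule.starProjection_eq_self_iff.2 hx
  rw [this.trace, hV]

/-- The pointwise identity behind Huisken's monotonicity formula, as an inequality. -/
lemma pointwise {m : ℕ} {P : E →L[ℝ] E} (hP : IsPlane m P) {h y : E} (hh : P h = 0)
    {A c : ℝ} {D : E →L[ℝ] ℝ} (hA : 0 ≤ A) (hc : 0 ≤ c) (hD : ‖D‖ ^ 2 ≤ 4 * c * A) :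
    -(‖h‖ ^ 2 * A) + (D h - 1 / 2 * inner ℝ y h * A) +
      1 / 2 * (m * A + (D y - 1 / 2 * inner ℝ y y * A)) -
      1 / 2 * ((D (P y) - 1 / 2 * inner ℝ y (P y) * A) + A * m) - 1 / 2 * A * inner ℝ h y ≤ c := by
  set z : E := y - P y with hz
  have hPz : P z = 0 := by rw [hz, map_sub, hP.idem, sub_self]
  have e1 : inner ℝ (P y) h = 0 := by rw [hP.symm, hh, inner_zero_right]
  have e2 : inner ℝ z h = inner ℝ y h := by rw [hz, inner_sub_left, e1, sub_zero]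
  have e3 : inner ℝ (P y) z = 0 := by rw [hP.symm, hPz, inner_zero_right]
  have e4 : inner ℝ z z = inner ℝ y y - inner ℝ y (P y) := by
    have : inner ℝ z z = inner ℝ y z := by
      conv_lhs => rw [hz]
      rw [inner_sub_left, e3, sub_zero]
    rw [this, hz, inner_sub_right]
  set w : E := h + (1 / 2 : ℝ) • z with hw
  have e5 : ‖w‖ ^ 2 = ‖h‖ ^ 2 + inner ℝ y h + 1 / 4 * (inner ℝ y y - inner ℝ y (P y)) := by
    rw [hw, norm_add_sq_real, norm_smul, mul_pow, inner_smul_right, real_inner_comm, e2, ← e4,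
      real_inner_self_eq_norm_sq]
    norm_num
    ring
  have e6 : D w = D h + 1 / 2 * (D y - D (P y)) := by
    rw [hw, map_add, map_smul, hz, map_sub, smul_eq_mul]
  have e7 : D w ≤ c + A * ‖w‖ ^ 2 := by
    calc D w ≤ ‖D w‖ := le_abs_self _
      _ ≤ ‖D‖ * ‖w‖ := D.le_opNorm w
      _ ≤ c + A * ‖w‖ ^ 2 := young hA hc hD
  have e8 : inner ℝ h y = inner ℝ y h := real_inner_comm _ _
  rw [e8]
  rw [e5, e6] at e7
  linarith

lemma norm_sim_sq (x₀ x : E) {t₀ t : ℝ} (h : t < t₀) :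
    ‖sim x₀ t₀ t x‖ ^ 2 = ‖x - x₀‖ ^ 2 / (t₀ - t) := by
  have hτ : 0 < t₀ - t := by linarith
  unfold sim
  rw [norm_smul, norm_inv, Real.norm_of_nonneg (Real.sqrt_nonneg _), mul_pow, inv_pow,
    Real.sq_sqrt hτ.le]
  field_simp

lemma gauss_eq (m : ℕ) (μ : ℝ → Measure (E)) (x₀ : E) {t₀ t : ℝ} (h : t < t₀) :
    gauss m μ x₀ t₀ t = ∫ x, kap m t₀ t * gw (sim x₀ t₀ t x) ∂(μ t) := by
  unfold gauss
  congr 1
  funext x
  unfold gw kap
  rw [norm_sim_sq x₀ x h]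
  congr 2
  have hτ : 0 < t₀ - t := by linarith
  field_simp

end Vale.Agent.P218.H67
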