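import Vale.Agent.P218.H67.Mass

open MeasureTheory Set Filter Topology

namespace Vale.Agent.P218.H67

variable {E : Type} [NormedAddCommGroup E] [InnerProductSpace ℝ E] [FiniteDimensional ℝ E]
    [MeasurableSpace E] [BorelSpace E]

/-- Gaussian weighted integral of `ψ` in similarity variables -/
noncomputable def gg (m : ℕ) (μ : ℝ → Measure (E)) (x₀ : E) (t₀ : ℝ) (ψ : E → ℝ)
    (t : ℝ) : ℝ :=
  ∫ x, kap m t₀ t * (gw (sim x₀ t₀ t x) * ψ (sim x₀ t₀ t x)) ∂(μ t)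

lemma integrable_gg {m : ℕ} {μ : ℝ → Measure (E)} {x₀ : E} {t₀ t : ℝ}
    [IsFiniteMeasure (μ t)] {ψ : E → ℝ} (hψ : Continuous ψ) {c : ℝ} (hb : ∀ y, |ψ y| ≤ c) :
    Integrable (fun x => kap m t₀ t * (gw (sim x₀ t₀ t x) * ψ (sim x₀ t₀ t x))) (μ t) := by
  refine Integrable.const_mul ?_ _
  have cs := sim_continuous x₀ t₀ t
  refine Integrable.mono' (integrable_const c)
    ((gw_contDiff.continuous.comp cs).mul (hψ.comp cs)).aestronglyMeasurable ?_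
  refine Eventually.of_forall fun x => ?_
  rw [norm_mul, Real.norm_of_nonneg (gw_pos _).le]
  calc gw (sim x₀ t₀ t x) * ‖ψ (sim x₀ t₀ t x)‖ ≤ 1 * c :=
        mul_le_mul (gw_le _) (hb _) (norm_nonneg _) zero_le_one
    _ = c := one_mul c

lemma integrable_gauss {m : ℕ} {μ : ℝ → Measure (E)} {x₀ : E} {t₀ t : ℝ}
    [IsFiniteMeasure (μ t)] :
    Integrable (fun x => kap m t₀ t * gw (sim x₀ t₀ t x)) (μ t) := by
  refine (integrable_gg (m := m) (x₀ := x₀) (t₀ := t₀) (continuous_const (y := (1 : ℝ)))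
    (c := 1) (by simp)).congr (Eventually.of_forall fun x => by simp)

lemma gauss_nonneg {m : ℕ} {μ : ℝ → Measure (E)} {x₀ : E} {t₀ t : ℝ} (ht : t < t₀) :
    0 ≤ gauss m μ x₀ t₀ t := by
  rw [gauss_eq m μ x₀ ht]
  exact integral_nonneg fun x => mul_nonneg (kap_pos m ht).le (gw_pos _).le

lemma gauss_le_kap {m : ℕ} {μ : ℝ → Measure (E)} {x₀ : E} {t₀ t : ℝ} (ht : t < t₀)
    [IsFiniteMeasure (μ t)] : gauss m μ x₀ t₀ t ≤ kap m t₀ t * (μ t univ).toReal := by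
  rw [gauss_eq m μ x₀ ht]
  have h1 : ∫ x, kap m t₀ t * gw (sim x₀ t₀ t x) ∂(μ t) ≤ ∫ _, kap m t₀ t ∂(μ t) := by
    refine integral_mono integrable_gauss (integrable_const _) fun x => ?_
    exact mul_le_of_le_one_right (kap_pos m ht).le (gw_le _)
  refine h1.trans (le_of_eq ?_)
  rw [integral_const, smul_eq_mul, mul_comm]
  rfl

lemma kap_mono (m : ℕ) {t₀ s t : ℝ} (hst : s ≤ t) (ht : t < t₀) : kap m t₀ s ≤ kap m t₀ t := by
  unfold kap
  have h1 : 0 < t₀ - t := by linarith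
  refine Real.rpow_le_rpow_of_nonpos (by positivity) ?_ ?_
  · have : t₀ - t ≤ t₀ - s := by linarith
    gcongr
  · have : (0 : ℝ) ≤ m := Nat.cast_nonneg m
    linarith

section

variable {m : ℕ} {t₀ : ℝ} {μ : ℝ → Measure (E)}
    {P : ℝ → E → (E →L[ℝ] E)} {H : ℝ → E → E}

lemma prof_le (hμ : IsBrakkeFlow m t₀ μ P H) (hfin : ∀ t ∈ Ico 0 t₀, μ t univ < ⊤) (x₀ : E)
    {A : E → ℝ} {c : ℝ} (hc : 0 ≤ c) (hA : Prof c A) {a b : ℝ} (ha : 0 ≤ a) (hab : a ≤ b)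
    (hb : b < t₀) {C : ℝ} (hC : ∀ t ∈ Icc a b, gauss m μ x₀ t₀ t ≤ C) :
    gg m μ x₀ t₀ A b - gg m μ x₀ t₀ A a ≤
      c * C * (Real.log (t₀ - a) - Real.log (t₀ - b)) := by
  have hQ : ContDiff ℝ 2 (fun z : E => gw z * A z) := gw_contDiff.mul hA.smooth
  have hQc : HasCompactSupport (fun z : E => gw z * A z) := hA.compact.mul_left
  obtain ⟨h1, h2⟩ := hμ.brakke _ (tst_isTest m x₀ t₀ hQ hQc
    (fun y => mul_nonneg (gw_pos y).le (hA.nonneg y))) a b ha hab hb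
  have hcont : ContinuousOn (fun t : ℝ => c * C / (t₀ - t)) (uIcc a b) := by
    refine ContinuousOn.div continuousOn_const (by fun_prop) ?_
    intro t ht
    rw [uIcc_of_le hab] at ht
    have : 0 < t₀ - t := by linarith [ht.2]
    exact this.ne'
  have h3 : ∫ t in a..b, rate μ H (tst m x₀ t₀ (fun z => gw z * A z)) t ≤
      ∫ t in a..b, c * C / (t₀ - t) := by
    rw [intervalIntegral.integral_of_le hab, intervalIntegral.integral_of_le hab]
    refine integral_mono_ae h1.1 hcont.intervalIntegrable.1 ?_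
    have hsub : Ioc a b ⊆ Ioo 0 t₀ := fun s hs => ⟨lt_of_le_of_lt ha hs.1, lt_of_le_of_lt hs.2 hb⟩
    have h4 := ae_restrict_of_ae_restrict_of_subset hsub (rate_le hμ hfin x₀ hc hA)
    filter_upwards [h4, ae_restrict_mem measurableSet_Ioc] with t ht1 ht2
    refine ht1.trans ?_
    have hτ : 0 < t₀ - t := by linarith [ht2.2]
    rw [mul_div_right_comm]
    exact mul_le_mul_of_nonneg_left (hC t ⟨ht2.1.le, ht2.2⟩) (by positivity)
  have h5 : ∫ t in a..b, c * C / (t₀ - t) =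
      c * C * (Real.log (t₀ - a) - Real.log (t₀ - b)) := by
    have hd : ∀ t ∈ uIcc a b, HasDerivAt (fun s => -(c * C) * Real.log (t₀ - s))
        (c * C / (t₀ - t)) t := by
      intro t ht
      rw [uIcc_of_le hab] at ht
      have hτ : 0 < t₀ - t := by linarith [ht.2]
      have e1 : HasDerivAt (fun s : ℝ => t₀ - s) (-1) t := by
        simpa using (hasDerivAt_id t).const_sub t₀
      have e2 := (e1.log hτ.ne').const_mul (-(c * C))
      have e3 : -(c * C) * (-1 / (t₀ - t)) = c * C / (t₀ - t) := by ring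
      rw [e3] at e2
      exact e2
    rw [intervalIntegral.integral_eq_sub_of_hasDerivAt hd hcont.intervalIntegrable]
    ring
  rw [h5] at h3
  exact h2.trans h3

lemma gg_cut_tendsto {ψ : E → ℝ} (hψ : Continuous ψ) {c : ℝ} (hb : ∀ y, |ψ y| ≤ c)
    (x₀ : E) (t : ℝ) [IsFiniteMeasure (μ t)] :
    Tendsto (fun n : ℕ => gg m μ x₀ t₀ (fun y => ψ y * cut ((n : ℝ) + 1) y) t) atTop
      (𝓝 (gg m μ x₀ t₀ ψ t)) := by
  unfold gg
  have cs := sim_continuous x₀ t₀ t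
  refine tendsto_integral_of_dominated_convergence (fun _ => |kap m t₀ t| * c) ?_
    (integrable_const _) ?_ ?_
  · intro n
    exact (continuous_const.mul ((gw_contDiff.continuous.comp cs).mul
      ((hψ.comp cs).mul ((cut_contDiff _).continuous.comp cs)))).aestronglyMeasurable
  · intro n
    refine Eventually.of_forall fun x => ?_
    rw [norm_mul, norm_mul, norm_mul, Real.norm_of_nonneg (gw_pos _).le,
      Real.norm_of_nonneg (cut_nonneg _ _)]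
    have hc0 : 0 ≤ c := (abs_nonneg _).trans (hb 0)
    have h1 : ‖ψ (sim x₀ t₀ t x)‖ * cut ((n : ℝ) + 1) (sim x₀ t₀ t x) ≤ c * 1 :=
      mul_le_mul (hb _) (cut_le_one _ _) (cut_nonneg _ _) hc0
    have h2 : gw (sim x₀ t₀ t x) * (‖ψ (sim x₀ t₀ t x)‖ * cut ((n : ℝ) + 1) (sim x₀ t₀ t x)) ≤
        1 * (c * 1) :=
      mul_le_mul (gw_le _) h1 (mul_nonneg (norm_nonneg _) (cut_nonneg _ _)) zero_le_one
    rw [Real.norm_eq_abs]
    refine mul_le_mul_of_nonneg_left ?_ (abs_nonneg _)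
    linarith
  · refine Eventually.of_forall fun x => ?_
    have h1 := (cut_tendsto (sim x₀ t₀ t x)).const_mul (ψ (sim x₀ t₀ t x))
    rw [mul_one] at h1
    exact (h1.const_mul _).const_mul _

lemma keyest0 (hμ : IsBrakkeFlow m t₀ μ P H) (hfin : ∀ t ∈ Ico 0 t₀, μ t univ < ⊤) (x₀ : E)
    {ψ : E → ℝ} {c₀ L : ℝ} (hψ : Bd c₀ L ψ) {K : ℝ} (hK : 0 < K) {a b : ℝ} (ha : 0 ≤ a)
    (hab : a ≤ b) (hb : b < t₀) {C : ℝ} (hC : ∀ t ∈ Icc a b, gauss m μ x₀ t₀ t ≤ C) :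
    (gg m μ x₀ t₀ ψ b + K * gauss m μ x₀ t₀ b) - (gg m μ x₀ t₀ ψ a + K * gauss m μ x₀ t₀ a) ≤
      L ^ 2 / (2 * K) * C * (Real.log (t₀ - a) - Real.log (t₀ - b)) := by
  have hcont : Continuous (fun y => ψ y + K) := hψ.smooth.continuous.add continuous_const
  have hc0 : 0 ≤ c₀ := (hψ.nonneg 0).trans (hψ.le 0)
  have hbd : ∀ y, |ψ y + K| ≤ c₀ + K := by
    intro y
    rw [abs_of_nonneg (by linarith [hψ.nonneg y])]
    linarith [hψ.le y]
  have hsplit : ∀ t ∈ Ico 0 t₀, gg m μ x₀ t₀ (fun y => ψ y + K) t =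
      gg m μ x₀ t₀ ψ t + K * gauss m μ x₀ t₀ t := by
    intro t ht
    have : IsFiniteMeasure (μ t) := ⟨hfin t ht⟩
    rw [gauss_eq m μ x₀ ht.2, ← integral_const_mul]
    unfold gg
    rw [← integral_add (integrable_gg hψ.smooth.continuous (c := c₀)
      (fun y => by rw [abs_of_nonneg (hψ.nonneg y)]; exact hψ.le y)) (integrable_gauss.const_mul _)]
    congr 1
    funext x
    ring
  have ha' : a ∈ Ico 0 t₀ := ⟨ha, lt_of_le_of_lt hab hb⟩
  have hb' : b ∈ Ico 0 t₀ := ⟨ha.trans hab, hb⟩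
  have fa : IsFiniteMeasure (μ a) := ⟨hfin a ha'⟩
  have fb : IsFiniteMeasure (μ b) := ⟨hfin b hb'⟩
  rw [← hsplit a ha', ← hsplit b hb']
  have l1 := (gg_cut_tendsto (m := m) (t₀ := t₀) (μ := μ) hcont hbd x₀ b).sub
    (gg_cut_tendsto (m := m) (t₀ := t₀) (μ := μ) hcont hbd x₀ a)
  have l2 : Tendsto (fun n : ℕ => (L ^ 2 / (2 * K) + 18 * (K + c₀) / ((n : ℝ) + 1) ^ 2) * C *
      (Real.log (t₀ - a) - Real.log (t₀ - b))) atTop
      (𝓝 ((L ^ 2 / (2 * K) + 0) * C * (Real.log (t₀ - a) - Real.log (t₀ - b)))) := by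
    refine Tendsto.mul_const _ (Tendsto.mul_const _ (Tendsto.const_add _ ?_))
    refine Tendsto.div_atTop tendsto_const_nhds ?_
    exact (tendsto_pow_atTop (by norm_num)).comp
      (tendsto_atTop_add_const_right _ _ tendsto_natCast_atTop_atTop)
  rw [add_zero] at l2
  refine le_of_tendsto_of_tendsto' l1 l2 fun n => ?_
  have hR : (0 : ℝ) < (n : ℝ) + 1 := by positivity
  exact prof_le hμ hfin x₀ (by positivity) (hψ.prof hK hR) ha hab hb hC

lemma gauss_anti (hμ : IsBrakkeFlow m t₀ μ P H) (hfin : ∀ t ∈ Ico 0 t₀, μ t univ < ⊤)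
    (x₀ : E) {a b : ℝ} (ha : 0 ≤ a) (hab : a ≤ b) (hb : b < t₀) :
    gauss m μ x₀ t₀ b ≤ gauss m μ x₀ t₀ a := by
  have hfin0 : μ 0 univ < ⊤ := hfin 0 ⟨le_rfl, by linarith⟩
  have hC : ∀ t ∈ Icc a b, gauss m μ x₀ t₀ t ≤ kap m t₀ b * (μ 0 univ).toReal := by
    intro t ht
    have ht' : t ∈ Ico 0 t₀ := ⟨ha.trans ht.1, lt_of_le_of_lt ht.2 hb⟩
    have : IsFiniteMeasure (μ t) := ⟨hfin t ht'⟩
    refine (gauss_le_kap ht'.2).trans ?_
    refine mul_le_mul (kap_mono m ht.2 hb) ?_ ENNReal.toReal_nonneg (kap_pos m hb).le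
    exact ENNReal.toReal_mono hfin0.ne (mass_le hμ hfin0 ht')
  have h0 : Bd (E := E) 0 0 (fun _ => 0) :=
    ⟨contDiff_const, fun _ => le_rfl, fun _ => le_rfl, fun y => by simp⟩
  have h1 := keyest0 hμ hfin x₀ h0 one_pos ha hab hb hC
  have h2 : ∀ t, gg m μ x₀ t₀ (fun _ => 0) t = 0 := by
    intro t
    simp [gg]
  rw [h2, h2] at h1
  norm_num at h1
  exact h1

/-- The key estimate. -/
lemma keyest (hμ : IsBrakkeFlow m t₀ μ P H) (hfin : ∀ t ∈ Ico 0 t₀, μ t univ < ⊤) (x₀ : E)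
    {ψ : E → ℝ} {c₀ L : ℝ} (hψ : Bd c₀ L ψ) {K : ℝ} (hK : 0 < K) {a b : ℝ} (ha : 0 ≤ a)
    (hab : a ≤ b) (hb : b < t₀) :
    |gg m μ x₀ t₀ ψ b - gg m μ x₀ t₀ ψ a| ≤
      (K + c₀) * (gauss m μ x₀ t₀ a - gauss m μ x₀ t₀ b) +
      L ^ 2 / (2 * K) * gauss m μ x₀ t₀ a * (Real.log (t₀ - a) - Real.log (t₀ - b)) := by
  have hC : ∀ t ∈ Icc a b, gauss m μ x₀ t₀ t ≤ gauss m μ x₀ t₀ a := fun t ht =>
    gauss_anti hμ hfin x₀ ha ht.1 (lt_of_le_of_lt ht.2 hb)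
  have hc0 : 0 ≤ c₀ := (hψ.nonneg 0).trans (hψ.le 0)
  have hd : 0 ≤ gauss m μ x₀ t₀ a - gauss m μ x₀ t₀ b := by
    linarith [hC b ⟨hab, le_rfl⟩]
  have h1 := keyest0 hμ hfin x₀ hψ hK ha hab hb hC
  have h2' : Bd c₀ L (fun y => c₀ - ψ y) := by
    refine ⟨contDiff_const.sub hψ.smooth, fun y => by linarith [hψ.le y],
      fun y => by linarith [hψ.nonneg y], fun y => ?_⟩
    rw [fderiv_const_sub, norm_neg]
    exact hψ.grad y
  have h2 := keyest0 hμ hfin x₀ h2' hK ha hab hb hC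
  have hsplit : ∀ t ∈ Ico 0 t₀, gg m μ x₀ t₀ (fun y => c₀ - ψ y) t =
      c₀ * gauss m μ x₀ t₀ t - gg m μ x₀ t₀ ψ t := by
    intro t ht
    have : IsFiniteMeasure (μ t) := ⟨hfin t ht⟩
    rw [gauss_eq m μ x₀ ht.2, ← integral_const_mul]
    unfold gg
    rw [← integral_sub (integrable_gauss.const_mul _) (integrable_gg hψ.smooth.continuous (c := c₀)
      (fun y => by rw [abs_of_nonneg (hψ.nonneg y)]; exact hψ.le y))]
    congr 1
    funext x
    ring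
  rw [hsplit a ⟨ha, lt_of_le_of_lt hab hb⟩, hsplit b ⟨ha.trans hab, hb⟩] at h2
  have h3 : 0 ≤ c₀ * (gauss m μ x₀ t₀ a - gauss m μ x₀ t₀ b) := mul_nonneg hc0 hd
  rw [abs_le]
  constructor
  · nlinarith
  · nlinarith

end

end Vale.Agent.P218.H67
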